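import Crest.Agent.R066.Basic

/-! Basic facts on augmented F₂-chains (task M1). -/

set_option autoImplicit false
set_option linter.unusedSectionVars false
set_option linter.unusedVariables false
set_option linter.unusedSimpArgs false
open scoped BigOperators

namespace Crest.Agent.R066

variable {V : Type*} [DecidableEq V]

theorem bd_single (s : Finset V) (c : ZMod 2) :
    bd (Finsupp.single s c) = ∑ v ∈ s, Finsupp.single (s.erase v) c := by
  simp [bd, LinearMap.sum_apply]

theorem ch_add_self (c : Ch V) : c + c = 0 := by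
  ext σ
  exact CharTwo.add_self_eq_zero _

theorem ch_add_add_cancel (a b : Ch V) : a + b + b = a := by
  rw [add_assoc, ch_add_self, add_zero]

/-- Linear maps on chains agree if they agree on simplices. -/
theorem ch_hom_ext {M : Type*} [AddCommMonoid M] [Module (ZMod 2) M] {f g : Ch V →ₗ[ZMod 2] M}
    (h : ∀ σ, f (Finsupp.single σ 1) = g (Finsupp.single σ 1)) : f = g := by
  apply Finsupp.lhom_ext'
  intro σ
  apply LinearMap.ext_ring
  exact h σ

theorem bd_bd (z : Ch V) : bd (bd z) = 0 := by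
  have h : (bd.comp bd : Ch V →ₗ[ZMod 2] Ch V) = 0 := by
    apply ch_hom_ext
    intro σ
    rw [LinearMap.comp_apply, bd_single, map_sum, LinearMap.zero_apply]
    have h1 : ∀ v ∈ σ, bd (Finsupp.single (σ.erase v) 1 : Ch V) =
        ∑ w ∈ σ.erase v, (Finsupp.single ((σ.erase v).erase w) 1 : Ch V) := fun v _ => bd_single _ _
    rw [Finset.sum_congr rfl h1, Finset.sum_sigma']
    refine Finset.sum_involution (fun p _ => ⟨p.2, p.1⟩) ?_ ?_ ?_ ?_
    · rintro ⟨v, w⟩ h
      simp only
      rw [Finset.erase_right_comm]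
      exact ch_add_self _
    · rintro ⟨v, w⟩ h _ heq
      simp only [Finset.mem_sigma, Finset.mem_erase] at h
      simp only [Sigma.mk.injEq] at heq
      exact h.2.1 heq.1
    · rintro ⟨v, w⟩ h
      simp only [Finset.mem_sigma, Finset.mem_erase] at h ⊢
      exact ⟨h.2.2, fun e => h.2.1 e.symm, h.1⟩
    · rintro ⟨v, w⟩ h
      rfl
  exact LinearMap.congr_fun h z

omit [DecidableEq V] in
theorem mem_chains {K : Set (Finset V)} {i : ℕ} {z : Ch V} :
    z ∈ chains K i ↔ ∀ s ∈ z.support, s ∈ K ∧ s.card = i := by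
  rw [chains, Finsupp.mem_supported]
  constructor
  · intro h s hs
    exact h (Finset.mem_coe.2 hs)
  · intro h s hs
    exact h s (Finset.mem_coe.1 hs)

omit [DecidableEq V] in
theorem chains_mono {K K' : Set (Finset V)} (h : K ⊆ K') (i : ℕ) : chains K i ≤ chains K' i := by
  intro z hz
  rw [mem_chains] at hz ⊢
  exact fun s hs => ⟨h (hz s hs).1, (hz s hs).2⟩

omit [DecidableEq V] in
theorem single_mem_chains {K : Set (Finset V)} {s : Finset V} (hs : s ∈ K) (c : ZMod 2) :
    Finsupp.single s c ∈ chains K s.card := by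
  rw [mem_chains]
  intro t ht
  rw [Finset.mem_singleton.1 (Finsupp.support_single_subset ht)]
  exact ⟨hs, rfl⟩

omit [DecidableEq V] in
theorem single_mem_chains' {K : Set (Finset V)} {s : Finset V} {i : ℕ} (hs : s ∈ K)
    (hi : s.card = i) (c : ZMod 2) : Finsupp.single s c ∈ chains K i := by
  subst hi
  exact single_mem_chains hs c

/-- A simplex in the image of a chain comes from a simplex of the chain. -/
theorem mem_support_linearCombination {ι W : Type*} {f : ι → W →₀ ZMod 2} (c : ι →₀ ZMod 2) {σ : W}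
    (h : σ ∈ (Finsupp.linearCombination (ZMod 2) f c).support) :
    ∃ τ ∈ c.support, σ ∈ (f τ).support := by
  classical
  rw [Finsupp.linearCombination_apply, Finsupp.sum] at h
  obtain ⟨τ, hτ, h2⟩ := Finset.mem_biUnion.1 (Finsupp.support_finsetSum h)
  exact ⟨τ, hτ, Finsupp.support_smul h2⟩

theorem linearMap_eq_linearCombination {ι W : Type*} (f : (ι →₀ ZMod 2) →ₗ[ZMod 2] (W →₀ ZMod 2)) :
    f = Finsupp.linearCombination (ZMod 2) (fun i => f (Finsupp.single i 1)) := by
  apply Finsupp.lhom_ext'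
  intro σ
  apply LinearMap.ext_ring
  simp

theorem mem_support_map {ι W : Type*} (f : (ι →₀ ZMod 2) →ₗ[ZMod 2] (W →₀ ZMod 2))
    (c : ι →₀ ZMod 2) {σ : W} (h : σ ∈ (f c).support) :
    ∃ τ ∈ c.support, σ ∈ (f (Finsupp.single τ 1)).support := by
  rw [linearMap_eq_linearCombination f] at h
  exact mem_support_linearCombination c h

theorem mem_support_bd {z : Ch V} {t : Finset V} (h : t ∈ (bd z).support) :
    ∃ s ∈ z.support, ∃ v ∈ s, t = s.erase v := by
  obtain ⟨s, hs, h2⟩ := mem_support_map bd z h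
  refine ⟨s, hs, ?_⟩
  rw [bd_single] at h2
  obtain ⟨v, hv, h3⟩ := Finset.mem_biUnion.1 (Finsupp.support_finsetSum h2)
  exact ⟨v, hv, Finset.mem_singleton.1 (Finsupp.support_single_subset h3)⟩

theorem bd_mem {K : Set (Finset V)} (hK : IsCx K) {i : ℕ} {z : Ch V} (hz : z ∈ chains K (i + 1)) :
    bd z ∈ chains K i := by
  rw [mem_chains] at hz ⊢
  intro t ht
  obtain ⟨s, hs, v, hv, rfl⟩ := mem_support_bd ht
  obtain ⟨h1, h2⟩ := hz s hs
  refine ⟨hK s h1 _ (Finset.erase_subset _ _), ?_⟩
  rw [Finset.card_erase_of_mem hv, h2]; rfl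

/-- The join operator with a fixed simplex `σ` (zero on simplices meeting `σ`). -/
noncomputable def joinOp (σ : Finset V) : Ch V →ₗ[ZMod 2] Ch V :=
  Finsupp.lsum (ZMod 2) (fun s => if Disjoint σ s then Finsupp.lsingle (σ ∪ s) else 0)

theorem joinOp_single (σ s : Finset V) (c : ZMod 2) : joinOp σ (Finsupp.single s c) =
    if Disjoint σ s then Finsupp.single (σ ∪ s) c else 0 := by
  unfold joinOp
  rw [Finsupp.lsum_single]
  split_ifs <;> simp

/-- The link operator of `σ`. -/
noncomputable def lnkOp (σ : Finset V) : Ch V →ₗ[ZMod 2] Ch V :=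
  Finsupp.lsum (ZMod 2) (fun s => if σ ⊆ s then Finsupp.lsingle (s \ σ) else 0)

theorem lnkOp_single (σ s : Finset V) (c : ZMod 2) : lnkOp σ (Finsupp.single s c) =
    if σ ⊆ s then Finsupp.single (s \ σ) c else 0 := by
  unfold lnkOp
  rw [Finsupp.lsum_single]
  split_ifs <;> simp

/-- The cone operator with apex `v`. -/
noncomputable def coneOp (v : V) : Ch V →ₗ[ZMod 2] Ch V :=
  Finsupp.lsum (ZMod 2) (fun s => if v ∈ s then 0 else Finsupp.lsingle (insert v s))

theorem coneOp_single (v : V) (s : Finset V) (c : ZMod 2) : coneOp v (Finsupp.single s c) =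
    if v ∈ s then 0 else Finsupp.single (insert v s) c := by
  unfold coneOp
  rw [Finsupp.lsum_single]
  split_ifs <;> simp

theorem mem_support_joinOp {σ : Finset V} {z : Ch V} {t : Finset V} (h : t ∈ (joinOp σ z).support) :
    ∃ s ∈ z.support, Disjoint σ s ∧ t = σ ∪ s := by
  obtain ⟨s, hs, h2⟩ := mem_support_map _ z h
  refine ⟨s, hs, ?_⟩
  rw [joinOp_single] at h2
  split_ifs at h2 with h3
  · exact ⟨h3, Finset.mem_singleton.1 (Finsupp.support_single_subset h2)⟩
  · simp at h2

theorem mem_support_lnkOp {σ : Finset V} {z : Ch V} {t : Finset V} (h : t ∈ (lnkOp σ z).support) :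
    ∃ s ∈ z.support, σ ⊆ s ∧ t = s \ σ := by
  obtain ⟨s, hs, h2⟩ := mem_support_map _ z h
  refine ⟨s, hs, ?_⟩
  rw [lnkOp_single] at h2
  split_ifs at h2 with h3
  · exact ⟨h3, Finset.mem_singleton.1 (Finsupp.support_single_subset h2)⟩
  · simp at h2

theorem mem_support_coneOp {v : V} {z : Ch V} {t : Finset V} (h : t ∈ (coneOp v z).support) :
    ∃ s ∈ z.support, v ∉ s ∧ t = insert v s := by
  obtain ⟨s, hs, h2⟩ := mem_support_map _ z h
  refine ⟨s, hs, ?_⟩
  rw [coneOp_single] at h2
  split_ifs at h2 with h3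
  · simp at h2
  · exact ⟨h3, Finset.mem_singleton.1 (Finsupp.support_single_subset h2)⟩

/-- The cone is a contracting homotopy. -/
theorem bd_coneOp (v : V) (c : Ch V) : bd (coneOp v c) + coneOp v (bd c) = c := by
  have h : (bd.comp (coneOp v) + (coneOp v).comp bd : Ch V →ₗ[ZMod 2] Ch V) = LinearMap.id := by
    apply ch_hom_ext
    intro σ
    rw [LinearMap.add_apply, LinearMap.comp_apply, LinearMap.comp_apply, coneOp_single, bd_single,
      map_sum, LinearMap.id_apply]
    simp only [coneOp_single]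
    by_cases hv : v ∈ σ
    · rw [if_pos hv, map_zero, zero_add, Finset.sum_eq_single v]
      · rw [if_neg (Finset.notMem_erase v σ), Finset.insert_erase hv]
      · intro w hw hwv
        rw [if_pos (Finset.mem_erase.2 ⟨fun e => hwv e.symm, hv⟩)]
      · intro h; exact absurd hv h
    · rw [if_neg hv, bd_single, Finset.sum_insert hv, Finset.erase_insert hv]
      have h1 : ∀ w ∈ σ, (if v ∈ σ.erase w then (0 : Ch V) else
          Finsupp.single (insert v (σ.erase w)) 1) = Finsupp.single ((insert v σ).erase w) 1 := by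
        intro w hw
        have hwv : v ≠ w := fun e => hv (e ▸ hw)
        rw [if_neg (fun h => hv (Finset.mem_of_mem_erase h)), Finset.erase_insert_of_ne hwv]
      rw [Finset.sum_congr rfl h1, add_assoc, ch_add_self, add_zero]
  exact LinearMap.congr_fun h c

/-- The link operator is a chain map. -/
theorem bd_lnkOp (σ : Finset V) (c : Ch V) : bd (lnkOp σ c) = lnkOp σ (bd c) := by
  have h : (bd.comp (lnkOp σ) : Ch V →ₗ[ZMod 2] Ch V) = (lnkOp σ).comp bd := by
    apply ch_hom_ext
    intro s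
    rw [LinearMap.comp_apply, LinearMap.comp_apply, lnkOp_single, bd_single, map_sum]
    simp only [lnkOp_single]
    by_cases hs : σ ⊆ s
    · rw [if_pos hs, bd_single]
      rw [← Finset.sum_subset (Finset.sdiff_subset : s \ σ ⊆ s)]
      · refine Finset.sum_congr rfl fun v hv => ?_
        rw [Finset.mem_sdiff] at hv
        have hx0 : ∀ x ∈ σ, x ≠ v := fun x hx e => hv.2 (by rw [← e]; exact hx)
        have hx1 : σ ⊆ s.erase v := fun x hx => Finset.mem_erase.2 ⟨hx0 x hx, hs hx⟩
        rw [if_pos hx1]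
        congr 1
        ext x
        simp only [Finset.mem_erase, Finset.mem_sdiff]
        tauto
      · intro v hv hv2
        rw [Finset.mem_sdiff, not_and_not_right] at hv2
        rw [if_neg]
        intro h
        exact Finset.notMem_erase v s (h (hv2 hv))
    · rw [if_neg hs, map_zero]
      symm
      refine Finset.sum_eq_zero fun v _ => if_neg fun h => hs (h.trans (Finset.erase_subset _ _))
  exact LinearMap.congr_fun h c







theorem bd_mapDomain {W : Type*} [DecidableEq W] (φ : V → W) (z : Ch V)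
    (h : ∀ s ∈ z.support, Set.InjOn φ s) :
    bd (z.mapDomain (Finset.image φ)) = (bd z).mapDomain (Finset.image φ) := by
  conv_rhs => rw [← Finsupp.sum_single z]
  rw [Finsupp.sum, map_sum, Finsupp.mapDomain, Finsupp.sum, map_sum]
  rw [← Finsupp.lmapDomain_apply (ZMod 2) (ZMod 2), map_sum]
  refine Finset.sum_congr rfl fun s hs => ?_
  rw [bd_single, bd_single, map_sum, Finset.sum_image (h s hs)]
  refine Finset.sum_congr rfl fun v hv => ?_
  rw [Finsupp.lmapDomain_apply, Finsupp.mapDomain_single]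
  congr 1
  ext w
  simp only [Finset.mem_erase, Finset.mem_image]
  constructor
  · rintro ⟨h1, a, ha, rfl⟩
    exact ⟨a, ⟨fun e => h1 (e ▸ rfl), ha⟩, rfl⟩
  · rintro ⟨a, ⟨h1, ha⟩, rfl⟩
    exact ⟨fun e => h1 (h s hs ha hv e), a, ha, rfl⟩


/-- Transport along a map of vertices which induces a bijection of simplices. -/
theorem exactAt_of_iso {W : Type*} [DecidableEq W] {K : Set (Finset V)} {K' : Set (Finset W)}
    (φ : V → W) (hinj : ∀ s ∈ K, ∀ t ∈ K, ∀ v ∈ s, ∀ w ∈ t, φ v = φ w → v = w)
    (hmap : ∀ s ∈ K, s.image φ ∈ K') (hsurj : ∀ t ∈ K', ∃ s ∈ K, s.image φ = t) (i : ℕ) :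
    ExactAt K i ↔ ExactAt K' i := by
  classical
  -- vertices of `K`
  set A : Set V := {v | ∃ s ∈ K, v ∈ s} with hA
  have hφ : Set.InjOn φ A := by
    rintro v ⟨s, hs, hv⟩ w ⟨t, ht, hw⟩ e
    exact hinj s hs t ht v hv w hw e
  set B : Set (Finset V) := {s | (s : Set V) ⊆ A} with hB
  have hKB : K ⊆ B := fun s hs v hv => ⟨s, hs, hv⟩
  have himg : Set.InjOn (Finset.image φ) B := by
    intro s hs t ht e
    ext x
    constructor
    · intro hx
      have : φ x ∈ t.image φ := by rw [← e]; exact Finset.mem_image_of_mem _ hx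
      obtain ⟨y, hy, hxy⟩ := Finset.mem_image.1 this
      rwa [← hφ (ht (Finset.mem_coe.2 hy)) (hs (Finset.mem_coe.2 hx)) hxy]
    · intro hx
      have : φ x ∈ s.image φ := by rw [e]; exact Finset.mem_image_of_mem _ hx
      obtain ⟨y, hy, hxy⟩ := Finset.mem_image.1 this
      rwa [← hφ (hs (Finset.mem_coe.2 hy)) (ht (Finset.mem_coe.2 hx)) hxy]
  have hsB : ∀ z : Ch V, (∀ s ∈ z.support, s ∈ K) → ∀ s ∈ z.support, Set.InjOn φ s :=
    fun z hz s hs => hφ.mono (hKB (hz s hs))
  -- injectivity on chains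
  have hinj2 : ∀ z w : Ch V, (∀ s ∈ z.support, s ∈ B) → (∀ s ∈ w.support, s ∈ B) →
      z.mapDomain (Finset.image φ) = w.mapDomain (Finset.image φ) → z = w := by
    intro z w hz hw e
    exact Finsupp.mapDomain_injOn B himg (fun s hs => hz s hs) (fun s hs => hw s hs) e
  have hbdB : ∀ z : Ch V, (∀ s ∈ z.support, s ∈ K) → ∀ t ∈ (bd z).support, t ∈ B := by
    intro z hz t ht
    obtain ⟨s, hs, v, hv, rfl⟩ := mem_support_bd ht
    exact fun x hx => hKB (hz s hs) (Finset.mem_of_mem_erase hx)
  -- lifting of chains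
  have hlift : ∀ j, ∀ z' ∈ chains K' j, ∃ z ∈ chains K j, z.mapDomain (Finset.image φ) = z' := by
    intro j z' hz'
    rw [mem_chains] at hz'
    choose! L hL1 hL2 using hsurj
    refine ⟨z'.mapDomain L, ?_, ?_⟩
    · rw [mem_chains]
      intro s hs
      obtain ⟨t, ht, rfl⟩ := Finset.mem_image.1 (Finsupp.mapDomain_support hs)
      have h1 := hz' t ht
      refine ⟨hL1 t h1.1, ?_⟩
      have h2 := hφ.mono (hKB (hL1 t h1.1))
      rw [← Finset.card_image_of_injOn h2, hL2 t h1.1, h1.2]
    · rw [← Finsupp.mapDomain_comp]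
      conv_rhs => rw [← Finsupp.sum_single z']
      rw [Finsupp.mapDomain, Finsupp.sum, Finsupp.sum]
      refine Finset.sum_congr rfl fun t ht => ?_
      rw [Function.comp_apply, hL2 t (hz' t ht).1]
  constructor
  · intro h z' hz' hbd
    obtain ⟨z, hz, rfl⟩ := hlift i z' hz'
    have hz2 := mem_chains.1 hz
    rw [bd_mapDomain φ z (hsB z fun s hs => (hz2 s hs).1)] at hbd
    have h0 : bd z = 0 := by
      apply hinj2 _ _ (hbdB z fun s hs => (hz2 s hs).1) (by simp)
      rw [hbd, Finsupp.mapDomain_zero]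
    obtain ⟨y, hy, hyz⟩ := h z hz h0
    have hy2 := mem_chains.1 hy
    refine ⟨y.mapDomain (Finset.image φ), ?_, ?_⟩
    · rw [mem_chains]
      intro t ht
      obtain ⟨s, hs, rfl⟩ := Finset.mem_image.1 (Finsupp.mapDomain_support ht)
      exact ⟨hmap s (hy2 s hs).1, by
        rw [Finset.card_image_of_injOn (hφ.mono (hKB (hy2 s hs).1)), (hy2 s hs).2]⟩
    · rw [bd_mapDomain φ y (hsB y fun s hs => (hy2 s hs).1), hyz]
  · intro h z hz hbd
    have hz2 := mem_chains.1 hz
    have h1 : z.mapDomain (Finset.image φ) ∈ chains K' i := by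
      rw [mem_chains]
      intro t ht
      obtain ⟨s, hs, rfl⟩ := Finset.mem_image.1 (Finsupp.mapDomain_support ht)
      exact ⟨hmap s (hz2 s hs).1, by
        rw [Finset.card_image_of_injOn (hφ.mono (hKB (hz2 s hs).1)), (hz2 s hs).2]⟩
    obtain ⟨y', hy', hyz⟩ := h _ h1 (by
      rw [bd_mapDomain φ z (hsB z fun s hs => (hz2 s hs).1), hbd, Finsupp.mapDomain_zero])
    obtain ⟨y, hy, rfl⟩ := hlift (i + 1) y' hy'
    have hy2 := mem_chains.1 hy
    refine ⟨y, hy, ?_⟩
    apply hinj2 _ _ (hbdB y fun s hs => (hy2 s hs).1) (fun s hs => hKB (hz2 s hs).1)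
    rw [← bd_mapDomain φ y (hsB y fun s hs => (hy2 s hs).1), hyz]

/-- A cone operator implies exactness. -/
theorem exactAt_of_coneOp {K : Set (Finset V)} (hK : IsCx K) (i : ℕ) (κ : Finset V → Ch V)
    (h : ∀ s ∈ K, s.card ≤ i → κ s ∈ chains K (s.card + 1) ∧
      bd (κ s) + ∑ v ∈ s, κ (s.erase v) = Finsupp.single s 1) : ExactAt K i := by
  intro z hz hbd
  have hz2 := mem_chains.1 hz
  refine ⟨Finsupp.linearCombination (ZMod 2) κ z, ?_, ?_⟩
  · rw [mem_chains]
    intro t ht
    obtain ⟨s, hs, hts⟩ := mem_support_linearCombination z ht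
    have h1 := hz2 s hs
    have h2 := mem_chains.1 (h s h1.1 h1.2.le).1 t hts
    rwa [h1.2] at h2
  · have key : bd (Finsupp.linearCombination (ZMod 2) κ z) +
        Finsupp.linearCombination (ZMod 2) κ (bd z) = z := by
      rw [Finsupp.linearCombination_apply, Finsupp.sum, map_sum]
      have h3 : bd z = ∑ s ∈ z.support, z s • bd (Finsupp.single s 1) := by
        conv_lhs => rw [← Finsupp.sum_single z]
        rw [Finsupp.sum, map_sum]
        refine Finset.sum_congr rfl fun s _ => ?_
        rw [← map_smul, Finsupp.smul_single, smul_eq_mul, mul_one]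
      rw [h3, map_sum, ← Finset.sum_add_distrib]
      conv_rhs => rw [← Finsupp.sum_single z]
      rw [Finsupp.sum]
      refine Finset.sum_congr rfl fun s hs => ?_
      have h1 := hz2 s hs
      rw [map_smul, map_smul, ← smul_add, bd_single, map_sum]
      simp only [Finsupp.linearCombination_single, one_smul]
      rw [(h s h1.1 h1.2.le).2, Finsupp.smul_single, smul_eq_mul, mul_one]
    rwa [hbd, map_zero, add_zero] at key

end Crest.Agent.R066
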