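import Mathlib

/-!
# Row 66, part (E): cohomology with `ZMod 2` coefficients by invariant functions

A `Cx X` structure on a family of types `X : ℕ → Type*` is a list of faces for every element of
`X (n+1)`, such that the resulting coboundary on functions squares to zero.
`Ex H X n` says that the complex of `H`-invariant functions on `X` is exact at `n`.
-/

set_option autoImplicit false
set_option linter.unusedSectionVars false

open Finset

namespace Crest.Agent.R066.E

abbrev F2 := ZMod 2

/-! ### Complexes -/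

/-- A family of types with faces (with multiplicity). -/
class Cx (X : ℕ → Type*) where
  fc : ∀ n, X (n + 1) → Multiset (X n)
  fcfc : ∀ n (f : X n → F2) (x : X (n + 2)),
    ((fc (n + 1) x).map (fun y => ((fc n y).map f).sum)).sum = 0

/-- Coboundary of a function. -/
def cd {X : ℕ → Type*} [Cx X] {n : ℕ} (f : X n → F2) : X (n + 1) → F2 :=
  fun x => ((Cx.fc n x).map f).sum

theorem cd_cd {X : ℕ → Type*} [Cx X] {n : ℕ} (f : X n → F2) : cd (cd f) = 0 := by
  funext x
  exact Cx.fcfc n f x

theorem cd_add {X : ℕ → Type*} [Cx X] {n : ℕ} (f g : X n → F2) : cd (f + g) = cd f + cd g := by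
  funext x
  simp [cd, Multiset.sum_map_add]

theorem cd_zero {X : ℕ → Type*} [Cx X] {n : ℕ} : cd (0 : X n → F2) = 0 := by
  funext x
  simp [cd]

theorem add_self {α : Type*} (f : α → F2) : f + f = 0 := by
  funext x; exact CharTwo.add_self_eq_zero _


theorem cd_sum {X : ℕ → Type*} [Cx X] {n : ℕ} {ι : Type*} (s : Finset ι) (f : ι → X n → F2) :
    cd (∑ i ∈ s, f i) = ∑ i ∈ s, cd (f i) := by
  classical
  induction s using Finset.induction_on with
  | empty => simp [cd_zero]
  | insert a s ha ih => rw [Finset.sum_insert ha, Finset.sum_insert ha, cd_add, ih]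

/-- Compatibility of the action of `H` with faces. -/
class CxAct (H : Type*) [Group H] (X : ℕ → Type*) [Cx X] [∀ n, MulAction H (X n)] : Prop where
  fc_smul : ∀ n (h : H) (x : X (n + 1)), Cx.fc n (h • x) = (Cx.fc n x).map (fun y => h • y)

theorem cd_smul {H : Type*} [Group H] {X : ℕ → Type*} [Cx X] [∀ n, MulAction H (X n)]
    [CxAct H X] {n : ℕ} (f : X n → F2) (h : H) :
    cd (fun x => f (h • x)) = fun x => cd f (h • x) := by
  funext x
  simp only [cd, CxAct.fc_smul, Multiset.map_map, Function.comp_def]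

instance subAct {H : Type*} [Group H] {X : ℕ → Type*} [Cx X] [∀ n, MulAction H (X n)]
    [CxAct H X] (K : Subgroup H) : CxAct K X where
  fc_smul n k x := CxAct.fc_smul n (k : H) x

/-- `H`-invariance. -/
def Inv (H : Type*) [Group H] {α : Type*} [MulAction H α] (f : α → F2) : Prop :=
  ∀ (h : H) (x : α), f (h • x) = f x

theorem Inv.add {H : Type*} [Group H] {α : Type*} [MulAction H α] {f g : α → F2}
    (hf : Inv H f) (hg : Inv H g) : Inv H (f + g) := by
  intro h x
  simp [hf h x, hg h x]

theorem Inv.cd {H : Type*} [Group H] {X : ℕ → Type*} [Cx X] [∀ n, MulAction H (X n)]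
    [CxAct H X] {n : ℕ} {f : X n → F2} (hf : Inv H f) : Inv H (cd f) := by
  intro h x
  have := congrFun (cd_smul f h) x
  simp only [hf h] at this
  exact this.symm

/-- Exactness of the complex of invariant functions. -/
def Ex (H : Type*) [Group H] (X : ℕ → Type*) [Cx X] [∀ n, MulAction H (X n)] : ℕ → Prop
  | 0 => ∀ f : X 0 → F2, Inv H f → cd f = 0 → f = 0
  | (n + 1) => ∀ f : X (n + 1) → F2, Inv H f → cd f = 0 → ∃ g : X n → F2, Inv H g ∧ cd g = f

/-- Exactness of the complex of all functions. -/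
def FEx (X : ℕ → Type*) [Cx X] : ℕ → Prop
  | 0 => ∀ f : X 0 → F2, cd f = 0 → f = 0
  | (n + 1) => ∀ f : X (n + 1) → F2, cd f = 0 → ∃ g : X n → F2, cd g = f

/-! ### Functions of two variables -/

section Bi

variable {H : Type*} [Group H] {X Y : ℕ → Type*} [Cx X] [Cx Y]
  [∀ n, MulAction H (X n)] [∀ n, MulAction H (Y n)]

/-- Coboundary in the first variable. -/
def dX {a : ℕ} {β : Type*} (f : X a → β → F2) : X (a + 1) → β → F2 :=
  fun x y => cd (fun x' => f x' y) x

/-- Coboundary in the second variable. -/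
def dY {b : ℕ} {α : Type*} (f : α → Y b → F2) : α → Y (b + 1) → F2 :=
  fun x => cd (f x)

def BInv (H : Type*) [Group H] {α β : Type*} [MulAction H α] [MulAction H β]
    (f : α → β → F2) : Prop :=
  ∀ (h : H) (x : α) (y : β), f (h • x) (h • y) = f x y

theorem BInv.add {α β : Type*} [MulAction H α] [MulAction H β] {f g : α → β → F2}
    (hf : BInv H f) (hg : BInv H g) : BInv H (f + g) := by
  intro h x y
  simp [hf h x y, hg h x y]

theorem BInv.swap {α β : Type*} [MulAction H α] [MulAction H β] {f : α → β → F2}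
    (hf : BInv H f) : BInv H (fun y x => f x y) := fun h y x => hf h x y

theorem dX_add {a : ℕ} {β : Type*} (f g : X a → β → F2) : dX (f + g) = dX f + dX g := by
  funext x y
  exact congrFun (cd_add (fun x' => f x' y) (fun x' => g x' y)) x

theorem dY_add {b : ℕ} {α : Type*} (f g : α → Y b → F2) : dY (f + g) = dY f + dY g := by
  funext x y
  exact congrFun (cd_add (f x) (g x)) y

theorem dX_dX {a : ℕ} {β : Type*} (f : X a → β → F2) : dX (dX f) = 0 := by
  funext x y
  exact congrFun (cd_cd (fun x' => f x' y)) x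

theorem dY_dY {b : ℕ} {α : Type*} (f : α → Y b → F2) : dY (dY f) = 0 := by
  funext x y
  exact congrFun (cd_cd (f x)) y

theorem dX_dY {a b : ℕ} (f : X a → Y b → F2) : dX (dY f) = dY (dX f) := by
  funext x y
  simp only [dX, dY, cd]
  exact Multiset.sum_map_sum_map _ _


theorem dY_zero {b : ℕ} {α : Type*} : dY (0 : α → Y b → F2) = 0 := by
  funext x y; exact congrFun (cd_zero (X := Y) (n := b)) y

theorem BInv.dX [CxAct H X] {a b : ℕ} {f : X a → Y b → F2} (hf : BInv H f) : BInv H (dX f) := by
  intro h x y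
  have := congrFun (cd_smul (fun x' => f x' (h • y)) h) x
  simp only [hf h] at this
  exact this.symm

theorem BInv.dY [CxAct H Y] {a b : ℕ} {f : X a → Y b → F2} (hf : BInv H f) : BInv H (dY f) := by
  intro h x y
  have := congrFun (cd_smul (fun y' => f (h • x) y') h) y
  simp only [hf h] at this
  exact this.symm

variable (H X Y) in
/-- Exactness in the first direction at `(a, b)`. -/
def ExX : ℕ → ℕ → Prop
  | 0, b => ∀ f : X 0 → Y b → F2, BInv H f → dX f = 0 → f = 0
  | (a + 1), b => ∀ f : X (a + 1) → Y b → F2, BInv H f → dX f = 0 →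
      ∃ g : X a → Y b → F2, BInv H g ∧ dX g = f

variable (H X Y) in
/-- Exactness in the second direction at `(a, b)`. -/
def ExY : ℕ → ℕ → Prop
  | a, 0 => ∀ f : X a → Y 0 → F2, BInv H f → dY f = 0 → f = 0
  | a, (b + 1) => ∀ f : X a → Y (b + 1) → F2, BInv H f → dY f = 0 →
      ∃ g : X a → Y b → F2, BInv H g ∧ dY g = f

theorem exY_of_exX (a b : ℕ) (h : ExX H Y X b a) : ExY H X Y a b := by
  cases b with
  | zero =>
    intro f hf h0
    have := h (fun y x => f x y) hf.swap (by
      funext y x
      exact congrFun (congrFun h0 x) y)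
    funext x y
    exact congrFun (congrFun this y) x
  | succ b =>
    intro f hf h0
    obtain ⟨g, hg, hgf⟩ := h (fun y x => f x y) hf.swap (by
      funext y x
      exact congrFun (congrFun h0 x) y)
    refine ⟨fun x y => g y x, hg.swap, ?_⟩
    funext x y
    exact congrFun (congrFun hgf y) x

/-- The basic double complex lemma. -/
theorem keyQ [CxAct H X] [CxAct H Y] : ∀ (a b : ℕ),
    (∀ a' b', a' + b' = a + b → b ≤ b' → ExX H X Y a' b') →
    (∀ a' b', a' + b' + 1 = a + b → b ≤ b' → ExY H X Y a' b') →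
    ∀ f : X a → Y b → F2, BInv H f → dX f = 0 → dY f = 0 →
    (a = 0 → f = 0) ∧ ∀ a' (h : a = a' + 1), ∃ y : X a' → Y b → F2, BInv H y ∧ dY y = 0 ∧
      dX y = h ▸ f := by
  intro a
  induction a with
  | zero =>
    intro b hR hC f hf hX hY
    refine ⟨fun _ => hR 0 b rfl le_rfl f hf hX, ?_⟩
    intro a' h
    omega
  | succ a ih =>
    intro b hR hC f hf hX hY
    refine ⟨fun h => by omega, ?_⟩
    intro a' h
    obtain rfl : a' = a := by omega
    simp only
    obtain ⟨y, hy, hyf⟩ := hR (a' + 1) b rfl le_rfl f hf hX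
    have h1 : dX (dY y) = 0 := by rw [dX_dY, hyf, hY]
    have h2 : dY (dY y) = 0 := dY_dY y
    have key := ih (b + 1) (fun a'' b'' e l => hR a'' b'' (by omega) (by omega))
      (fun a'' b'' e l => hC a'' b'' (by omega) (by omega)) (dY y) hy.dY h1 h2
    rcases Nat.eq_zero_or_pos a' with h0 | h0
    · exact ⟨y, hy, key.1 h0, hyf⟩
    · obtain ⟨a2, rfl⟩ : ∃ a2, a' = a2 + 1 := ⟨a' - 1, by omega⟩
      obtain ⟨y2, hy2, hy20, hy2f⟩ := key.2 a2 rfl
      simp only at hy2f
      obtain ⟨w, hw, hwy⟩ := hC a2 (b + 1) (by omega) (by omega) y2 hy2 hy20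
      refine ⟨y + dX w, hy.add hw.dX, ?_, ?_⟩
      · rw [dY_add, ← dX_dY, hwy, hy2f, add_self']
      · rw [dX_add, dX_dX, hyf, add_zero]
where
  add_self' {a b : ℕ} {f : X a → Y b → F2} : f + f = 0 := by
    funext x y; exact CharTwo.add_self_eq_zero _

/-- Restriction injectivity (abstract form): the class of `f` becomes trivial after pulling back
to `Y 1`, hence is trivial. -/
theorem restr_inj [CxAct H X] [CxAct H Y] (n : ℕ)
    (hR : ∀ a b, 2 ≤ b → a + b = n + 2 → ExX H X Y a b)
    (hC : ∀ a b, 1 ≤ b → a + b = n + 1 → ExY H X Y a b)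
    (h0 : ExY H X Y (n + 1) 0)
    (f : X (n + 1) → Y 0 → F2) (hf : BInv H f) (hfX : dX f = 0)
    (z : X n → Y 1 → F2) (hz : BInv H z) (hzf : dX z = dY f) :
    ∃ u : X n → Y 0 → F2, BInv H u ∧ dX u = f := by
  have h1 : dX (dY z) = 0 := by rw [dX_dY, hzf, dY_dY]
  have h2 : dY (dY z) = 0 := dY_dY z
  have key := keyQ n 2 (fun a b e l => hR a b l e) (fun a b e l => hC a b (by omega) (by omega))
    (dY z) hz.dY h1 h2
  -- correct z
  obtain ⟨z', hz', hz'0, hz'f⟩ : ∃ z' : X n → Y 1 → F2, BInv H z' ∧ dY z' = 0 ∧ dX z' = dY f := by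
    rcases Nat.eq_zero_or_pos n with h | h
    · exact ⟨z, hz, key.1 h, hzf⟩
    · obtain ⟨m, rfl⟩ : ∃ m, n = m + 1 := ⟨n - 1, by omega⟩
      obtain ⟨y, hy, hy0, hyf⟩ := key.2 m rfl
      simp only at hyf
      obtain ⟨w, hw, hwy⟩ := hC m 2 (by omega) (by omega) y hy hy0
      refine ⟨z + dX w, hz.add hw.dX, ?_, ?_⟩
      · rw [dY_add, ← dX_dY, hwy, hyf]
        funext x y; exact CharTwo.add_self_eq_zero _
      · rw [dX_add, dX_dX, hzf, add_zero]
  obtain ⟨u, hu, huz⟩ := hC n 1 le_rfl rfl z' hz' hz'0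
  refine ⟨u, hu, ?_⟩
  have h3 : dY (dX u + f) = 0 := by
    rw [dY_add, ← dX_dY, huz, hz'f]
    funext x y; exact CharTwo.add_self_eq_zero _
  have h4 := h0 (dX u + f) (hu.dX.add hf) h3
  funext x y
  have := congrFun (congrFun h4 x) y
  exact CharTwo.add_eq_zero.mp this

/-- Transfer of exactness between two complexes. -/
theorem compare [CxAct H X] [CxAct H Y] (n : ℕ)
    (hR : ∀ a b, 1 ≤ b → a + b = n + 2 → ExX H X Y a b)
    (hC : ∀ a b, 1 ≤ b → a + b = n + 1 → ExY H X Y a b)
    (h0 : ExY H X Y (n + 1) 0) : ExX H X Y (n + 1) 0 := by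
  intro f hf hfX
  have h1 : dX (dY f) = 0 := by rw [dX_dY, hfX, dY_zero]
  obtain ⟨z, hz, hzf⟩ := hR (n + 1) 1 le_rfl rfl (dY f) hf.dY h1
  exact restr_inj n (fun a b h e => hR a b (by omega) e) hC h0 f hf hfX z hz hzf

/-- Orbit lemma, for a single function. -/
theorem orbit_single [CxAct H X] {a : ℕ} {β : Type*} [MulAction H β] (F : X (a + 1) → β → F2)
    (hF : BInv H F)
    (h : ∀ y : β, ∃ g : X a → F2, Inv (MulAction.stabilizer H y) g ∧ cd g = fun x => F x y) :
    ∃ g : X a → β → F2, BInv H g ∧ dX g = F := by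
  classical
  choose G hG hGF using h
  let q : β → MulAction.orbitRel.Quotient H β := Quotient.mk''
  let r : β → β := fun y => (q y).out
  have hr : ∀ y, ∃ h : H, h • r y = y := by
    intro y
    have h1 : q (r y) = q y := Quotient.out_eq' _
    have h2 : (MulAction.orbitRel H β) (r y) y := Quotient.exact' h1
    rw [MulAction.orbitRel_apply, MulAction.mem_orbit_symm] at h2
    exact MulAction.mem_orbit_iff.mp h2
  choose c hc using hr
  have hrh : ∀ (h : H) y, r (h • y) = r y := by
    intro h y
    have : q (h • y) = q y := by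
      apply Quotient.sound'
      rw [MulAction.orbitRel_apply]
      exact MulAction.mem_orbit y h
    simp only [r, this]
  refine ⟨fun x y => G (r y) ((c y)⁻¹ • x), ?_, ?_⟩
  · intro h x y
    have h1 : (c (h • y))⁻¹ * h * c y ∈ MulAction.stabilizer H (r y) := by
      rw [MulAction.mem_stabilizer_iff, mul_smul, mul_smul, hc, inv_smul_eq_iff, ← hrh h y, hc]
    have h2 := hG (r y) ⟨_, h1⟩ ((c y)⁻¹ • x)
    simp only [hrh h y]
    rw [← h2]
    congr 1
    change _ = ((c (h • y))⁻¹ * h * c y) • (c y)⁻¹ • x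
    rw [smul_smul, smul_smul, mul_assoc, mul_inv_cancel, mul_one]
  · funext x y
    change cd (fun x' => G (r y) ((c y)⁻¹ • x')) x = F x y
    rw [congrFun (cd_smul (G (r y)) (c y)⁻¹) x, hGF (r y)]
    simp only
    rw [← hF (c y), hc y, smul_inv_smul]

/-- Orbit lemma. -/
theorem exX_of_stab [CxAct H X] (a b : ℕ)
    (h : ∀ y : Y b, Ex (MulAction.stabilizer H y) X a) : ExX H X Y a b := by
  cases a with
  | zero =>
    intro f hf h0
    funext x y
    have := h y (fun x => f x y) (by
      rintro ⟨k, hk⟩ x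
      have := hf k x y
      rw [MulAction.mem_stabilizer_iff] at hk
      rw [hk] at this
      exact this) (by
      funext x
      exact congrFun (congrFun h0 x) y)
    exact congrFun this x
  | succ a =>
    intro f hf h0
    refine orbit_single f hf fun y => ?_
    refine h y (fun x => f x y) ?_ ?_
    · rintro ⟨k, hk⟩ x
      have := hf k x y
      rw [MulAction.mem_stabilizer_iff] at hk
      rw [hk] at this
      exact this
    · funext x
      exact congrFun (congrFun h0 x) y

theorem exY_of_stab [CxAct H Y] (a b : ℕ)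
    (h : ∀ x : X a, Ex (MulAction.stabilizer H x) Y b) : ExY H X Y a b :=
  exY_of_exX a b (exX_of_stab b a h)

end Bi

/-! ### Averaging -/

section Average

variable {H : Type*} [Group H] {X : ℕ → Type*} [Cx X] [∀ n, MulAction H (X n)] [CxAct H X]

/-- Exactness of all functions implies exactness of the functions invariant under a finite
group of odd order. -/
theorem Ex.of_odd [Finite H] (hodd : Odd (Nat.card H)) (n : ℕ) (h : FEx X n) : Ex H X n := by
  classical
  have := Fintype.ofFinite H
  cases n with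
  | zero => exact fun f _ h0 => h f h0
  | succ n =>
    intro f hf h0
    obtain ⟨g, hg⟩ := h f h0
    refine ⟨∑ k : H, fun x => g (k • x), ?_, ?_⟩
    · intro k x
      simp only [Finset.sum_apply]
      rw [← Equiv.sum_comp (Equiv.mulRight k) (fun l : H => g (l • x))]
      simp [mul_smul]
    · rw [cd_sum]
      funext x
      simp only [Finset.sum_apply, cd_smul, hg, hf _ x]
      rw [Finset.sum_const, Finset.card_univ, ← Nat.card_eq_fintype_card, nsmul_eq_mul]
      obtain ⟨m, hm⟩ := hodd
      rw [hm]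
      push_cast
      have : (2 : F2) = 0 := rfl
      rw [this]; ring

end Average

end Crest.Agent.R066.E
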