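import Mathlib
import Crest.Agent.R066.ECore

-- ▼ part R066/CliqueCone
section

/-!
# Row 66, part (E), item (j): bounded cone recursion for ordered clique complexes

`V` is a type with a relation `r`; ordered `b`-simplices are tuples `y : Fin b → V` that are
pairwise related.  If every finite set of fewer than `coneBound B` vertices has a common neighbour
then the (augmented) cochain complex with `ZMod 2` coefficients is exact in degrees `< B`.
-/

set_option autoImplicit false

namespace Crest.Agent.R066

namespace CliqueCone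

variable {V : Type*}

/-- Ordered chains. -/
abbrev OCh (V : Type*) (b : ℕ) := (Fin b → V) →₀ ZMod 2

/-- The ordered boundary. -/
noncomputable def obd (V : Type*) (b : ℕ) : OCh V (b + 1) →ₗ[ZMod 2] OCh V b :=
  Finsupp.lsum (ZMod 2) (fun y => ∑ i : Fin (b + 1), Finsupp.lsingle (fun k => y (i.succAbove k)))

theorem obd_single (b : ℕ) (y : Fin (b + 1) → V) (c : ZMod 2) :
    obd V b (Finsupp.single y c) =
      ∑ i : Fin (b + 1), Finsupp.single (fun k => y (i.succAbove k)) c := by
  simp [obd, Finsupp.lsum_single]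


/-- The cone with apex `w`. -/
noncomputable def ocone (w : V) (b : ℕ) : OCh V b →ₗ[ZMod 2] OCh V (b + 1) :=
  Finsupp.lmapDomain (ZMod 2) (ZMod 2) (fun y : Fin b → V => (Fin.cons w y : Fin (b + 1) → V))

theorem ocone_single (w : V) (b : ℕ) (y : Fin b → V) (c : ZMod 2) :
    ocone w b (Finsupp.single y c) = Finsupp.single (Fin.cons w y : Fin (b + 1) → V) c := by
  simp [ocone]

theorem obd_ocone_zero (w : V) (c : OCh V 0) : obd V 0 (ocone w 0 c) = c := by
  have h : (obd V 0) ∘ₗ (ocone w 0) = LinearMap.id := by
    apply Finsupp.lhom_ext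
    intro y a
    rw [LinearMap.comp_apply, ocone_single, obd_single, LinearMap.id_apply]
    rw [Fin.sum_univ_one]
    congr 1
  exact LinearMap.congr_fun h c

theorem obd_ocone_succ (w : V) (b : ℕ) (c : OCh V (b + 1)) :
    obd V (b + 1) (ocone w (b + 1) c) = c + ocone w b (obd V b c) := by
  have h : (obd V (b + 1)) ∘ₗ (ocone w (b + 1)) = LinearMap.id + (ocone w b) ∘ₗ (obd V b) := by
    apply Finsupp.lhom_ext
    intro y a
    rw [LinearMap.comp_apply, LinearMap.add_apply, LinearMap.comp_apply, ocone_single, obd_single,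
      obd_single, LinearMap.id_apply, Fin.sum_univ_succ, map_sum]
    congr 1
    refine Finset.sum_congr rfl fun i _ => ?_
    rw [ocone_single]
    congr 1
    funext k
    refine Fin.cases ?_ (fun k => ?_) k
    · simp
    · simp
  exact LinearMap.congr_fun h c

/-- Pairwise related tuples. -/
def Clq (r : V → V → Prop) {b : ℕ} (y : Fin b → V) : Prop := ∀ i j, i ≠ j → r (y i) (y j)

theorem Clq.comp {r : V → V → Prop} {b : ℕ} {y : Fin (b + 1) → V} (h : Clq r y)
    (i : Fin (b + 1)) : Clq r (fun k => y (i.succAbove k)) := by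
  intro j k hjk
  exact h _ _ fun e => hjk (Fin.succAbove_right_injective e)

/-- Chains of cliques with vertices in `T`. -/
def cl (r : V → V → Prop) (b : ℕ) (T : Set V) : Submodule (ZMod 2) (OCh V b) :=
  Finsupp.supported (ZMod 2) (ZMod 2) {y | Clq r y ∧ ∀ i, y i ∈ T}

theorem cl_mono {r : V → V → Prop} {b : ℕ} {T T' : Set V} (h : T ⊆ T') : cl r b T ≤ cl r b T' :=
  Finsupp.supported_mono fun _ hy => ⟨hy.1, fun i => h (hy.2 i)⟩

theorem single_mem_cl {r : V → V → Prop} {b : ℕ} {T : Set V} {y : Fin b → V} (h : Clq r y)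
    (hT : ∀ i, y i ∈ T) (c : ZMod 2) : Finsupp.single y c ∈ cl r b T :=
  Finsupp.single_mem_supported _ _ ⟨h, hT⟩

theorem ocone_mem_cl {r : V → V → Prop} (hr : ∀ x y, r x y → r y x) {b : ℕ} {T : Set V} {w : V}
    (hw : ∀ t ∈ T, r w t) {c : OCh V b} (hc : c ∈ cl r b T) :
    ocone w b c ∈ cl r (b + 1) (insert w T) := by
  classical
  rw [cl, Finsupp.mem_supported] at hc ⊢
  intro y hy
  have h1 : y ∈ (ocone w b c).support := hy
  obtain ⟨x, hx, rfl⟩ : ∃ x ∈ c.support, (Fin.cons w x : Fin (b + 1) → V) = y := by
    have h2 := Finsupp.mapDomain_support (f := fun y : Fin b → V => (Fin.cons w y : Fin (b + 1) → V))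
      (s := c) h1
    simpa using h2
  obtain ⟨h3, h4⟩ := hc hx
  constructor
  · intro i j
    refine Fin.cases ?_ (fun i => ?_) i <;> refine Fin.cases ?_ (fun j => ?_) j
    · intro h; exact absurd rfl h
    · intro _
      simpa using hw _ (h4 j)
    · intro _
      simpa using hr _ _ (hw _ (h4 i))
    · intro h
      simpa using h3 i j (fun e => h (by rw [e]))
  · intro i
    refine Fin.cases ?_ (fun i => ?_) i
    · simp
    · simpa using Or.inr (h4 i)

/-- The bound of the cone recursion. -/
def coneBound : ℕ → ℕ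
  | 0 => 1
  | b + 1 => (b + 1) * (coneBound b + 1) + 1

theorem coneBound_pos (b : ℕ) : 0 < coneBound b := by
  cases b <;> simp [coneBound]

theorem coneBound_le_succ (b : ℕ) : coneBound b ≤ coneBound (b + 1) := by
  rw [coneBound]
  nlinarith [Nat.zero_le (b * (coneBound b + 1))]

theorem coneBound_mono {a b : ℕ} (h : a ≤ b) : coneBound a ≤ coneBound b :=
  monotone_nat_of_le_succ coneBound_le_succ h

theorem exists_coneOp {r : V → V → Prop} (hr : ∀ x y, r x y → r y x) (B : ℕ)
    (hK : ∀ T : Finset V, T.card < coneBound B → ∃ w, ∀ t ∈ T, r w t) :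
    ∀ b, b ≤ B → ∃ K : ∀ b', b' ≤ b → (Fin b' → V) → OCh V (b' + 1),
      (∀ b' (hb' : b' ≤ b) (y : Fin b' → V), Clq r y →
        ∃ T : Finset V, T.card ≤ coneBound b' ∧ K b' hb' y ∈ cl r (b' + 1) T) ∧
      (∀ (h0 : 0 ≤ b) (y : Fin 0 → V), obd V 0 (K 0 h0 y) = Finsupp.single y 1) ∧
      (∀ b' (hb' : b' + 1 ≤ b) (y : Fin (b' + 1) → V), Clq r y →
        obd V (b' + 1) (K (b' + 1) hb' y) = Finsupp.single y 1 +
          ∑ i : Fin (b' + 1), K b' (Nat.le_of_succ_le hb') (fun k => y (i.succAbove k))) := by
  classical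
  intro b
  induction b with
  | zero =>
    intro _
    obtain ⟨w, -⟩ := hK ∅ (by simpa using coneBound_pos B)
    refine ⟨fun b' _ y => ocone w b' (Finsupp.single y 1), ?_, ?_, ?_⟩
    · intro b' hb' y hy
      obtain rfl : b' = 0 := by omega
      refine ⟨{w}, by simp [coneBound], ?_⟩
      have := ocone_mem_cl (r := r) hr (T := ∅) (w := w) (by simp)
        (single_mem_cl hy (fun i => i.elim0) (1 : ZMod 2))
      simpa using this
    · intro _ y
      exact obd_ocone_zero w _
    · intro b' hb'
      omega
  | succ b ih =>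
    intro hB
    obtain ⟨K, hK1, hK2, hK3⟩ := ih (by omega)
    -- the new operator
    have hnew : ∀ y : Fin (b + 1) → V, ∃ k : OCh V (b + 2), Clq r y →
        (∃ T : Finset V, T.card ≤ coneBound (b + 1) ∧ k ∈ cl r (b + 2) T) ∧
        obd V (b + 1) k = Finsupp.single y 1 +
          ∑ i : Fin (b + 1), K b le_rfl (fun k => y (i.succAbove k)) := by
      intro y
      by_cases hy : Clq r y
      swap
      · exact ⟨0, fun h => absurd h hy⟩
      have hT : ∀ i : Fin (b + 1), ∃ T : Finset V, T.card ≤ coneBound b ∧
          K b le_rfl (fun k => y (i.succAbove k)) ∈ cl r (b + 1) T :=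
        fun i => hK1 b le_rfl _ (hy.comp i)
      choose T hT1 hT2 using hT
      let T0 : Finset V := Finset.univ.image y ∪ Finset.univ.biUnion T
      have hT0 : T0.card ≤ (b + 1) * (coneBound b + 1) := by
        calc T0.card ≤ (Finset.univ.image y).card + (Finset.univ.biUnion T).card :=
              Finset.card_union_le _ _
          _ ≤ (b + 1) + (b + 1) * coneBound b := by
              refine Nat.add_le_add ?_ ?_
              · exact Finset.card_image_le.trans (by simp)
              · refine Finset.card_biUnion_le.trans ?_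
                calc ∑ i, (T i).card ≤ ∑ _i : Fin (b + 1), coneBound b :=
                      Finset.sum_le_sum fun i _ => hT1 i
                  _ = (b + 1) * coneBound b := by simp
          _ = _ := by ring
      obtain ⟨w, hw⟩ := hK T0 (lt_of_lt_of_le (by
        have : coneBound (b + 1) = (b + 1) * (coneBound b + 1) + 1 := rfl
        omega) (coneBound_mono hB))
      let z : OCh V (b + 1) := Finsupp.single y 1 +
        ∑ i : Fin (b + 1), K b le_rfl (fun k => y (i.succAbove k))
      have hz : z ∈ cl r (b + 1) T0 := by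
        refine add_mem (single_mem_cl hy (fun i => ?_) _) (sum_mem fun i _ => ?_)
        · simp [T0]
        · refine cl_mono ?_ (hT2 i)
          intro t ht
          simp only [T0, Finset.coe_union, Finset.coe_biUnion]
          refine Or.inr ?_
          simp only [Finset.coe_univ, Set.mem_univ, Set.iUnion_true, Set.mem_iUnion]
          exact ⟨i, ht⟩
      have hbz : obd V b z = 0 := by
        rw [map_add, map_sum, obd_single]
        cases b with
        | zero =>
          rw [Fin.sum_univ_one, Fin.sum_univ_one, hK2 le_rfl, ← Finsupp.single_add,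
            CharTwo.add_self_eq_zero, Finsupp.single_zero]
        | succ b =>
          have h1 : ∀ i : Fin (b + 2), obd V (b + 1) (K (b + 1) le_rfl
              (fun k => y (i.succAbove k))) = Finsupp.single (fun k => y (i.succAbove k)) 1 +
              ∑ j : Fin (b + 1), K b (Nat.le_of_succ_le le_rfl)
                (fun k => y (i.succAbove (j.succAbove k))) := by
            intro i
            rw [hK3 b le_rfl _ (hy.comp i)]
          simp_rw [h1]
          rw [Finset.sum_add_distrib, ← add_assoc]
          have h2 : ∀ x : OCh V (b + 1), x + x = 0 := by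
            intro x
            ext t
            simp only [Finsupp.add_apply, Finsupp.zero_apply]
            exact CharTwo.add_self_eq_zero _
          rw [h2, zero_add, ← Finset.sum_product']
          refine Finset.sum_involution (fun p _ => (p.1.succAbove p.2, p.2.predAbove p.1))
            ?_ ?_ ?_ ?_
          · rintro ⟨i, j⟩ _
            have : (fun k => y ((i.succAbove j).succAbove ((j.predAbove i).succAbove k)))
                = fun k => y (i.succAbove (j.succAbove k)) := by
              funext k
              rw [Fin.succAbove_succAbove_succAbove_predAbove]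
            simp only
            rw [this, h2]
          · rintro ⟨i, j⟩ _ _ h
            have := congrArg Prod.fst h
            exact Fin.succAbove_ne i j this
          · intro _ _; exact Finset.mem_univ _
          · rintro ⟨i, j⟩ _
            simp only
            apply Prod.ext
            · exact Fin.succAbove_succAbove_predAbove i j
            · simp only
              exact Fin.predAbove_predAbove_succAbove i j
      refine ⟨ocone w (b + 1) z, fun _ => ⟨⟨insert w T0, ?_, ?_⟩, ?_⟩⟩
      · refine (Finset.card_insert_le _ _).trans ?_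
        have : coneBound (b + 1) = (b + 1) * (coneBound b + 1) + 1 := rfl
        omega
      · have := ocone_mem_cl hr (T := (T0 : Set V)) (w := w) (fun t ht => hw t ht) hz
        simpa using this
      · rw [obd_ocone_succ, hbz, map_zero, add_zero]
    choose k hk using hnew
    refine ⟨fun b' hb' y => if h : b' ≤ b then K b' h y else
      (if h' : b' = b + 1 then h' ▸ k (h' ▸ y) else 0), ?_, ?_, ?_⟩
    · intro b' hb' y hy
      by_cases h : b' ≤ b
      · simp only [h, dite_true]
        exact hK1 b' h y hy
      · obtain rfl : b' = b + 1 := by omega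
        simp only [h, dite_false, dite_true]
        exact (hk y hy).1
    · intro h0 y
      simp only [Nat.zero_le, dite_true]
      exact hK2 _ y
    · intro b' hb' y hy
      by_cases h : b' + 1 ≤ b
      · simp only [h, Nat.le_of_succ_le h, dite_true]
        exact hK3 b' h y hy
      · obtain rfl : b' = b := by omega
        simp only [h, dite_false, dite_true, le_refl]
        exact (hk y hy).2

/-- Evaluate a function on a chain. -/
noncomputable def ev {b : ℕ} (f : (Fin b → V) → ZMod 2) : OCh V b →ₗ[ZMod 2] ZMod 2 :=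
  Finsupp.lsum (ZMod 2) (fun y => LinearMap.toSpanSingleton (ZMod 2) (ZMod 2) (f y))

theorem ev_single {b : ℕ} (f : (Fin b → V) → ZMod 2) (y : Fin b → V) :
    ev f (Finsupp.single y 1) = f y := by
  simp [ev]

/-- The coboundary of ordered cochains. -/
def ocob {b : ℕ} (f : (Fin b → V) → ZMod 2) : (Fin (b + 1) → V) → ZMod 2 :=
  fun y => ∑ i : Fin (b + 1), f (fun k => y (i.succAbove k))

theorem ev_obd {b : ℕ} (f : (Fin b → V) → ZMod 2) (c : OCh V (b + 1)) :
    ev f (obd V b c) = ev (ocob f) c := by
  have h : (ev f) ∘ₗ (obd V b) = ev (ocob f) := by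
    apply Finsupp.lhom_ext'
    intro y
    ext
    simp only [LinearMap.comp_apply, Finsupp.lsingle_apply]
    rw [obd_single, map_sum, ev_single]
    simp_rw [ev_single]
    rfl
  exact LinearMap.congr_fun h c

theorem ev_eq_zero {r : V → V → Prop} {b : ℕ} {T : Set V} (f : (Fin b → V) → ZMod 2)
    (hf : ∀ y, Clq r y → f y = 0) {c : OCh V b} (hc : c ∈ cl r b T) : ev f c = 0 := by
  rw [ev, Finsupp.lsum_apply, Finsupp.sum]
  refine Finset.sum_eq_zero fun y hy => ?_
  have := hc hy
  simp [hf y this.1]

/-- Exactness in positive degrees. -/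
theorem exact_of_common {r : V → V → Prop} (hr : ∀ x y, r x y → r y x) (b : ℕ)
    (hK : ∀ T : Finset V, T.card < coneBound (b + 1) → ∃ w, ∀ t ∈ T, r w t)
    (f : (Fin (b + 1) → V) → ZMod 2) (hf : ∀ y : Fin (b + 2) → V, Clq r y → ocob f y = 0) :
    ∃ h : (Fin b → V) → ZMod 2, ∀ y : Fin (b + 1) → V, Clq r y → f y = ocob h y := by
  obtain ⟨K, hK1, -, hK3⟩ := exists_coneOp hr (b + 1) hK (b + 1) le_rfl
  refine ⟨fun x => ev f (K b (Nat.le_succ b) x), fun y hy => ?_⟩
  have h1 := congrArg (ev f) (hK3 b le_rfl y hy)
  rw [ev_obd, map_add, map_sum, ev_single] at h1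
  obtain ⟨T, -, hT⟩ := hK1 (b + 1) le_rfl y hy
  rw [ev_eq_zero (r := r) (ocob f) hf hT] at h1
  have h2 := CharTwo.add_eq_zero.1 h1.symm
  rw [h2]
  rfl


end CliqueCone

end Crest.Agent.R066
private theorem rz_27657910f0 : type_of% @_root_.Crest.Agent.R066.CliqueCone.coneBound.eq_def := @_root_.Crest.Agent.R066.CliqueCone.coneBound.eq_def -- L139
private theorem rz_51ad8ab034 : type_of% @_root_.Crest.Agent.R066.CliqueCone.coneBound.eq_1 := @_root_.Crest.Agent.R066.CliqueCone.coneBound.eq_1 -- L139
end

-- ▼ part R066/CliqueEx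

/-!
# Row 66, part (E): ordered clique complexes as `Cx`, exactness of all functions and of the
functions invariant under a group (quotient lemma).
-/

set_option autoImplicit false

open Finset

namespace Crest.Agent.R066.E

open CliqueCone

variable {V : Type*}

/-- Ordered cliques. -/
def Clq (r : V → V → Prop) : ℕ → Type _ := fun b => {y : Fin b → V // CliqueCone.Clq r y}

namespace Clq

variable {r : V → V → Prop}

@[ext] theorem ext {b : ℕ} {x y : Clq r b} (h : ∀ i, x.1 i = y.1 i) : x = y :=
  Subtype.ext (funext h)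

/-- Forget a vertex. -/
def face {b : ℕ} (y : Clq r (b + 1)) (i : Fin (b + 1)) : Clq r b :=
  ⟨fun k => y.1 (i.succAbove k), CliqueCone.Clq.comp y.2 i⟩

/-- Add a vertex. -/
def cons (hr : ∀ x y, r x y → r y x) {b : ℕ} (c : V) (y : Clq r b) (h : ∀ i, r c (y.1 i)) :
    Clq r (b + 1) :=
  ⟨(Fin.cons c y.1 : Fin (b + 1) → V), by
    intro i j
    refine Fin.cases ?_ (fun i => ?_) i <;> refine Fin.cases ?_ (fun j => ?_) j
    · intro h; exact absurd rfl h
    · intro _
      simpa using h j
    · intro _
      simpa using hr _ _ (h i)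
    · intro h'
      simpa using y.2 i j (fun e => h' (by rw [e]))⟩

/-- Forget the first vertex. -/
def tail {b : ℕ} (y : Clq r (b + 1)) : Clq r b :=
  ⟨fun k => y.1 k.succ, fun _ _ h => y.2 _ _ fun e => h (Fin.succ_injective _ e)⟩

instance : Cx (Clq r) where
  fc n y := Finset.univ.val.map (fun i => y.face i)
  fcfc n f y := by
    simp only [Multiset.map_map, Function.comp_def]
    change ∑ i : Fin (n + 2), ∑ j : Fin (n + 1), f ((y.face i).face j) = 0
    rw [← Finset.sum_product']
    refine Finset.sum_involution (fun p _ => (p.1.succAbove p.2, p.2.predAbove p.1)) ?_ ?_ ?_ ?_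
    · rintro ⟨i, j⟩ _
      have : (y.face (i.succAbove j)).face (j.predAbove i) = (y.face i).face j := by
        ext k
        change y.1 ((i.succAbove j).succAbove ((j.predAbove i).succAbove k))
            = y.1 (i.succAbove (j.succAbove k))
        rw [Fin.succAbove_succAbove_succAbove_predAbove]
      simp only
      rw [this, CharTwo.add_self_eq_zero]
    · rintro ⟨i, j⟩ _ _ h
      have := congrArg Prod.fst h
      exact Fin.succAbove_ne i j this
    · intro _ _; exact Finset.mem_univ _
    · rintro ⟨i, j⟩ _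
      simp only
      apply Prod.ext
      · exact Fin.succAbove_succAbove_predAbove i j
      · simp only
        exact Fin.predAbove_predAbove_succAbove i j

theorem cd_eq {b : ℕ} (f : Clq r b → F2) (y : Clq r (b + 1)) :
    cd f y = ∑ i : Fin (b + 1), f (y.face i) := by
  simp only [cd, Cx.fc, Multiset.map_map, Function.comp_def]
  rfl

end Clq

/-- A group acting on `V` preserves the relation `r`. -/
class RelAct (G : Type*) [Group G] {V : Type*} [MulAction G V] (r : V → V → Prop) : Prop where
  smul_rel : ∀ (g : G) (x y : V), r x y → r (g • x) (g • y)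

section Action

variable {G : Type*} [Group G] [MulAction G V] {r : V → V → Prop} [RelAct G r]

instance (b : ℕ) : MulAction G (Clq r b) where
  smul g y := ⟨fun i => g • y.1 i, fun i j h => RelAct.smul_rel g _ _ (y.2 i j h)⟩
  one_smul y := by
    ext i
    exact one_smul G (y.1 i)
  mul_smul g h y := by
    ext i
    exact mul_smul g h (y.1 i)

@[simp] theorem clq_smul_apply {b : ℕ} (g : G) (y : Clq r b) (i : Fin b) :
    (g • y).1 i = g • y.1 i := rfl

theorem clq_smul_eq_iff {b : ℕ} {g : G} {y z : Clq r b} :
    g • y = z ↔ ∀ i, g • y.1 i = z.1 i := by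
  constructor
  · rintro rfl i; rfl
  · intro h; ext i; exact h i

instance : CxAct G (Clq r) where
  fc_smul n g y := by
    simp only [Cx.fc, Multiset.map_map]
    rfl

end Action

/-- Exactness of all functions on ordered cliques. -/
theorem fex_clq {r : V → V → Prop} (hr : ∀ x y, r x y → r y x) (B : ℕ)
    (hK : ∀ T : Finset V, T.card < coneBound B → ∃ w, ∀ t ∈ T, r w t) (b : ℕ) (hb : b ≤ B) :
    FEx (Clq r) b := by
  classical
  cases b with
  | zero =>
    intro f hf
    obtain ⟨w, -⟩ := hK ∅ (by simpa using coneBound_pos B)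
    funext y
    have h1 : Clq r 1 := ⟨fun _ => w, fun i j hij => absurd (Subsingleton.elim i j) hij⟩
    have h := (Clq.cd_eq f h1).symm.trans (congrFun hf h1)
    rw [Fin.sum_univ_one] at h
    have e : y = h1.face 0 := by
      ext i
      exact i.elim0
    rw [e]
    exact h
  | succ b =>
    intro f hf
    obtain ⟨h, hh⟩ := exact_of_common hr b (fun T hT => hK T (hT.trans_le (coneBound_mono hb)))
      (fun y => if hy : CliqueCone.Clq r y then f ⟨y, hy⟩ else 0) (by
        intro y hy
        have h1 := (Clq.cd_eq f ⟨y, hy⟩).symm.trans (congrFun hf _)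
        rw [ocob]
        refine Eq.trans (Finset.sum_congr rfl fun i _ => ?_) h1
        rw [dif_pos (hy.comp i)]
        rfl)
    refine ⟨fun y => h y.1, ?_⟩
    funext y
    have h1 := hh y.1 y.2
    rw [dif_pos y.2] at h1
    rw [Clq.cd_eq]
    exact h1.symm

/-- Quotient lemma: exactness of the functions invariant under a subgroup `N` whose orbits are
controlled by an equivalence relation `s` and a relation `rb` on the quotient. -/
theorem ex_clq {G : Type*} [Group G] [MulAction G V] {r : V → V → Prop} [RelAct G r]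
    (N : Subgroup G) (hr : ∀ x y, r x y → r y x) (B : ℕ)
    (hK : ∀ T : Finset V, T.card < coneBound B → ∃ w, ∀ t ∈ T, r w t)
    (s : Setoid V) (rb : Quotient s → Quotient s → Prop) (hrb : ∀ x y, rb x y → rb y x)
    (h0 : ∀ x y, r x y → rb (Quotient.mk s x) (Quotient.mk s y))
    (hN : ∀ n ∈ N, ∀ v : V, Quotient.mk s (n • v) = Quotient.mk s v)
    (hq2 : ∀ b ≤ B, ∀ σ : Clq r b, ∀ c : V, (∀ i, rb (Quotient.mk s c) (Quotient.mk s (σ.1 i))) →
      ∃ c', Quotient.mk s c' = Quotient.mk s c ∧ ∀ i, r c' (σ.1 i))
    (hq3 : ∀ b ≤ B, ∀ σ : Clq r b, ∀ c c' : V, Quotient.mk s c = Quotient.mk s c' →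
      (∀ i, r c (σ.1 i)) → (∀ i, r c' (σ.1 i)) → ∃ n ∈ N, (∀ i, n • σ.1 i = σ.1 i) ∧ n • c = c')
    (b : ℕ) (hb : b ≤ B) : Ex N (Clq r) b := by
  classical
  -- the projection
  let π : ∀ b, Clq r b → Clq rb b := fun b y =>
    ⟨fun i => Quotient.mk s (y.1 i), fun i j h => h0 _ _ (y.2 i j h)⟩
  have hface : ∀ b (y : Clq r (b + 1)) i, π b (y.face i) = (π (b + 1) y).face i := fun _ _ _ => rfl
  have hsurj : ∀ b, b ≤ B + 1 → ∀ z : Clq rb b, ∃ y : Clq r b, π b y = z := by
    intro b
    induction b with
    | zero =>
      intro _ z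
      refine ⟨⟨fun i => i.elim0, fun i => i.elim0⟩, ?_⟩
      ext i
      exact i.elim0
    | succ b ih =>
      intro hb z
      obtain ⟨y, hy⟩ := ih (by omega) z.tail
      obtain ⟨c, hc⟩ := Quotient.exists_rep (z.1 0)
      have hyi : ∀ i, Quotient.mk s (y.1 i) = z.1 i.succ := fun i => congrFun (congrArg Subtype.val hy) i
      obtain ⟨c', hc'1, hc'2⟩ := hq2 b (by omega) y c (fun i => by
        rw [hyi, hc]
        exact z.2 0 i.succ (Fin.succ_ne_zero i).symm)
      refine ⟨Clq.cons hr c' y hc'2, ?_⟩
      ext i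
      refine Fin.cases ?_ (fun i => ?_) i
      · change Quotient.mk s c' = _
        rw [hc'1, hc]
      · change Quotient.mk s (y.1 i) = _
        exact hyi i
  have hinj : ∀ b, b ≤ B + 1 → ∀ y z : Clq r b, π b y = π b z → ∃ n ∈ N, n • y = z := by
    intro b
    induction b with
    | zero =>
      intro _ y z _
      refine ⟨1, N.one_mem, ?_⟩
      ext i
      exact i.elim0
    | succ b ih =>
      intro hb y z h
      have hi : ∀ i, Quotient.mk s (y.1 i) = Quotient.mk s (z.1 i) :=
        fun i => congrFun (congrArg Subtype.val h) i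
      obtain ⟨n1, hn1, h1⟩ := ih (by omega) y.tail z.tail (by
        ext i
        exact hi i.succ)
      have h1' : ∀ i : Fin b, n1 • y.1 i.succ = z.1 i.succ := clq_smul_eq_iff.1 h1
      obtain ⟨n2, hn2, h2, h3⟩ := hq3 b (by omega) z.tail (n1 • y.1 0) (z.1 0) (by
          rw [hN n1 hn1, hi])
        (fun i => by
          change r _ (z.1 i.succ)
          rw [← h1' i]
          exact RelAct.smul_rel _ _ _ (y.2 0 i.succ (Fin.succ_ne_zero i).symm))
        (fun i => z.2 0 i.succ (Fin.succ_ne_zero i).symm)
      refine ⟨n2 * n1, N.mul_mem hn2 hn1, ?_⟩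
      rw [clq_smul_eq_iff]
      intro i
      refine Fin.cases ?_ (fun i => ?_) i
      · rw [mul_smul, h3]
      · rw [mul_smul, h1' i]
        exact h2 i
  -- cone property downstairs
  have hKb : ∀ T : Finset (Quotient s), T.card < coneBound B → ∃ w, ∀ t ∈ T, rb w t := by
    intro T hT
    obtain ⟨w, hw⟩ := hK (T.image Quotient.out) (lt_of_le_of_lt Finset.card_image_le hT)
    refine ⟨Quotient.mk s w, fun t ht => ?_⟩
    have := h0 _ _ (hw _ (Finset.mem_image_of_mem _ ht))
    rwa [Quotient.out_eq] at this
  have hfex := fex_clq hrb B hKb b hb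
  -- descend a function
  have hdesc : ∀ b, b ≤ B → ∀ f : Clq r b → F2, Inv N f → cd f = 0 →
      ∃ fb : Clq rb b → F2, (∀ y, fb (π b y) = f y) ∧ cd fb = 0 := by
    intro b hb f hf h0'
    refine ⟨fun z => f (hsurj b (by omega) z).choose, ?_, ?_⟩
    · intro y
      obtain ⟨n, hn, h⟩ := hinj b (by omega) _ _ (hsurj b (by omega) (π b y)).choose_spec
      have := hf ⟨n, hn⟩ (hsurj b (by omega) (π b y)).choose
      exact this.symm.trans (congrArg f h)
    · funext z
      obtain ⟨y, rfl⟩ := hsurj (b + 1) (by omega) z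
      have h1 := (Clq.cd_eq f y).symm.trans (congrFun h0' y)
      rw [Clq.cd_eq]
      refine Eq.trans (Finset.sum_congr rfl fun i _ => ?_) h1
      rw [← hface]
      obtain ⟨n, hn, h⟩ := hinj b (by omega) _ _
        (hsurj b (by omega) (π b (y.face i))).choose_spec
      have := hf ⟨n, hn⟩ (hsurj b (by omega) (π b (y.face i))).choose
      exact this.symm.trans (congrArg f h)
  cases b with
  | zero =>
    intro f hf h0'
    obtain ⟨fb, hfb, hfb0⟩ := hdesc 0 hb f hf h0'
    have := hfex fb hfb0
    funext y
    rw [← hfb, this]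
    rfl
  | succ b =>
    intro f hf h0'
    obtain ⟨fb, hfb, hfb0⟩ := hdesc (b + 1) hb f hf h0'
    obtain ⟨g, hg⟩ := hfex fb hfb0
    refine ⟨fun y => g (π b y), ?_, ?_⟩
    · rintro ⟨n, hn⟩ y
      refine congrArg g ?_
      ext i
      exact hN n hn (y.1 i)
    · funext y
      rw [← hfb, ← hg, Clq.cd_eq, Clq.cd_eq]
      rfl

end Crest.Agent.R066.E
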