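import Crest.Agent.R066.Chain

/-! General relative vanishing lemma ("discrete Morse"), task M1b. -/

set_option autoImplicit false
set_option linter.unusedSectionVars false
set_option linter.unusedVariables false
open scoped BigOperators

namespace Crest.Agent.R066

variable {V : Type*} [DecidableEq V]

theorem lnkOp_eq_zero {σ : Finset V} {z : Ch V} (h : ∀ t ∈ z.support, ¬ σ ⊆ t) : lnkOp σ z = 0 := by
  by_contra hne
  obtain ⟨t, ht⟩ := Finsupp.support_nonempty_iff.2 hne
  obtain ⟨s, hs, hσ, _⟩ := mem_support_lnkOp ht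
  exact h s hs hσ

theorem lnkOp_joinOp {σ : Finset V} {z : Ch V} (h : ∀ t ∈ z.support, Disjoint σ t) :
    lnkOp σ (joinOp σ z) = z := by
  classical
  conv_lhs => rw [← Finsupp.sum_single z]
  conv_rhs => rw [← Finsupp.sum_single z]
  rw [Finsupp.sum, map_sum, map_sum]
  refine Finset.sum_congr rfl fun t ht => ?_
  rw [joinOp_single, if_pos (h t ht), lnkOp_single, if_pos Finset.subset_union_left,
    Finset.union_sdiff_cancel_left (h t ht)]

theorem lnkOp_apply_sdiff {σ : Finset V} (z : Ch V) (t : Finset V) (ht : σ ⊆ t) :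
    lnkOp σ z (t \ σ) = z t := by
  classical
  conv_lhs => rw [← Finsupp.sum_single z]
  conv_rhs => rw [← Finsupp.sum_single z]
  rw [Finsupp.sum, map_sum, Finsupp.finsetSum_apply, Finsupp.finsetSum_apply]
  refine Finset.sum_congr rfl fun s _ => ?_
  rw [lnkOp_single]
  by_cases hs : σ ⊆ s
  · rw [if_pos hs]
    by_cases e : s = t
    · subst e; rw [Finsupp.single_eq_same, Finsupp.single_eq_same]
    · rw [Finsupp.single_eq_of_ne (fun h => e h.symm), Finsupp.single_eq_of_ne]
      intro h
      apply e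
      rw [← Finset.sdiff_union_of_subset hs, ← Finset.sdiff_union_of_subset ht, h]
  · rw [if_neg hs, Finsupp.single_eq_of_ne]
    · rfl
    · rintro rfl; exact hs ht

/-- If the link part of `z` at `σ` vanishes then no simplex of `z` contains `σ`. -/
theorem not_subset_of_lnkOp {σ : Finset V} {z : Ch V} (h : lnkOp σ z = 0) :
    ∀ t ∈ z.support, ¬ σ ⊆ t := by
  intro t ht hσ
  have := lnkOp_apply_sdiff z t hσ
  rw [h] at this
  exact Finsupp.mem_support_iff.1 ht this.symm

/-- `K₀ ⊆ K` complexes; every simplex `τ ∈ K \ K₀` has a "critical" nonempty face `s τ ∈ K \ K₀`, such that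
`s` and the height `H` are constant on `{τ' : s τ ⊆ τ' ⊆ τ}`, and `H` drops (or `τ' ∈ K₀`) on the other
faces.  If all the links `{ρ : Disjoint ρ σ, ρ ∪ σ ∈ K \ K₀, s (ρ ∪ σ) = σ}` of critical `σ` are exact in
cardinality `i` whenever `i + |σ| ≤ m`, then every relative cycle of cardinality `≤ m` is homologous to
a chain in `K₀`. -/
theorem relative_push {K K₀ : Set (Finset V)} (hK : IsCx K) (hK₀ : IsCx K₀) (hsub : K₀ ⊆ K)
    (s : Finset V → Finset V) (H : Finset V → ℕ) (m : ℕ)
    (h1 : ∀ τ ∈ K, τ ∉ K₀ → (s τ).Nonempty ∧ s τ ⊆ τ)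
    (h2 : ∀ τ ∈ K, τ ∉ K₀ → ∀ τ', s τ ⊆ τ' → τ' ⊆ τ → τ' ∉ K₀ ∧ s τ' = s τ ∧ H τ' = H τ)
    (h3 : ∀ τ ∈ K, τ ∉ K₀ → ∀ τ', τ' ⊆ τ → ¬ s τ ⊆ τ' → τ' ∈ K₀ ∨ H τ' < H τ)
    (h4 : ∀ σ ∈ K, σ ∉ K₀ → s σ = σ → ∀ i, i + σ.card ≤ m →
      ExactAt {ρ | Disjoint ρ σ ∧ ρ ∪ σ ∈ K ∧ ρ ∪ σ ∉ K₀ ∧ s (ρ ∪ σ) = σ} i) :
    ∀ i, i ≤ m → ∀ z ∈ chains K i, (∀ t ∈ (bd z).support, t ∈ K₀) →
      ∃ y ∈ chains K (i + 1), ∀ t ∈ (z + bd y).support, t ∈ K₀ := by
  classical
  intro i hi
  -- outer induction on the height bound, inner on the number of top simplices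
  have main : ∀ h n : ℕ, ∀ z ∈ chains K i, (∀ t ∈ (bd z).support, t ∈ K₀) →
      (∀ t ∈ z.support, t ∈ K₀ ∨ H t < h + 1) →
      (z.support.filter (fun t => t ∉ K₀ ∧ H t = h)).card ≤ n →
      ∃ y ∈ chains K (i + 1), ∀ t ∈ (z + bd y).support, t ∈ K₀ ∨ H t < h := by
    intro h n
    induction n with
    | zero =>
      intro z hz _ hh hn
      refine ⟨0, zero_mem _, ?_⟩
      intro t ht
      rw [map_zero, add_zero] at ht
      rcases hh t ht with h5 | h5
      · exact Or.inl h5
      · by_cases h6 : t ∈ K₀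
        · exact Or.inl h6
        right
        rcases Nat.lt_succ_iff_lt_or_eq.1 h5 with h7 | h7
        · exact h7
        exfalso
        have : t ∈ z.support.filter (fun t => t ∉ K₀ ∧ H t = h) := Finset.mem_filter.2 ⟨ht, h6, h7⟩
        rw [Finset.card_eq_zero.1 (Nat.le_zero.1 hn)] at this
        exact absurd this (Finset.notMem_empty _)
    | succ n ih =>
      intro z hz hbd hh hn
      by_cases hne : (z.support.filter (fun t => t ∉ K₀ ∧ H t = h)).Nonempty
      · obtain ⟨t₀, ht₀⟩ := hne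
        obtain ⟨ht₀z, ht₀K, ht₀h⟩ := Finset.mem_filter.1 ht₀
        have hz2 := mem_chains.1 hz
        have ht₀K' := (hz2 t₀ ht₀z).1
        set σ := s t₀ with hσ
        obtain ⟨hσne, hσt⟩ := h1 t₀ ht₀K' ht₀K
        obtain ⟨hσK₀, hσσ, hσH⟩ := h2 t₀ ht₀K' ht₀K σ (le_refl _) hσt
        have hσK : σ ∈ K := hK t₀ ht₀K' σ hσt
        -- every simplex of `z` containing `σ` has critical face `σ`
        have hcrit : ∀ t ∈ z.support, σ ⊆ t → t ∉ K₀ ∧ s t = σ ∧ H t = h := by
          intro t ht hσt'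
          have htK := (hz2 t ht).1
          have htK₀ : t ∉ K₀ := fun h' => hσK₀ (hK₀ t h' σ hσt')
          have hHt : H t < h + 1 := (hh t ht).resolve_left htK₀
          have h5 : s t ⊆ σ := by
            by_contra h6
            rcases h3 t htK htK₀ σ hσt' h6 with h7 | h7
            · exact hσK₀ h7
            · rw [hσH, ht₀h] at h7; omega
          obtain ⟨_, h7, h8⟩ := h2 t htK htK₀ σ h5 hσt'
          refine ⟨htK₀, ?_, ?_⟩
          · rw [← h7]; exact hσσ
          · rw [← h8, hσH]; exact ht₀h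
        have hcard : σ.card ≤ i := by
          rw [← (hz2 t₀ ht₀z).2]; exact Finset.card_le_card hσt
        obtain ⟨b, hb, hbz⟩ := h4 σ hσK hσK₀ hσσ (i - σ.card) (by omega) (lnkOp σ z) (by
            rw [mem_chains]
            intro ρ hρ
            obtain ⟨t, ht, hσt', rfl⟩ := mem_support_lnkOp hρ
            obtain ⟨h5, h6, _⟩ := hcrit t ht hσt'
            refine ⟨⟨Finset.sdiff_disjoint, ?_, ?_, ?_⟩, ?_⟩
            · rw [Finset.sdiff_union_of_subset hσt']; exact (hz2 t ht).1
            · rw [Finset.sdiff_union_of_subset hσt']; exact h5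
            · rw [Finset.sdiff_union_of_subset hσt']; exact h6
            · rw [Finset.card_sdiff_of_subset hσt', (hz2 t ht).2]) (by
            rw [bd_lnkOp]
            exact lnkOp_eq_zero fun t ht h' => hσK₀ (hK₀ t (hbd t ht) σ h'))
        have hb2 := mem_chains.1 hb
        have hbdis : ∀ t ∈ b.support, Disjoint σ t := fun t ht => (hb2 t ht).1.1.symm
        have hjoin : joinOp σ b ∈ chains K (i + 1) := by
          rw [mem_chains]
          intro t ht
          obtain ⟨ρ, hρ, hdis, rfl⟩ := mem_support_joinOp ht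
          refine ⟨?_, ?_⟩
          · rw [Finset.union_comm]; exact (hb2 ρ hρ).1.2.1
          · rw [Finset.card_union_of_disjoint hdis, (hb2 ρ hρ).2]; omega
        set z' := z + bd (joinOp σ b) with hz'
        have hz'K : z' ∈ chains K i := add_mem hz (bd_mem hK hjoin)
        have hlnk : lnkOp σ z' = 0 := by
          rw [hz', map_add, ← bd_lnkOp, lnkOp_joinOp hbdis, hbz, ch_add_self]
        have hno := not_subset_of_lnkOp hlnk
        have hnew : ∀ t ∈ (bd (joinOp σ b)).support, ¬ σ ⊆ t → t ∈ K₀ ∨ H t < h := by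
          intro t ht hσt'
          obtain ⟨u, hu, v, hv, rfl⟩ := mem_support_bd ht
          obtain ⟨ρ, hρ, hdis, rfl⟩ := mem_support_joinOp hu
          obtain ⟨_, h5, h6, h7⟩ := (hb2 ρ hρ).1
          rw [Finset.union_comm] at h5 h6 h7
          have h8 := h3 (σ ∪ ρ) h5 h6 ((σ ∪ ρ).erase v) (Finset.erase_subset _ _) (by rwa [h7])
          have h9 := (h2 (σ ∪ ρ) h5 h6 σ (by rw [h7]) Finset.subset_union_left).2.2
          rw [← h9, hσH, ht₀h] at h8
          exact h8
        have hsupp : ∀ t ∈ z'.support, (t ∈ z.support ∧ ¬ σ ⊆ t) ∨ (t ∈ K₀ ∨ H t < h) := by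
          intro t ht
          have h5 := hno t ht
          rcases Finset.mem_union.1 (Finsupp.support_add ht) with h6 | h6
          · exact Or.inl ⟨h6, h5⟩
          · exact Or.inr (hnew t h6 h5)
        obtain ⟨y, hy, hyz⟩ := ih z' hz'K (by
            intro t ht
            rw [hz', map_add, bd_bd, add_zero] at ht
            exact hbd t ht) (by
            intro t ht
            rcases hsupp t ht with h5 | h5
            · exact hh t h5.1
            · exact h5.imp id (fun h6 => by omega)) (by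
            have hlt : (z'.support.filter (fun t => t ∉ K₀ ∧ H t = h)) ⊆
                (z.support.filter (fun t => t ∉ K₀ ∧ H t = h)).erase t₀ := by
              intro t ht
              obtain ⟨ht1, ht2, ht3⟩ := Finset.mem_filter.1 ht
              rcases hsupp t ht1 with h5 | h5 | h5
              · refine Finset.mem_erase.2 ⟨?_, Finset.mem_filter.2 ⟨h5.1, ht2, ht3⟩⟩
                rintro rfl
                exact h5.2 hσt
              · exact absurd h5 ht2
              · omega
            have := Finset.card_le_card hlt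
            rw [Finset.card_erase_of_mem ht₀] at this
            omega)
        refine ⟨joinOp σ b + y, add_mem hjoin hy, ?_⟩
        rwa [map_add, ← add_assoc]
      · refine ih z hz hbd hh ?_
        rw [Finset.not_nonempty_iff_eq_empty.1 hne]
        simp
  have main2 : ∀ h : ℕ, ∀ z ∈ chains K i, (∀ t ∈ (bd z).support, t ∈ K₀) →
      (∀ t ∈ z.support, t ∈ K₀ ∨ H t < h) →
      ∃ y ∈ chains K (i + 1), ∀ t ∈ (z + bd y).support, t ∈ K₀ := by
    intro h
    induction h with
    | zero =>
      intro z hz _ hh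
      refine ⟨0, zero_mem _, ?_⟩
      intro t ht
      rw [map_zero, add_zero] at ht
      exact (hh t ht).resolve_right (Nat.not_lt_zero _)
    | succ h ih =>
      intro z hz hbd hh
      obtain ⟨y, hy, hyz⟩ := main h _ z hz hbd hh le_rfl
      obtain ⟨y', hy', hyz'⟩ := ih (z + bd y) (add_mem hz (bd_mem hK hy)) (by
        intro t ht
        rw [map_add, bd_bd, add_zero] at ht
        exact hbd t ht) hyz
      refine ⟨y + y', add_mem hy hy', ?_⟩
      rwa [map_add, ← add_assoc]
  intro z hz hbd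
  refine main2 (z.support.sup H + 1) z hz hbd fun t ht => Or.inr ?_
  exact Nat.lt_succ_of_le (Finset.le_sup ht)


/-- Consequence 2: exactness passes from `K` to `K₀` (one degree lost in the hypothesis on pushing). -/
theorem exactAt_down {K K₀ : Set (Finset V)} (hK : IsCx K) (hsub : K₀ ⊆ K) (i : ℕ)
    (hpush : ∀ z ∈ chains K (i + 1), (∀ t ∈ (bd z).support, t ∈ K₀) →
      ∃ y ∈ chains K (i + 2), ∀ t ∈ (z + bd y).support, t ∈ K₀)
    (h : ExactAt K i) : ExactAt K₀ i := by
  intro z hz hbd
  obtain ⟨w, hw, hwz⟩ := h z (chains_mono hsub _ hz) hbd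
  obtain ⟨y, hy, hyw⟩ := hpush w hw (by
    rw [hwz]; exact fun t ht => (mem_chains.1 hz t ht).1)
  have h1 := mem_chains.1 (add_mem hw (bd_mem hK hy))
  refine ⟨w + bd y, mem_chains.2 fun t ht => ⟨hyw t ht, (h1 t ht).2⟩, ?_⟩
  rw [map_add, bd_bd, add_zero, hwz]


end Crest.Agent.R066
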