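import Mathlib
import Crest.Agent.R066.Basic
import Crest.Agent.R066.Morse

-- ▼ part R066/FillChain
section

/-!
Row 66 (S0088), part (C): chains with coefficients in `ZMod 2` on finite sets, bounded fillings.
A simplex is a `Finset V`; a chain is `Finset V →₀ ZMod 2`; degrees are counted by cardinality
(augmented: the empty simplex has cardinality `0`).
-/

set_option autoImplicit false
set_option linter.unusedSectionVars false

namespace Crest.Agent.R066.Fill

variable {V : Type*} [DecidableEq V]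

/-- chains -/
abbrev Ch (V : Type*) := Finset V →₀ ZMod 2

/-- boundary -/
noncomputable def bd : Ch V →ₗ[ZMod 2] Ch V :=
  Finsupp.linearCombination (ZMod 2) (fun σ : Finset V =>
    ∑ v ∈ σ, (Finsupp.single (σ.erase v) 1 : Ch V))

/-- cone with apex `v` -/
noncomputable def cone (v : V) : Ch V →ₗ[ZMod 2] Ch V :=
  Finsupp.linearCombination (ZMod 2) (fun σ : Finset V =>
    if v ∈ σ then (0 : Ch V) else Finsupp.single (insert v σ) 1)

/-- link part at `v` -/
noncomputable def lnk (v : V) : Ch V →ₗ[ZMod 2] Ch V :=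
  Finsupp.linearCombination (ZMod 2) (fun σ : Finset V =>
    if v ∈ σ then (Finsupp.single (σ.erase v) 1 : Ch V) else 0)

/-- part avoiding `v` -/
noncomputable def del (v : V) : Ch V →ₗ[ZMod 2] Ch V :=
  Finsupp.linearCombination (ZMod 2) (fun σ : Finset V =>
    if v ∈ σ then (0 : Ch V) else Finsupp.single σ 1)

theorem bd_single (σ : Finset V) :
    bd (Finsupp.single σ 1 : Ch V) = ∑ v ∈ σ, (Finsupp.single (σ.erase v) 1 : Ch V) := by
  unfold bd
  rw [Finsupp.linearCombination_single, one_smul]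

theorem cone_single (v : V) (σ : Finset V) : cone v (Finsupp.single σ 1 : Ch V) =
    if v ∈ σ then (0 : Ch V) else Finsupp.single (insert v σ) 1 := by
  unfold cone
  rw [Finsupp.linearCombination_single, one_smul]

theorem lnk_single (v : V) (σ : Finset V) : lnk v (Finsupp.single σ 1 : Ch V) =
    if v ∈ σ then (Finsupp.single (σ.erase v) 1 : Ch V) else 0 := by
  unfold lnk
  rw [Finsupp.linearCombination_single, one_smul]

theorem del_single (v : V) (σ : Finset V) : del v (Finsupp.single σ 1 : Ch V) =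
    if v ∈ σ then (0 : Ch V) else Finsupp.single σ 1 := by
  unfold del
  rw [Finsupp.linearCombination_single, one_smul]

/-- linear maps on chains agree if they agree on simplices -/
theorem lin_ext {M : Type*} [AddCommMonoid M] [Module (ZMod 2) M] {f g : Ch V →ₗ[ZMod 2] M}
    (h : ∀ σ, f (Finsupp.single σ 1) = g (Finsupp.single σ 1)) : f = g := by
  apply Finsupp.lhom_ext'
  intro σ
  apply LinearMap.ext_ring
  exact h σ

theorem add_self (c : Ch V) : c + c = 0 := by
  ext σ
  exact CharTwo.add_self_eq_zero _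

theorem bd_bd (c : Ch V) : bd (bd c) = 0 := by
  have h : (bd.comp bd : Ch V →ₗ[ZMod 2] Ch V) = 0 := by
    apply lin_ext
    intro σ
    rw [LinearMap.comp_apply, bd_single, map_sum, LinearMap.zero_apply]
    have h1 : ∀ v ∈ σ, bd (Finsupp.single (σ.erase v) 1 : Ch V) =
        ∑ w ∈ σ.erase v, (Finsupp.single ((σ.erase v).erase w) 1 : Ch V) := fun v _ => bd_single _
    rw [Finset.sum_congr rfl h1, Finset.sum_sigma']
    refine Finset.sum_involution (fun p _ => ⟨p.2, p.1⟩) ?_ ?_ ?_ ?_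
    · rintro ⟨v, w⟩ h
      simp only
      rw [Finset.erase_right_comm]
      exact add_self _
    · rintro ⟨v, w⟩ h _ heq
      simp only [Finset.mem_sigma, Finset.mem_erase] at h
      simp only [Sigma.mk.injEq] at heq
      exact h.2.1 heq.1
    · rintro ⟨v, w⟩ h
      simp only [Finset.mem_sigma, Finset.mem_erase] at h ⊢
      exact ⟨h.2.2, fun e => h.2.1 e.symm, h.1⟩
    · rintro ⟨v, w⟩ h
      rfl
  exact LinearMap.congr_fun h c

/-- the cone is a contracting homotopy of the full simplex -/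
theorem bd_cone (v : V) (c : Ch V) : bd (cone v c) + cone v (bd c) = c := by
  have h : (bd.comp (cone v) + (cone v).comp bd : Ch V →ₗ[ZMod 2] Ch V) = LinearMap.id := by
    apply lin_ext
    intro σ
    rw [LinearMap.add_apply, LinearMap.comp_apply, LinearMap.comp_apply, cone_single, bd_single,
      map_sum, LinearMap.id_apply]
    simp only [cone_single]
    by_cases hv : v ∈ σ
    · rw [if_pos hv, map_zero, zero_add, Finset.sum_eq_single v]
      · rw [if_neg (Finset.notMem_erase v σ), Finset.insert_erase hv]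
      · intro w hw hwv
        rw [if_pos (Finset.mem_erase.2 ⟨fun e => hwv e.symm, hv⟩)]
      · intro h; exact absurd hv h
    · rw [if_neg hv, bd_single, Finset.sum_insert hv, Finset.erase_insert hv]
      have h1 : ∀ w ∈ σ, (if v ∈ σ.erase w then (0 : Ch V) else
          Finsupp.single (insert v (σ.erase w)) 1) = Finsupp.single ((insert v σ).erase w) 1 := by
        intro w hw
        have hwv : v ≠ w := fun e => hv (e ▸ hw)
        rw [if_neg (fun h => hv (Finset.mem_of_mem_erase h)), Finset.erase_insert_of_ne hwv]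
      rw [Finset.sum_congr rfl h1, add_assoc, add_self, add_zero]
  exact LinearMap.congr_fun h c

theorem bd_lnk (v : V) (c : Ch V) : bd (lnk v c) = lnk v (bd c) := by
  have h : (bd.comp (lnk v) : Ch V →ₗ[ZMod 2] Ch V) = (lnk v).comp bd := by
    apply lin_ext
    intro σ
    rw [LinearMap.comp_apply, LinearMap.comp_apply, lnk_single, bd_single, map_sum]
    simp only [lnk_single]
    by_cases hv : v ∈ σ
    · rw [if_pos hv, bd_single]
      rw [← Finset.add_sum_erase σ _ hv, if_neg (Finset.notMem_erase v σ), zero_add]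
      refine Finset.sum_congr rfl fun w hw => ?_
      rw [if_pos (Finset.mem_erase.2 ⟨fun e => (Finset.mem_erase.1 hw).1 e.symm, hv⟩),
        Finset.erase_right_comm]
    · rw [if_neg hv, map_zero]
      symm
      refine Finset.sum_eq_zero fun w _ => if_neg fun h => hv (Finset.mem_of_mem_erase h)
  exact LinearMap.congr_fun h c

theorem del_add_cone_lnk (v : V) (c : Ch V) : del v c + cone v (lnk v c) = c := by
  have h : (del v + (cone v).comp (lnk v) : Ch V →ₗ[ZMod 2] Ch V) = LinearMap.id := by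
    apply lin_ext
    intro σ
    rw [LinearMap.add_apply, LinearMap.comp_apply, del_single, lnk_single, LinearMap.id_apply]
    by_cases hv : v ∈ σ
    · rw [if_pos hv, if_pos hv, cone_single, if_neg (Finset.notMem_erase v σ),
        Finset.insert_erase hv, zero_add]
    · rw [if_neg hv, if_neg hv, map_zero, add_zero]
  exact LinearMap.congr_fun h c

/-! ### supports -/

/-- `c` is a chain of simplices of `K` with `m` vertices -/
def IsCh (K : Set (Finset V)) (m : ℕ) (c : Ch V) : Prop :=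
  ∀ σ ∈ c.support, σ ∈ K ∧ σ.card = m

theorem IsCh.add {K : Set (Finset V)} {m : ℕ} {c d : Ch V} (hc : IsCh K m c) (hd : IsCh K m d) :
    IsCh K m (c + d) := by
  intro σ hσ
  rcases Finset.mem_union.1 (Finsupp.support_add hσ) with h | h
  · exact hc σ h
  · exact hd σ h

theorem IsCh.zero {K : Set (Finset V)} {m : ℕ} : IsCh K m (0 : Ch V) := by
  intro σ hσ; simp at hσ

theorem support_lc {f : Finset V → Ch V} (c : Ch V) {σ : Finset V}
    (h : σ ∈ (Finsupp.linearCombination (ZMod 2) f c).support) :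
    ∃ τ ∈ c.support, σ ∈ (f τ).support := by
  rw [Finsupp.linearCombination_apply, Finsupp.sum] at h
  obtain ⟨τ, hτ, h2⟩ := Finset.mem_biUnion.1 (Finsupp.support_finsetSum h)
  exact ⟨τ, hτ, Finsupp.support_smul h2⟩

theorem mem_support_cone {v : V} {c : Ch V} {σ : Finset V} (h : σ ∈ (cone v c).support) :
    ∃ τ ∈ c.support, v ∉ τ ∧ σ = insert v τ := by
  obtain ⟨τ, hτ, h2⟩ := support_lc c h
  refine ⟨τ, hτ, ?_⟩
  by_cases hv : v ∈ τ
  · rw [if_pos hv] at h2; simp at h2
  · rw [if_neg hv] at h2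
    exact ⟨hv, Finset.mem_singleton.1 (Finsupp.support_single_subset h2)⟩

theorem mem_support_lnk {v : V} {c : Ch V} {σ : Finset V} (h : σ ∈ (lnk v c).support) :
    ∃ τ ∈ c.support, v ∈ τ ∧ σ = τ.erase v := by
  obtain ⟨τ, hτ, h2⟩ := support_lc c h
  refine ⟨τ, hτ, ?_⟩
  by_cases hv : v ∈ τ
  · rw [if_pos hv] at h2
    exact ⟨hv, Finset.mem_singleton.1 (Finsupp.support_single_subset h2)⟩
  · rw [if_neg hv] at h2; simp at h2

theorem mem_support_del {v : V} {c : Ch V} {σ : Finset V} (h : σ ∈ (del v c).support) :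
    σ ∈ c.support ∧ v ∉ σ := by
  obtain ⟨τ, hτ, h2⟩ := support_lc c h
  by_cases hv : v ∈ τ
  · rw [if_pos hv] at h2; simp at h2
  · rw [if_neg hv] at h2
    obtain rfl := Finset.mem_singleton.1 (Finsupp.support_single_subset h2)
    exact ⟨hτ, hv⟩

theorem card_cone_le (v : V) (c : Ch V) : (cone v c).support.card ≤ c.support.card := by
  classical
  calc (cone v c).support.card ≤ (c.support.image (insert v)).card := by
        apply Finset.card_le_card
        intro σ hσ
        obtain ⟨τ, hτ, _, rfl⟩ := mem_support_cone hσ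
        exact Finset.mem_image_of_mem _ hτ
    _ ≤ _ := Finset.card_image_le

theorem card_lnk_le (v : V) (c : Ch V) : (lnk v c).support.card ≤ c.support.card := by
  classical
  calc (lnk v c).support.card ≤ (c.support.image (fun τ => τ.erase v)).card := by
        apply Finset.card_le_card
        intro σ hσ
        obtain ⟨τ, hτ, _, rfl⟩ := mem_support_lnk hσ
        exact Finset.mem_image_of_mem _ hτ
    _ ≤ _ := Finset.card_image_le

theorem card_del_le (v : V) (c : Ch V) : (del v c).support.card ≤ c.support.card :=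
  Finset.card_le_card fun _ hσ => (mem_support_del hσ).1

theorem card_add_le (c d : Ch V) : (c + d).support.card ≤ c.support.card + d.support.card := by
  classical
  exact (Finset.card_le_card Finsupp.support_add).trans (Finset.card_union_le _ _)

/-- Elimination of the vertex `v`: if the link part of the cycle `z` is filled by `c`, then `z` is
homologous to `del v z + c`. -/
theorem elim {v : V} {z c : Ch V} (hc : bd c = lnk v z) :
    z = (del v z + c) + bd (cone v c) := by
  have h1 := bd_cone v c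
  have h2 := del_add_cone_lnk v z
  rw [hc] at h1
  have h3 : bd (cone v c) = c + cone v (lnk v z) := by
    calc bd (cone v c) = bd (cone v c) + (cone v (lnk v z) + cone v (lnk v z)) := by
          rw [add_self, add_zero]
      _ = c + cone v (lnk v z) := by rw [← add_assoc, h1]
  rw [h3]
  calc z = del v z + cone v (lnk v z) := h2.symm
    _ = del v z + cone v (lnk v z) + (c + c) := by rw [add_self, add_zero]
    _ = _ := by abel

theorem bd_elim {v : V} {z c : Ch V} (hz : bd z = 0) (hc : bd c = lnk v z) :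
    bd (del v z + c) = 0 := by
  have h1 := elim hc
  have h2 := congrArg bd h1
  rw [map_add, bd_bd, add_zero, hz] at h2
  exact h2.symm

/-- bounded filling: every cycle of `m`-element simplices of size at most `s` has a filling of
size at most `t` -/
def BF (K : Set (Finset V)) (m s t : ℕ) : Prop :=
  ∀ z : Ch V, IsCh K m z → bd z = 0 → z.support.card ≤ s →
    ∃ c : Ch V, IsCh K (m + 1) c ∧ bd c = z ∧ c.support.card ≤ t

end Crest.Agent.R066.Fill
end

-- ▼ part R066/FillPoset
section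

/-!
Row 66 (S0088), part (C): uniform bounded fillings in the complexes of subspaces opposite to a flag.

Abstract setting: `E` a vector space over `F`, `Λ : ℤ → Submodule F E` decreasing with
one-dimensional quotients, `W` opposite of index `j` when `W ⊕ Λ j = E`.
-/

set_option autoImplicit false
set_option linter.unusedSectionVars false

namespace Crest.Agent.R066.Fill

open Finset

section defs

variable {F : Type} [Field F] {E : Type} [AddCommGroup E] [Module F E]

/-- decreasing flag with one-dimensional quotients -/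
def IsFlag (Λ : ℤ → Submodule F E) : Prop :=
  ∀ j, ∃ x, x ∉ Λ (j + 1) ∧ Λ j = Λ (j + 1) ⊔ Submodule.span F {x}

/-- opposite of index `j` -/
def Opp (Λ : ℤ → Submodule F E) (j : ℤ) (W : Submodule F E) : Prop := IsCompl W (Λ j)


variable {Λ : ℤ → Submodule F E}

theorem IsFlag.succ_le (h : IsFlag Λ) (j : ℤ) : Λ (j + 1) ≤ Λ j := by
  obtain ⟨x, _, hx⟩ := h j
  rw [hx]; exact le_sup_left

theorem IsFlag.anti (h : IsFlag Λ) : Antitone Λ := antitone_int_of_succ_le h.succ_le

theorem IsFlag.succ_lt (h : IsFlag Λ) (j : ℤ) : Λ (j + 1) < Λ j := by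
  obtain ⟨x, hx1, hx⟩ := h j
  refine lt_of_le_of_ne (h.succ_le j) fun e => hx1 ?_
  rw [e, hx]
  exact Submodule.mem_sup_right (Submodule.mem_span_singleton_self x)

theorem IsFlag.strictAnti (h : IsFlag Λ) : StrictAnti Λ := strictAnti_int_of_succ_lt h.succ_lt

/-- comparison of opposite subspaces -/
theorem Opp.eq_of_le {i : ℤ} {W W' : Submodule F E} (h1 : Opp Λ i W) (h2 : Opp Λ i W')
    (h : W ≤ W') : W = W' := by
  apply le_antisymm h
  intro x hx
  have hx2 : x ∈ W ⊔ Λ i := by rw [h1.sup_eq_top]; trivial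
  obtain ⟨y, hy, z, hz, rfl⟩ := Submodule.mem_sup.1 hx2
  have hz2 : z ∈ W' := by
    have := W'.sub_mem hx (h hy)
    simpa using this
  have hz3 : z ∈ W' ⊓ Λ i := ⟨hz2, hz⟩
  rw [h2.inf_eq_bot] at hz3
  rw [(Submodule.mem_bot F).1 hz3, add_zero]
  exact hy

theorem Opp.index_le (hΛ : IsFlag Λ) {i j : ℤ} {W W' : Submodule F E} (h1 : Opp Λ i W)
    (h2 : Opp Λ j W') (h : W ≤ W') : i ≤ j := by
  by_contra hc
  push Not at hc
  -- `Λ i < Λ j`, `W ⊕ Λ i = E`, `W ⊓ Λ j ≤ W' ⊓ Λ j = ⊥`
  have h3 : Λ i < Λ j := hΛ.strictAnti hc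
  obtain ⟨x, hx, hxi⟩ := SetLike.exists_of_lt h3
  have hx2 : x ∈ W ⊔ Λ i := by rw [h1.sup_eq_top]; trivial
  obtain ⟨y, hy, z, hz, rfl⟩ := Submodule.mem_sup.1 hx2
  have hy2 : y ∈ Λ j := by
    have := (Λ j).sub_mem hx (h3.le hz)
    simpa using this
  have hy3 : y ∈ W' ⊓ Λ j := ⟨h hy, hy2⟩
  rw [h2.inf_eq_bot] at hy3
  rw [(Submodule.mem_bot F).1 hy3, zero_add] at hxi
  exact hxi hz

theorem Opp.index_lt (hΛ : IsFlag Λ) {i j : ℤ} {W W' : Submodule F E} (h1 : Opp Λ i W)
    (h2 : Opp Λ j W') (h : W < W') : i < j := by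
  refine lt_of_le_of_ne (h1.index_le hΛ h2 h.le) ?_
  rintro rfl
  exact h.ne (h1.eq_of_le h2 h.le)

theorem Opp.index_eq (hΛ : IsFlag Λ) {i j : ℤ} {W : Submodule F E} (h1 : Opp Λ i W)
    (h2 : Opp Λ j W) : i = j :=
  le_antisymm (h1.index_le hΛ h2 le_rfl) (h2.index_le hΛ h1 le_rfl)

/-- `W + Λ_{j+1}` is a proper subspace -/
theorem Opp.not_sup (hΛ : IsFlag Λ) {j : ℤ} {W : Submodule F E} (h : Opp Λ j W) :
    W ⊔ Λ (j + 1) ≠ ⊤ := by
  intro e
  have h2 : Opp Λ (j + 1) W :=
    ⟨h.disjoint.mono_right (hΛ.succ_le j), codisjoint_iff.2 e⟩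
  have := h.index_eq hΛ h2
  omega

/-- adding a generic vector -/
theorem Opp.add_vec (hΛ : IsFlag Λ) {j : ℤ} {W : Submodule F E} (h : Opp Λ j W) {v : E}
    (hv : v ∉ W ⊔ Λ (j + 1)) : Opp Λ (j + 1) (W ⊔ Submodule.span F {v}) := by
  obtain ⟨x, hx1, hx⟩ := hΛ j
  constructor
  · rw [disjoint_iff, eq_bot_iff]
    rintro y ⟨hy1, hy2⟩
    obtain ⟨w, hw, z, hz, rfl⟩ := Submodule.mem_sup.1 hy1
    obtain ⟨c, rfl⟩ := Submodule.mem_span_singleton.1 hz
    by_cases hc : c = 0
    · subst hc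
      rw [zero_smul, add_zero] at hy2 ⊢
      have : w ∈ W ⊓ Λ j := ⟨hw, hΛ.succ_le j hy2⟩
      rwa [h.inf_eq_bot] at this
    · exfalso
      apply hv
      have h1 : c • v ∈ W ⊔ Λ (j + 1) := by
        have : c • v = -w + (w + c • v) := by abel
        rw [this]
        exact Submodule.add_mem_sup (W.neg_mem hw) hy2
      have h2 := (W ⊔ Λ (j + 1)).smul_mem c⁻¹ h1
      rwa [smul_smul, inv_mul_cancel₀ hc, one_smul] at h2
  · rw [codisjoint_iff, eq_top_iff]
    -- write `v = w + l + c x` with `c ≠ 0`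
    have hv2 : v ∈ W ⊔ Λ j := by rw [h.sup_eq_top]; trivial
    obtain ⟨w, hw, l, hl, hwl⟩ := Submodule.mem_sup.1 hv2
    rw [hx] at hl
    obtain ⟨l', hl', z, hz, rfl⟩ := Submodule.mem_sup.1 hl
    obtain ⟨c, rfl⟩ := Submodule.mem_span_singleton.1 hz
    have hc : c ≠ 0 := by
      rintro rfl
      apply hv
      rw [← hwl, zero_smul, add_zero]
      exact Submodule.add_mem_sup hw hl'
    set S : Submodule F E := W ⊔ Submodule.span F {v} ⊔ Λ (j + 1) with hS
    have hWS : W ≤ S := le_sup_left.trans le_sup_left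
    have hvS : v ∈ S :=
      (le_sup_left : W ⊔ Submodule.span F {v} ≤ S)
        (Submodule.mem_sup_right (Submodule.mem_span_singleton_self v))
    have hLS : Λ (j + 1) ≤ S := le_sup_right
    have hxS : x ∈ S := by
      have h1 : c • x ∈ S := by
        have : c • x = v - w - l' := by rw [← hwl]; abel
        rw [this]
        exact S.sub_mem (S.sub_mem hvS (hWS hw)) (hLS hl')
      have h2 := S.smul_mem c⁻¹ h1
      rwa [smul_smul, inv_mul_cancel₀ hc, one_smul] at h2
    rw [← h.sup_eq_top, hx]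
    refine sup_le hWS (sup_le hLS ?_)
    rw [Submodule.span_singleton_le_iff_mem]
    exact hxS

/-- avoiding few proper subspaces -/
theorem avoid [Fintype F] (U : Submodule F E) (𝓗 : Finset (Submodule F E))
    (h : ∀ H ∈ 𝓗, ¬ U ≤ H) (hc : 𝓗.card ≤ Fintype.card F) : ∃ x ∈ U, ∀ H ∈ 𝓗, x ∉ H := by
  classical
  induction 𝓗 using Finset.induction_on with
  | empty => exact ⟨0, U.zero_mem, by simp⟩
  | insert H 𝓗 hH ih =>
    rw [Finset.card_insert_of_notMem hH] at hc
    obtain ⟨x, hxU, hx⟩ := ih (fun H' h' => h H' (Finset.mem_insert_of_mem h')) (by omega)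
    by_cases hxH : x ∈ H
    · obtain ⟨y, hyU, hyH⟩ := SetLike.not_le_iff_exists.1 (h H (Finset.mem_insert_self _ _))
      -- the vectors `y + a x`
      by_contra hcon
      push Not at hcon
      have h1 : ∀ a : F, ∃ H' ∈ 𝓗, y + a • x ∈ H' := by
        intro a
        obtain ⟨H', hH', h2⟩ := hcon (y + a • x) (U.add_mem hyU (U.smul_mem a hxU))
        rcases Finset.mem_insert.1 hH' with rfl | h3
        · exfalso
          apply hyH
          have := H'.sub_mem h2 (H'.smul_mem a hxH)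
          simpa using this
        · exact ⟨H', h3, h2⟩
      choose f hf1 hf2 using h1
      have hinj : Function.Injective f := by
        intro a b hab
        by_contra hne
        have h2 := hf2 a
        have h3 := hf2 b
        rw [← hab] at h3
        have h4 : (a - b) • x ∈ f a := by
          have := (f a).sub_mem h2 h3
          rw [sub_smul]
          have e : y + a • x - (y + b • x) = a • x - b • x := by abel
          rwa [e] at this
        have h5 := (f a).smul_mem (a - b)⁻¹ h4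
        rw [smul_smul, inv_mul_cancel₀ (sub_ne_zero.2 hne), one_smul] at h5
        exact hx (f a) (hf1 a) h5
      have h6 : Fintype.card F ≤ 𝓗.card := by
        rw [← Finset.card_univ]
        exact Finset.card_le_card_of_injOn f (fun a _ => hf1 a) (hinj.injOn)
      omega
    · refine ⟨x, hxU, fun H' hH' => ?_⟩
      rcases Finset.mem_insert.1 hH' with rfl | h3
      · exact hxH
      · exact hx H' h3

end defs

/-! ### Fillings -/

section fill

noncomputable local instance {F : Type} [Field F] {E : Type} [AddCommGroup E] [Module F E] :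
    DecidableEq (Submodule F E) := Classical.decEq _

/-- vertices of a chain -/
def verts {V : Type*} [DecidableEq V] (z : Ch V) : Finset V := z.support.biUnion id

theorem mem_verts {V : Type*} [DecidableEq V] {z : Ch V} {v : V} :
    v ∈ verts z ↔ ∃ σ ∈ z.support, v ∈ σ := by
  unfold verts; simp

theorem card_verts_le {V : Type*} [DecidableEq V] {K : Set (Finset V)} {m s : ℕ} {z : Ch V}
    (hz : IsCh K m z) (hs : z.support.card ≤ s) : (verts z).card ≤ m * s := by
  unfold verts
  calc (z.support.biUnion id).card ≤ ∑ σ ∈ z.support, σ.card := Finset.card_biUnion_le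
    _ = ∑ σ ∈ z.support, m := Finset.sum_congr rfl fun σ hσ => (hz σ hσ).2
    _ = z.support.card * m := by simp
    _ ≤ m * s := by rw [Nat.mul_comm]; exact Nat.mul_le_mul_left _ hs

variable {F : Type} [Field F] {E : Type} [AddCommGroup E] [Module F E]
variable {Λ : ℤ → Submodule F E}



/-- bound for the generic step -/
def tf : ℕ → ℕ → ℕ
  | 0, s => s
  | l + 1, s => s + tf l (2 * s)

theorem tf_mono (l : ℕ) : Monotone (tf l) := by
  induction l with
  | zero => exact fun a b h => h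
  | succ l ih =>
    intro a b h
    exact Nat.add_le_add h (ih (Nat.mul_le_mul_left 2 h))


end fill

end Crest.Agent.R066.Fill
end

-- ▼ part R066/FillInterval
section

/-!
Row 66 (S0088), part (C): the uniform bounded filling theorem for intervals of opposite subspaces.
-/

set_option autoImplicit false
set_option linter.unusedSectionVars false

namespace Crest.Agent.R066.Fill

open Finset

noncomputable local instance {F : Type} [Field F] {E : Type} [AddCommGroup E] [Module F E] :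
    DecidableEq (Submodule F E) := Classical.decEq _

theorem verts_del_add {V : Type*} [DecidableEq V] {v : V} {z c : Ch V} {X : V}
    (hX : X ∈ verts (del v z + c)) : (X ∈ verts z ∧ X ≠ v) ∨ X ∈ verts c := by
  obtain ⟨σ, hσ, hXσ⟩ := mem_verts.1 hX
  rcases Finset.mem_union.1 (Finsupp.support_add hσ) with h | h
  · obtain ⟨h3, h4⟩ := mem_support_del h
    exact Or.inl ⟨mem_verts.2 ⟨σ, h3, hXσ⟩, fun e => h4 (e ▸ hXσ)⟩
  · exact Or.inr (mem_verts.2 ⟨σ, h, hXσ⟩)





end Crest.Agent.R066.Fill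
end

-- ▼ part R066/FillContr
section

/-!
Row 66 (S0088), part (C): contraction operators with bounded supports from bounded fillings.
-/

set_option autoImplicit false
set_option linter.unusedSectionVars false

namespace Crest.Agent.R066.Fill

open Finset

variable {V : Type*} [DecidableEq V]

/-- a contraction of `K` through cardinality `m`, with supports bounded by `κ` -/
structure IsContr (K : Set (Finset V)) (m κ : ℕ) (h : Finset V → Ch V) : Prop where
  ch : ∀ σ ∈ K, σ.card ≤ m → IsCh K (σ.card + 1) (h σ)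
  bd_eq : ∀ σ ∈ K, σ.card ≤ m →
    bd (h σ) = (Finsupp.single σ 1 : Ch V) + ∑ v ∈ σ, h (σ.erase v)
  card_le : ∀ σ ∈ K, σ.card ≤ m → (h σ).support.card ≤ κ

/-- the linear extension -/
noncomputable def ext (h : Finset V → Ch V) : Ch V →ₗ[ZMod 2] Ch V :=
  Finsupp.linearCombination (ZMod 2) h

theorem ext_single (h : Finset V → Ch V) (σ : Finset V) :
    ext h (Finsupp.single σ 1 : Ch V) = h σ := by
  unfold ext
  rw [Finsupp.linearCombination_single, one_smul]

theorem ext_bd_single (h : Finset V → Ch V) (σ : Finset V) :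
    ext h (bd (Finsupp.single σ 1 : Ch V)) = ∑ v ∈ σ, h (σ.erase v) := by
  rw [bd_single, map_sum]
  exact Finset.sum_congr rfl fun v _ => ext_single h _

theorem sum_sum_erase (h : Finset V → Ch V) (σ : Finset V) :
    ∑ v ∈ σ, ∑ w ∈ σ.erase v, h ((σ.erase v).erase w) = 0 := by
  have h1 : ext h (bd (bd (Finsupp.single σ 1 : Ch V))) = 0 := by rw [bd_bd, map_zero]
  rw [bd_single, map_sum, map_sum] at h1
  rw [← h1]
  exact Finset.sum_congr rfl fun v _ => (ext_bd_single h _).symm

theorem chain_eq_sum (z : Ch V) : z = ∑ σ ∈ z.support, (Finsupp.single σ 1 : Ch V) := by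
  conv_lhs => rw [← Finsupp.sum_single z]
  unfold Finsupp.sum
  refine Finset.sum_congr rfl fun σ hσ => ?_
  congr 1
  have h1 := Finsupp.mem_support_iff.1 hσ
  generalize z σ = a at h1 ⊢
  revert a; decide


theorem card_sum_le {ι : Type*} (s : Finset ι) (f : ι → Ch V) (κ : ℕ)
    (h : ∀ i ∈ s, (f i).support.card ≤ κ) : (∑ i ∈ s, f i).support.card ≤ s.card * κ := by
  classical
  induction s using Finset.induction_on with
  | empty => simp
  | insert i s hi ih =>
    rw [Finset.sum_insert hi, Finset.card_insert_of_notMem hi]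
    have h1 := card_add_le (f i) (∑ j ∈ s, f j)
    have h2 := h i (Finset.mem_insert_self _ _)
    have h3 := ih fun j hj => h j (Finset.mem_insert_of_mem hj)
    calc _ ≤ κ + s.card * κ := by omega
      _ = _ := by ring

theorem IsCh.sum {ι : Type*} {K : Set (Finset V)} {m : ℕ} (s : Finset ι) (f : ι → Ch V)
    (h : ∀ i ∈ s, IsCh K m (f i)) : IsCh K m (∑ i ∈ s, f i) := by
  classical
  induction s using Finset.induction_on with
  | empty => simpa using IsCh.zero
  | insert i s hi ih =>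
    rw [Finset.sum_insert hi]
    exact (h i (Finset.mem_insert_self _ _)).add
      (ih fun j hj => h j (Finset.mem_insert_of_mem hj))

namespace IsContr

variable {K : Set (Finset V)} {m κ : ℕ} {h : Finset V → Ch V}





end IsContr

theorem contr_zero {K : Set (Finset V)} {t : ℕ} (h0 : ∅ ∈ K) (hB : BF K 0 1 t) :
    ∃ h : Finset V → Ch V, IsContr K 0 t h := by
  obtain ⟨c, hc1, hc2, hc3⟩ := hB (Finsupp.single ∅ 1) (by
    intro σ hσ
    obtain rfl := Finset.mem_singleton.1 (Finsupp.support_single_subset hσ)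
    exact ⟨h0, rfl⟩) (by rw [bd_single]; simp) (
    (Finset.card_le_card Finsupp.support_single_subset).trans (by simp))
  refine ⟨fun _ => c, ⟨?_, ?_, ?_⟩⟩
  · intro σ _ hσ
    rw [Nat.le_zero.1 hσ]; exact hc1
  · intro σ _ hσ
    obtain rfl := Finset.card_eq_zero.1 (Nat.le_zero.1 hσ)
    simpa using hc2
  · intro σ _ _; exact hc3

theorem contr_succ {K : Set (Finset V)} (hK : ∀ σ ∈ K, ∀ v ∈ σ, σ.erase v ∈ K) {m κ t : ℕ}
    {h : Finset V → Ch V} (H : IsContr K m κ h) (hB : BF K (m + 1) (1 + (m + 1) * κ) t) :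
    ∃ h' : Finset V → Ch V, IsContr K (m + 1) (max κ t) h' := by
  classical
  have key : ∀ σ : Finset V, ∃ c : Ch V, σ ∈ K → σ.card = m + 1 →
      IsCh K (m + 1 + 1) c ∧ bd c = (Finsupp.single σ 1 : Ch V) + ∑ v ∈ σ, h (σ.erase v) ∧
      c.support.card ≤ t := by
    intro σ
    by_cases hσ : σ ∈ K ∧ σ.card = m + 1
    · obtain ⟨hσ1, hσ2⟩ := hσ
      have hcard : ∀ v ∈ σ, (σ.erase v).card = m := fun v hv => by
        rw [Finset.card_erase_of_mem hv, hσ2]; rfl
      have e1 : IsCh K (m + 1) ((Finsupp.single σ 1 : Ch V) + ∑ v ∈ σ, h (σ.erase v)) := by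
        refine IsCh.add ?_ (IsCh.sum _ _ fun v hv => ?_)
        · intro τ hτ
          obtain rfl := Finset.mem_singleton.1 (Finsupp.support_single_subset hτ)
          exact ⟨hσ1, hσ2⟩
        · have := H.ch (σ.erase v) (hK σ hσ1 v hv) (by rw [hcard v hv])
          rwa [hcard v hv] at this
      have e2 : bd ((Finsupp.single σ 1 : Ch V) + ∑ v ∈ σ, h (σ.erase v)) = 0 := by
        rw [map_add, map_sum, bd_single]
        have h1 : ∀ v ∈ σ, bd (h (σ.erase v)) = (Finsupp.single (σ.erase v) 1 : Ch V) +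
            ∑ w ∈ σ.erase v, h ((σ.erase v).erase w) := fun v hv =>
          H.bd_eq _ (hK σ hσ1 v hv) (by rw [hcard v hv])
        rw [Finset.sum_congr rfl h1, Finset.sum_add_distrib, sum_sum_erase, add_zero, add_self]
      have e3 : ((Finsupp.single σ 1 : Ch V) + ∑ v ∈ σ, h (σ.erase v)).support.card ≤
          1 + (m + 1) * κ := by
        refine (card_add_le _ _).trans ?_
        have h1 : (Finsupp.single σ 1 : Ch V).support.card ≤ 1 :=
          (Finset.card_le_card Finsupp.support_single_subset).trans (by simp)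
        have h2 := card_sum_le σ (fun v => h (σ.erase v)) κ fun v hv =>
          H.card_le _ (hK σ hσ1 v hv) (by rw [hcard v hv])
        rw [hσ2] at h2
        omega
      obtain ⟨c, hc⟩ := hB _ e1 e2 e3
      exact ⟨c, fun _ _ => hc⟩
    · exact ⟨0, fun h1 h2 => absurd ⟨h1, h2⟩ hσ⟩
  choose g hg using key
  refine ⟨fun σ => if σ.card = m + 1 then g σ else h σ, ⟨?_, ?_, ?_⟩⟩
  · intro σ hσ hc
    by_cases h1 : σ.card = m + 1
    · simp only [h1, if_true]
      exact (hg σ hσ h1).1
    · simp only [h1, if_false]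
      exact H.ch σ hσ (by omega)
  · intro σ hσ hc
    have h2 : ∀ v ∈ σ, (if (σ.erase v).card = m + 1 then g (σ.erase v) else h (σ.erase v)) =
        h (σ.erase v) := by
      intro v hv
      have h3 : (σ.erase v).card = σ.card - 1 := Finset.card_erase_of_mem hv
      have h4 : 0 < σ.card := Finset.card_pos.2 ⟨v, hv⟩
      rw [if_neg (by omega)]
    rw [Finset.sum_congr rfl h2]
    by_cases h1 : σ.card = m + 1
    · simp only [h1, if_true]
      exact (hg σ hσ h1).2.1
    · simp only [h1, if_false]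
      exact H.bd_eq σ hσ (by omega)
  · intro σ hσ hc
    by_cases h1 : σ.card = m + 1
    · simp only [h1, if_true]
      exact (hg σ hσ h1).2.2.trans (le_max_right _ _)
    · simp only [h1, if_false]
      exact (H.card_le σ hσ (by omega)).trans (le_max_left _ _)

end Crest.Agent.R066.Fill
end

-- ▼ part R066/GapFill
section

/-!
Row 66 (S0088), M2: uniform bounded fillings in one gap `A ≤ B` (relative version, finite range).
-/

set_option autoImplicit false
set_option linter.unusedSectionVars false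

namespace Crest.Agent.R066.Fill

open Finset

noncomputable local instance {F : Type} [Field F] {E : Type} [AddCommGroup E] [Module F E] :
    DecidableEq (Submodule F E) := Classical.decEq _

section defs

variable {F : Type} [Field F] {E : Type} [AddCommGroup E] [Module F E]

/-- a full flag between `A` and `B` (height `h`), decreasing, indexed by `0, …, h` -/
structure IsGap (A B : Submodule F E) (h : ℕ) (Λ : ℕ → Submodule F E) : Prop where
  leA : ∀ j, A ≤ Λ j
  leB : ∀ j, Λ j ≤ B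
  step : ∀ j, j < h → ∃ x, x ∉ Λ (j + 1) ∧ Λ j = Λ (j + 1) ⊔ Submodule.span F {x}

/-- opposite of index `j`, relative to the gap -/
def GOpp (A B : Submodule F E) (h : ℕ) (Λ : ℕ → Submodule F E) (j : ℕ) (W : Submodule F E) :
    Prop := j ≤ h ∧ W ⊓ Λ j = A ∧ W ⊔ Λ j = B

/-- chains of opposite subspaces strictly between `U0` and `U1` -/
def GIv (A B : Submodule F E) (h : ℕ) (Λ : ℕ → Submodule F E) (U0 U1 : Submodule F E) :
    Set (Finset (Submodule F E)) :=
  {σ | (∀ W ∈ σ, U0 < W ∧ W < U1 ∧ ∃ j, GOpp A B h Λ j W) ∧ ∀ W ∈ σ, ∀ W' ∈ σ, W ≤ W' ∨ W' ≤ W}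

variable {A B : Submodule F E} {h : ℕ} {Λ : ℕ → Submodule F E}

theorem GOpp.leA {j : ℕ} {W : Submodule F E} (hW : GOpp A B h Λ j W) : A ≤ W := by
  rw [← hW.2.1]; exact inf_le_left

theorem GOpp.leB {j : ℕ} {W : Submodule F E} (hW : GOpp A B h Λ j W) : W ≤ B := by
  rw [← hW.2.2]; exact le_sup_left

theorem IsGap.succ_le (hG : IsGap A B h Λ) {j : ℕ} (hj : j < h) : Λ (j + 1) ≤ Λ j := by
  obtain ⟨x, _, hx⟩ := hG.step j hj
  rw [hx]; exact le_sup_left

theorem IsGap.anti (hG : IsGap A B h Λ) {i j : ℕ} (hij : i ≤ j) (hj : j ≤ h) : Λ j ≤ Λ i := by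
  induction j, hij using Nat.le_induction with
  | base => exact le_rfl
  | succ j hij ih => exact (hG.succ_le (by omega)).trans (ih (by omega))

theorem IsGap.lt (hG : IsGap A B h Λ) {i j : ℕ} (hij : i < j) (hj : j ≤ h) : Λ j < Λ i := by
  refine lt_of_le_of_lt (hG.anti (show i + 1 ≤ j from hij) hj) ?_
  obtain ⟨x, hx1, hx⟩ := hG.step i (by omega)
  refine lt_of_le_of_ne (hG.succ_le (by omega)) fun e => hx1 ?_
  rw [e, hx]
  exact Submodule.mem_sup_right (Submodule.mem_span_singleton_self x)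

theorem GOpp.eq_of_le {i : ℕ} {W W' : Submodule F E} (h1 : GOpp A B h Λ i W)
    (h2 : GOpp A B h Λ i W') (hle : W ≤ W') : W = W' := by
  apply le_antisymm hle
  intro x hx
  have hx2 : x ∈ W ⊔ Λ i := by rw [h1.2.2]; exact h2.leB hx
  obtain ⟨y, hy, z, hz, rfl⟩ := Submodule.mem_sup.1 hx2
  have hz2 : z ∈ W' := by
    have := W'.sub_mem hx (hle hy)
    simpa using this
  have hz3 : z ∈ W' ⊓ Λ i := ⟨hz2, hz⟩
  rw [h2.2.1] at hz3
  exact W.add_mem hy (h1.leA hz3)

theorem GOpp.index_le (hG : IsGap A B h Λ) {i j : ℕ} {W W' : Submodule F E}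
    (h1 : GOpp A B h Λ i W) (h2 : GOpp A B h Λ j W') (hle : W ≤ W') : i ≤ j := by
  by_contra hc
  push Not at hc
  have h3 : Λ i < Λ j := hG.lt hc h1.1
  obtain ⟨x, hx, hxi⟩ := SetLike.exists_of_lt h3
  have hx2 : x ∈ W ⊔ Λ i := by rw [h1.2.2]; exact hG.leB j hx
  obtain ⟨y, hy, z, hz, rfl⟩ := Submodule.mem_sup.1 hx2
  have hy2 : y ∈ Λ j := by
    have := (Λ j).sub_mem hx (h3.le hz)
    simpa using this
  have hy3 : y ∈ W' ⊓ Λ j := ⟨hle hy, hy2⟩
  rw [h2.2.1] at hy3
  exact hxi ((Λ i).add_mem (hG.leA i hy3) hz)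

theorem GOpp.index_lt (hG : IsGap A B h Λ) {i j : ℕ} {W W' : Submodule F E}
    (h1 : GOpp A B h Λ i W) (h2 : GOpp A B h Λ j W') (hlt : W < W') : i < j := by
  refine lt_of_le_of_ne (h1.index_le hG h2 hlt.le) ?_
  rintro rfl
  exact hlt.ne (h1.eq_of_le h2 hlt.le)

theorem GOpp.index_eq (hG : IsGap A B h Λ) {i j : ℕ} {W : Submodule F E}
    (h1 : GOpp A B h Λ i W) (h2 : GOpp A B h Λ j W) : i = j :=
  le_antisymm (h1.index_le hG h2 le_rfl) (h2.index_le hG h1 le_rfl)

theorem GOpp.not_sup (hG : IsGap A B h Λ) {j : ℕ} {W : Submodule F E} (h1 : GOpp A B h Λ j W)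
    (hj : j < h) : W ⊔ Λ (j + 1) ≠ B := by
  intro e
  have h2 : GOpp A B h Λ (j + 1) W := by
    refine ⟨hj, le_antisymm ?_ (le_inf h1.leA (hG.leA _)), e⟩
    rw [← h1.2.1]
    exact inf_le_inf_left _ (hG.succ_le hj)
  have := h1.index_eq hG h2
  omega

theorem GOpp.add_vec (hG : IsGap A B h Λ) {j : ℕ} {W : Submodule F E} (h1 : GOpp A B h Λ j W)
    (hj : j < h) {v : E} (hvB : v ∈ B) (hv : v ∉ W ⊔ Λ (j + 1)) :
    GOpp A B h Λ (j + 1) (W ⊔ Submodule.span F {v}) := by
  obtain ⟨x, hx1, hx⟩ := hG.step j hj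
  refine ⟨hj, le_antisymm ?_ (le_inf (h1.leA.trans le_sup_left) (hG.leA _)), ?_⟩
  · rintro y ⟨hy1, hy2⟩
    obtain ⟨w, hw, z, hz, rfl⟩ := Submodule.mem_sup.1 hy1
    obtain ⟨c, rfl⟩ := Submodule.mem_span_singleton.1 hz
    by_cases hc : c = 0
    · subst hc
      rw [zero_smul, add_zero] at hy2 ⊢
      have : w ∈ W ⊓ Λ j := ⟨hw, hG.succ_le hj hy2⟩
      rwa [h1.2.1] at this
    · exfalso
      apply hv
      have h2 : c • v ∈ W ⊔ Λ (j + 1) := by
        have : c • v = -w + (w + c • v) := by abel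
        rw [this]
        exact Submodule.add_mem_sup (W.neg_mem hw) hy2
      have h3 := (W ⊔ Λ (j + 1)).smul_mem c⁻¹ h2
      rwa [smul_smul, inv_mul_cancel₀ hc, one_smul] at h3
  · apply le_antisymm
    · refine sup_le (sup_le h1.leB ?_) (hG.leB _)
      rwa [Submodule.span_singleton_le_iff_mem]
    · have hv2 : v ∈ W ⊔ Λ j := by rw [h1.2.2]; exact hvB
      obtain ⟨w, hw, l, hl, hwl⟩ := Submodule.mem_sup.1 hv2
      rw [hx] at hl
      obtain ⟨l', hl', z, hz, rfl⟩ := Submodule.mem_sup.1 hl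
      obtain ⟨c, rfl⟩ := Submodule.mem_span_singleton.1 hz
      have hc : c ≠ 0 := by
        rintro rfl
        apply hv
        rw [← hwl, zero_smul, add_zero]
        exact Submodule.add_mem_sup hw hl'
      set S : Submodule F E := W ⊔ Submodule.span F {v} ⊔ Λ (j + 1) with hS
      have hWS : W ≤ S := le_sup_left.trans le_sup_left
      have hvS : v ∈ S :=
        (le_sup_left : W ⊔ Submodule.span F {v} ≤ S)
          (Submodule.mem_sup_right (Submodule.mem_span_singleton_self v))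
      have hLS : Λ (j + 1) ≤ S := le_sup_right
      have hxS : x ∈ S := by
        have h2 : c • x ∈ S := by
          have : c • x = v - w - l' := by rw [← hwl]; abel
          rw [this]
          exact S.sub_mem (S.sub_mem hvS (hWS hw)) (hLS hl')
        have h3 := S.smul_mem c⁻¹ h2
        rwa [smul_smul, inv_mul_cancel₀ hc, one_smul] at h3
      have key : W ⊔ Λ j ≤ S := by
        rw [hx]
        refine sup_le hWS (sup_le hLS ?_)
        rw [Submodule.span_singleton_le_iff_mem]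
        exact hxS
      rw [← h1.2.2]
      exact key

theorem GIv_erase {U0 U1 : Submodule F E} {σ : Finset (Submodule F E)}
    (hσ : σ ∈ GIv A B h Λ U0 U1) (W : Submodule F E) : σ.erase W ∈ GIv A B h Λ U0 U1 :=
  ⟨fun X hX => hσ.1 X (Finset.mem_of_mem_erase hX), fun X hX Y hY =>
    hσ.2 X (Finset.mem_of_mem_erase hX) Y (Finset.mem_of_mem_erase hY)⟩

theorem GIv_insert {U0 U1 : Submodule F E} {σ : Finset (Submodule F E)}
    (hσ : σ ∈ GIv A B h Λ U0 U1)
    {W : Submodule F E} (h0 : U0 < W) (h1 : W < U1) (hj : ∃ j, GOpp A B h Λ j W)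
    (hc : ∀ X ∈ σ, X ≤ W ∨ W ≤ X) : insert W σ ∈ GIv A B h Λ U0 U1 := by
  constructor
  · intro X hX
    rcases Finset.mem_insert.1 hX with rfl | hX
    · exact ⟨h0, h1, hj⟩
    · exact hσ.1 X hX
  · intro X hX Y hY
    rcases Finset.mem_insert.1 hX with hX | hX <;> rcases Finset.mem_insert.1 hY with hY | hY
    · rw [hX, hY]; exact Or.inl le_rfl
    · rw [hX]; exact (hc Y hY).symm
    · rw [hY]; exact hc X hX
    · exact hσ.2 X hX Y hY

open Classical in
/-- The generic step: a generic vector `v` lets us push the cycle into the star of `U0 + v`. -/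
theorem ggeneric_step (hG : IsGap A B h Λ) {a b : ℕ} {U0 U1 : Submodule F E}
    (h0 : GOpp A B h Λ a U0) (h1 : GOpp A B h Λ b U1) (h01 : U0 ≤ U1) (hab : a + 1 < b) {v : E}
    (hv1 : v ∈ U1) (hv0 : v ∉ U0 ⊔ Λ (a + 1)) (m : ℕ) :
    ∀ (l s : ℕ) (z : Ch (Submodule F E)),
    IsCh (GIv A B h Λ U0 U1) m z → bd z = 0 → z.support.card ≤ s →
    (∀ W ∈ verts z, ∀ j, GOpp A B h Λ j W → (v ∈ W ∨ (v ∉ W ⊔ Λ (j + 1) ∧ j + 1 < b))) →
    ((verts z).filter (fun W => v ∉ W)).card ≤ l →
    ∃ c : Ch (Submodule F E), IsCh (GIv A B h Λ U0 U1) (m + 1) c ∧ bd c = z ∧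
      c.support.card ≤ tf l s := by
  have hbh : b ≤ h := h1.1
  have hvB : v ∈ B := h1.leB hv1
  intro l
  induction l with
  | zero =>
    intro s z hz hbz hs hgen hbad
    have hall : ∀ W ∈ verts z, v ∈ W := by
      intro W hW
      by_contra hvW
      have : W ∈ (verts z).filter (fun W => v ∉ W) := Finset.mem_filter.2 ⟨hW, hvW⟩
      rw [Finset.card_eq_zero.1 (Nat.le_zero.1 hbad)] at this
      simp at this
    set L : Submodule F E := U0 ⊔ Submodule.span F {v} with hL
    have hLo : GOpp A B h Λ (a + 1) L := h0.add_vec hG (by omega) hvB hv0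
    have hvU0 : v ∉ U0 := fun h => hv0 (Submodule.mem_sup_left h)
    have hvL : v ∈ L := Submodule.mem_sup_right (Submodule.mem_span_singleton_self v)
    have h0L : U0 < L := lt_of_le_of_ne le_sup_left fun e => hvU0 (by rw [e]; exact hvL)
    have hLU : L ≤ U1 := sup_le h01 (by rwa [Submodule.span_singleton_le_iff_mem])
    have hLU1 : L < U1 := lt_of_le_of_ne hLU fun e => by
      rw [e] at hLo
      have := hLo.index_eq hG h1
      omega
    refine ⟨cone L z, ?_, ?_, ?_⟩
    · intro σ hσ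
      obtain ⟨τ, hτ, hLτ, rfl⟩ := mem_support_cone hσ
      obtain ⟨hτ1, hτ2⟩ := hz τ hτ
      refine ⟨GIv_insert hτ1 h0L hLU1 ⟨_, hLo⟩ fun X hX => Or.inr ?_, ?_⟩
      · refine sup_le (hτ1.1 X hX).1.le ?_
        rw [Submodule.span_singleton_le_iff_mem]
        exact hall X (mem_verts.2 ⟨τ, hτ, hX⟩)
      · rw [Finset.card_insert_of_notMem hLτ, hτ2]
    · have := bd_cone L z
      rwa [hbz, map_zero, add_zero] at this
    · exact (card_cone_le _ _).trans hs
  | succ l ih =>
    intro s z hz hbz hs hgen hbad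
    by_cases hne : ((verts z).filter (fun W => v ∉ W)).Nonempty
    · obtain ⟨W, hWmax⟩ := Finset.exists_maximal hne
      have hWmem := Finset.mem_filter.1 hWmax.prop
      obtain ⟨hWv, hvW⟩ := hWmem
      obtain ⟨σ0, hσ0, hWσ0⟩ := mem_verts.1 hWv
      obtain ⟨hU0W, hWU1, j, hj⟩ := (hz σ0 hσ0).1.1 W hWσ0
      obtain ⟨hvWL, hjb⟩ := (hgen W hWv j hj).resolve_left hvW
      set W' : Submodule F E := W ⊔ Submodule.span F {v} with hW'
      have hW'o : GOpp A B h Λ (j + 1) W' := hj.add_vec hG (by omega) hvB hvWL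
      have hvW' : v ∈ W' := Submodule.mem_sup_right (Submodule.mem_span_singleton_self v)
      have hWW' : W < W' := lt_of_le_of_ne le_sup_left fun e => hvW (by rw [e]; exact hvW')
      have hW'U : W' ≤ U1 := sup_le hWU1.le (by rwa [Submodule.span_singleton_le_iff_mem])
      have hW'U1 : W' < U1 := lt_of_le_of_ne hW'U fun e => by
        rw [e] at hW'o
        have := hW'o.index_eq hG h1
        omega
      have hcomp : ∀ σ ∈ z.support, W ∈ σ → ∀ X ∈ σ, X ≤ W' ∨ W' ≤ X := by
        intro σ hσ hWσ X hX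
        rcases (hz σ hσ).1.2 X hX W hWσ with h | h
        · exact Or.inl (h.trans hWW'.le)
        · by_cases hvX : v ∈ X
          · right
            exact sup_le h (by rwa [Submodule.span_singleton_le_iff_mem])
          · left
            have hXbad : X ∈ (verts z).filter (fun W => v ∉ W) :=
              Finset.mem_filter.2 ⟨mem_verts.2 ⟨σ, hσ, hX⟩, hvX⟩
            exact (hWmax.le_of_ge hXbad h).trans hWW'.le
      set x := lnk W z with hx
      have hbx : bd x = 0 := by rw [hx, bd_lnk, hbz, map_zero]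
      set c := cone W' x with hc
      have hbc : bd c = lnk W z := by
        have := bd_cone W' x
        rwa [hbx, map_zero, add_zero] at this
      have hcs : ∀ σ ∈ c.support, ∃ τ ∈ z.support, W ∈ τ ∧ W' ∉ τ.erase W ∧
          σ = insert W' (τ.erase W) := by
        intro σ hσ
        obtain ⟨ρ, hρ, h2, rfl⟩ := mem_support_cone hσ
        obtain ⟨τ, hτ, hWτ, rfl⟩ := mem_support_lnk hρ
        exact ⟨τ, hτ, hWτ, h2, rfl⟩
      have hcCh : IsCh (GIv A B h Λ U0 U1) m c := by
        intro σ hσ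
        obtain ⟨τ, hτ, hWτ, h2, rfl⟩ := hcs σ hσ
        obtain ⟨hτ1, hτ2⟩ := hz τ hτ
        refine ⟨GIv_insert (GIv_erase hτ1 W) (hU0W.trans hWW') hW'U1 ⟨_, hW'o⟩ fun X hX =>
          hcomp τ hτ hWτ X (Finset.mem_of_mem_erase hX), ?_⟩
        rw [Finset.card_insert_of_notMem h2, Finset.card_erase_of_mem hWτ, hτ2]
        have : 0 < τ.card := Finset.card_pos.2 ⟨W, hWτ⟩
        omega
      have hcCh2 : IsCh (GIv A B h Λ U0 U1) (m + 1) (cone W c) := by
        intro σ hσ
        obtain ⟨ρ, hρ, hWρ, rfl⟩ := mem_support_cone hσ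
        obtain ⟨hρ1, hρ2⟩ := hcCh ρ hρ
        refine ⟨GIv_insert hρ1 hU0W hWU1 ⟨_, hj⟩ fun X hX => ?_, ?_⟩
        · obtain ⟨τ, hτ, hWτ, h2, rfl⟩ := hcs ρ hρ
          rcases Finset.mem_insert.1 hX with rfl | hX
          · exact Or.inr hWW'.le
          · exact (hz τ hτ).1.2 X (Finset.mem_of_mem_erase hX) W hWτ
        · rw [Finset.card_insert_of_notMem hWρ, hρ2]
      set z' := del W z + c with hz'
      have hz'Ch : IsCh (GIv A B h Λ U0 U1) m z' :=
        IsCh.add (fun σ hσ => hz σ (mem_support_del hσ).1) hcCh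
      have hz's : z'.support.card ≤ 2 * s := by
        have h1 := card_add_le (del W z) c
        have h2 := card_del_le W z
        have h3 : c.support.card ≤ x.support.card := card_cone_le W' x
        have h4 : x.support.card ≤ z.support.card := card_lnk_le W z
        have h5 : z'.support.card ≤ (del W z).support.card + c.support.card := h1
        omega
      have hverts : ∀ X ∈ verts z', X = W' ∨ (X ∈ verts z ∧ X ≠ W) := by
        intro X hX
        obtain ⟨σ, hσ, hXσ⟩ := mem_verts.1 hX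
        rcases Finset.mem_union.1 (Finsupp.support_add hσ) with h | h
        · obtain ⟨h3, h4⟩ := mem_support_del h
          exact Or.inr ⟨mem_verts.2 ⟨σ, h3, hXσ⟩, fun e => h4 (e ▸ hXσ)⟩
        · obtain ⟨τ, hτ, hWτ, h2, rfl⟩ := hcs σ h
          rcases Finset.mem_insert.1 hXσ with rfl | hX2
          · exact Or.inl rfl
          · exact Or.inr ⟨mem_verts.2 ⟨τ, hτ, Finset.mem_of_mem_erase hX2⟩,
              (Finset.mem_erase.1 hX2).1⟩
      have hgen' : ∀ X ∈ verts z', ∀ j, GOpp A B h Λ j X →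
          (v ∈ X ∨ (v ∉ X ⊔ Λ (j + 1) ∧ j + 1 < b)) := by
        intro X hX i hi
        rcases hverts X hX with rfl | ⟨h3, _⟩
        · exact Or.inl hvW'
        · exact hgen X h3 i hi
      have hbad' : ((verts z').filter (fun W => v ∉ W)).card ≤ l := by
        have hsub : (verts z').filter (fun W => v ∉ W) ⊆
            ((verts z).filter (fun W => v ∉ W)).erase W := by
          intro X hX
          obtain ⟨hX1, hX2⟩ := Finset.mem_filter.1 hX
          rcases hverts X hX1 with rfl | ⟨h3, h4⟩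
          · exact absurd hvW' hX2
          · exact Finset.mem_erase.2 ⟨h4, Finset.mem_filter.2 ⟨h3, hX2⟩⟩
        have h3 := Finset.card_le_card hsub
        rw [Finset.card_erase_of_mem hWmax.prop] at h3
        omega
      obtain ⟨c', hc'1, hc'2, hc'3⟩ := ih (2 * s) z' hz'Ch (bd_elim hbz hbc) hz's hgen' hbad'
      refine ⟨c' + cone W c, hc'1.add hcCh2, ?_, ?_⟩
      · rw [map_add, hc'2]
        exact (elim hbc).symm
      · have h3 := card_add_le c' (cone W c)
        have h4 := card_cone_le W c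
        have h5 : c.support.card ≤ x.support.card := card_cone_le W' x
        have h6 : x.support.card ≤ z.support.card := card_lnk_le W z
        show _ ≤ s + tf l (2 * s)
        omega
    · rw [Finset.not_nonempty_iff_eq_empty] at hne
      obtain ⟨c, hc1, hc2, hc3⟩ := ih s z hz hbz hs hgen (by rw [hne]; simp)
      refine ⟨c, hc1, hc2, hc3.trans ?_⟩
      show tf l s ≤ s + tf l (2 * s)
      have := tf_mono l (show s ≤ 2 * s by omega)
      omega

end defs

/-- uniform bounded filling of intervals of height `u` in gaps of height `h` -/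
def GFill (u m : ℕ) : Prop :=
  ∀ s : ℕ, ∃ t q0 : ℕ, ∀ (F : Type) [Field F] [Fintype F] (E : Type) [AddCommGroup E]
    [Module F E] (A B : Submodule F E) (h : ℕ) (Λ : ℕ → Submodule F E)
    (U0 U1 : Submodule F E) (a : ℕ), q0 ≤ Fintype.card F →
    IsGap A B h Λ → GOpp A B h Λ a U0 → GOpp A B h Λ (a + u) U1 → U0 ≤ U1 →
    BF (GIv A B h Λ U0 U1) m s t

/-- the statement after elimination of the coatoms -/
theorem gno_coatom_fill (u m : ℕ) (hu : m + 2 ≤ u) (s : ℕ) : ∃ t q0 : ℕ,
    ∀ (F : Type) [Field F] [Fintype F] (E : Type) [AddCommGroup E] [Module F E]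
    (A B : Submodule F E) (h : ℕ) (Λ : ℕ → Submodule F E)
    (U0 U1 : Submodule F E) (a : ℕ), q0 ≤ Fintype.card F →
    IsGap A B h Λ → GOpp A B h Λ a U0 → GOpp A B h Λ (a + u) U1 → U0 ≤ U1 →
    ∀ z : Ch (Submodule F E), IsCh (GIv A B h Λ U0 U1) m z → bd z = 0 → z.support.card ≤ s →
      (∀ W ∈ verts z, ¬ GOpp A B h Λ (a + u - 1) W) →
      ∃ c : Ch (Submodule F E), IsCh (GIv A B h Λ U0 U1) (m + 1) c ∧ bd c = z ∧
        c.support.card ≤ t := by
  classical
  refine ⟨tf (m * s) s, m * s + 1, ?_⟩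
  intro F _ _ E _ _ A B h Λ U0 U1 a hq hΛ h0 h1 h01 z hz hbz hs hco
  have hh : a + u ≤ h := h1.1
  have hidx : ∀ W ∈ verts z, ∃ j, GOpp A B h Λ j W ∧ U0 < W ∧ W < U1 ∧ a < j ∧ j + 1 < a + u := by
    intro W hW
    obtain ⟨σ, hσ, hWσ⟩ := mem_verts.1 hW
    obtain ⟨h2, h3, j, hj⟩ := (hz σ hσ).1.1 W hWσ
    have h4 := h0.index_lt hΛ hj h2
    have h5 := hj.index_lt hΛ h1 h3
    have h6 : j ≠ a + u - 1 := fun e => hco W hW (e ▸ hj)
    exact ⟨j, hj, h2, h3, h4, by omega⟩
  choose! J hJ using hidx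
  set 𝓗 : Finset (Submodule F E) :=
    insert (U0 ⊔ Λ (a + 1)) ((verts z).image (fun W => W ⊔ Λ (J W + 1))) with h𝓗
  have hcard : 𝓗.card ≤ Fintype.card F := by
    have h2 : 𝓗.card ≤ ((verts z).image (fun W => W ⊔ Λ (J W + 1))).card + 1 :=
      Finset.card_insert_le _ _
    have h3 : ((verts z).image (fun W => W ⊔ Λ (J W + 1))).card ≤ (verts z).card :=
      Finset.card_image_le
    have h4 := card_verts_le hz hs
    omega
  have hproper : ∀ H ∈ 𝓗, ¬ U1 ≤ H := by
    intro H hH hle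
    have key : ∀ (j : ℕ) (W : Submodule F E), GOpp A B h Λ j W → j + 1 ≤ a + u →
        ¬ U1 ≤ W ⊔ Λ (j + 1) := by
      intro j W hj hju hle
      apply hj.not_sup hΛ (by omega)
      apply le_antisymm (sup_le hj.leB (hΛ.leB _))
      conv_lhs => rw [← h1.2.2]
      exact sup_le hle ((hΛ.anti hju h1.1).trans le_sup_right)
    rcases Finset.mem_insert.1 hH with rfl | hH
    · exact key a U0 h0 (by omega) hle
    · obtain ⟨W, hW, rfl⟩ := Finset.mem_image.1 hH
      obtain ⟨hj, _, _, _, hju⟩ := hJ W hW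
      exact key (J W) W hj (by omega) hle
  obtain ⟨v, hvU1, hv⟩ := avoid U1 𝓗 hproper hcard
  have hv0 : v ∉ U0 ⊔ Λ (a + 1) := hv _ (Finset.mem_insert_self _ _)
  refine ggeneric_step hΛ h0 h1 h01 (by omega) hvU1 hv0 m (m * s) s z hz hbz hs ?_ ?_
  · intro W hW j hj
    right
    obtain ⟨hj', _, _, _, hju⟩ := hJ W hW
    have e : j = J W := hj.index_eq hΛ hj'
    subst e
    exact ⟨hv _ (Finset.mem_insert_of_mem (Finset.mem_image_of_mem _ hW)), hju⟩
  · exact (Finset.card_filter_le _ _).trans (card_verts_le hz hs)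

theorem gelim_coatoms (u m : ℕ) (hu : m + 2 ≤ u)
    (ih : ∀ m', m' + 1 = m → GFill (u - 1) m') (l : ℕ) : ∀ s : ℕ, ∃ t q0 : ℕ,
    ∀ (F : Type) [Field F] [Fintype F] (E : Type) [AddCommGroup E] [Module F E]
    (A B : Submodule F E) (h : ℕ) (Λ : ℕ → Submodule F E)
    (U0 U1 : Submodule F E) (a : ℕ), q0 ≤ Fintype.card F →
    IsGap A B h Λ → GOpp A B h Λ a U0 → GOpp A B h Λ (a + u) U1 → U0 ≤ U1 →
    ∀ z : Ch (Submodule F E), IsCh (GIv A B h Λ U0 U1) m z → bd z = 0 → z.support.card ≤ s →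
      (∃ C : Finset (Submodule F E), C.card ≤ l ∧
        ∀ W ∈ verts z, GOpp A B h Λ (a + u - 1) W → W ∈ C) →
      ∃ c : Ch (Submodule F E), IsCh (GIv A B h Λ U0 U1) (m + 1) c ∧ bd c = z ∧
        c.support.card ≤ t := by
  classical
  induction l with
  | zero =>
    intro s
    obtain ⟨t, q0, h⟩ := gno_coatom_fill u m hu s
    refine ⟨t, q0, ?_⟩
    intro F _ _ E _ _ A B h' Λ U0 U1 a hq hΛ h0 h1 h01 z hz hbz hs hC
    obtain ⟨C, hC1, hC2⟩ := hC
    refine h F E A B h' Λ U0 U1 a hq hΛ h0 h1 h01 z hz hbz hs fun W hW hj => ?_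
    have := hC2 W hW hj
    rw [Finset.card_eq_zero.1 (Nat.le_zero.1 hC1)] at this
    simp at this
  | succ l ihl =>
    intro s
    obtain ⟨t1, q1, h1'⟩ : ∃ t1 q1 : ℕ, ∀ m', m' + 1 = m → ∀ (F : Type) [Field F] [Fintype F]
        (E : Type) [AddCommGroup E] [Module F E] (A B : Submodule F E) (h : ℕ)
        (Λ : ℕ → Submodule F E)
        (U0 U1 : Submodule F E) (a : ℕ), q1 ≤ Fintype.card F →
        IsGap A B h Λ → GOpp A B h Λ a U0 → GOpp A B h Λ (a + (u - 1)) U1 → U0 ≤ U1 →
        BF (GIv A B h Λ U0 U1) m' s t1 := by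
      rcases Nat.eq_zero_or_pos m with h | h
      · exact ⟨0, 0, fun m' hm' => by omega⟩
      · obtain ⟨m', rfl⟩ : ∃ m', m = m' + 1 := ⟨m - 1, by omega⟩
        obtain ⟨t1, q1, h2⟩ := ih m' rfl s
        refine ⟨t1, q1, fun m'' hm'' => ?_⟩
        obtain rfl : m'' = m' := by omega
        exact h2
    obtain ⟨t2, q2, h2'⟩ := ihl (s + t1)
    refine ⟨t2 + t1, max q1 q2, ?_⟩
    intro F _ _ E _ _ A B h Λ U0 U1 a hq hΛ h0 h1 h01 z hz hbz hs hC
    have hq1 : q1 ≤ Fintype.card F := (le_max_left _ _).trans hq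
    have hq2 : q2 ≤ Fintype.card F := (le_max_right _ _).trans hq
    obtain ⟨C, hC1, hC2⟩ := hC
    by_cases hex : ∃ W ∈ verts z, GOpp A B h Λ (a + u - 1) W
    · obtain ⟨W, hWz, hWo⟩ := hex
      obtain ⟨σ0, hσ0, hWσ0⟩ := mem_verts.1 hWz
      obtain ⟨hU0W, hWU1, _⟩ := (hz σ0 hσ0).1.1 W hWσ0
      obtain ⟨m', rfl⟩ : ∃ m', m = m' + 1 := ⟨m - 1, by
        have h3 := (hz σ0 hσ0).2
        have h4 : 0 < σ0.card := Finset.card_pos.2 ⟨W, hWσ0⟩
        omega⟩
      have hbelow : ∀ σ ∈ z.support, W ∈ σ → ∀ X ∈ σ.erase W, X < W := by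
        intro σ hσ hWσ X hX
        obtain ⟨hXW, hXσ⟩ := Finset.mem_erase.1 hX
        rcases (hz σ hσ).1.2 X hXσ W hWσ with h | h
        · exact lt_of_le_of_ne h hXW
        · exfalso
          obtain ⟨_, hXU1, j, hj⟩ := (hz σ hσ).1.1 X hXσ
          have h3 := hWo.index_lt hΛ hj (lt_of_le_of_ne h fun e => hXW e.symm)
          have h4 := hj.index_lt hΛ h1 hXU1
          omega
      have hWo' : GOpp A B h Λ (a + (u - 1)) W := by
        have : a + (u - 1) = a + u - 1 := by omega
        rw [this]; exact hWo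
      have hlz : IsCh (GIv A B h Λ U0 W) m' (lnk W z) := by
        intro σ hσ
        obtain ⟨τ, hτ, hWτ, rfl⟩ := mem_support_lnk hσ
        refine ⟨⟨fun X hX => ⟨((hz τ hτ).1.1 X (Finset.mem_of_mem_erase hX)).1,
          hbelow τ hτ hWτ X hX, ((hz τ hτ).1.1 X (Finset.mem_of_mem_erase hX)).2.2⟩,
          fun X hX Y hY => (hz τ hτ).1.2 X (Finset.mem_of_mem_erase hX) Y
            (Finset.mem_of_mem_erase hY)⟩, ?_⟩
        rw [Finset.card_erase_of_mem hWτ, (hz τ hτ).2]; rfl
      obtain ⟨c, hc1, hc2, hc3⟩ := h1' m' rfl F E A B h Λ U0 W a hq1 hΛ h0 hWo' hU0W.le (lnk W z)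
        hlz (by rw [bd_lnk, hbz, map_zero]) ((card_lnk_le _ _).trans hs)
      have hcCh : IsCh (GIv A B h Λ U0 U1) (m' + 1) c := by
        intro σ hσ
        obtain ⟨h3, h4⟩ := hc1 σ hσ
        exact ⟨⟨fun X hX => ⟨(h3.1 X hX).1, (h3.1 X hX).2.1.trans hWU1, (h3.1 X hX).2.2⟩, h3.2⟩, h4⟩
      have hcCh2 : IsCh (GIv A B h Λ U0 U1) (m' + 1 + 1) (cone W c) := by
        intro σ hσ
        obtain ⟨ρ, hρ, hWρ, rfl⟩ := mem_support_cone hσ
        refine ⟨GIv_insert (hcCh ρ hρ).1 hU0W hWU1 ⟨_, hWo⟩ fun X hX =>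
          Or.inl ((hc1 ρ hρ).1.1 X hX).2.1.le, ?_⟩
        rw [Finset.card_insert_of_notMem hWρ, (hcCh ρ hρ).2]
      set z' := del W z + c with hz'
      have hz'Ch : IsCh (GIv A B h Λ U0 U1) (m' + 1) z' :=
        IsCh.add (fun σ hσ => hz σ (mem_support_del hσ).1) hcCh
      have hz's : z'.support.card ≤ s + t1 := by
        have h3 : z'.support.card ≤ (del W z).support.card + c.support.card := card_add_le _ _
        have h4 := card_del_le W z
        omega
      obtain ⟨c', hc'1, hc'2, hc'3⟩ := h2' F E A B h Λ U0 U1 a hq2 hΛ h0 h1 h01 z' hz'Ch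
        (bd_elim hbz hc2) hz's (by
          refine ⟨C.erase W, ?_, ?_⟩
          · rw [Finset.card_erase_of_mem (hC2 W hWz hWo)]; omega
          · intro X hX hXo
            rcases verts_del_add hX with ⟨h3, h4⟩ | h3
            · exact Finset.mem_erase.2 ⟨h4, hC2 X h3 hXo⟩
            · exfalso
              obtain ⟨σ, hσ, hXσ⟩ := mem_verts.1 h3
              have h4 := ((hc1 σ hσ).1.1 X hXσ).2.1
              exact h4.ne (hXo.eq_of_le hWo h4.le))
      refine ⟨c' + cone W c, hc'1.add hcCh2, ?_, ?_⟩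
      · rw [map_add, hc'2]
        exact (elim hc2).symm
      · have h3 := card_add_le c' (cone W c)
        have h4 := card_cone_le W c
        omega
    · obtain ⟨c, hc1, hc2, hc3⟩ := h2' F E A B h Λ U0 U1 a hq2 hΛ h0 h1 h01 z hz hbz (by omega)
        ⟨∅, by simp, fun W hW hWo => absurd ⟨W, hW, hWo⟩ hex⟩
      exact ⟨c, hc1, hc2, by omega⟩

/-- **Uniform bounded filling for one gap.** -/
theorem gap_fill (u : ℕ) : ∀ m : ℕ, m + 2 ≤ u → GFill u m := by
  induction u with
  | zero => intro m hm; omega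
  | succ u ih =>
    intro m hm s
    obtain ⟨t, q0, h⟩ := gelim_coatoms (u + 1) m hm (fun m' hm' => ih m' (by omega)) (m * s) s
    refine ⟨t, q0, ?_⟩
    intro F _ _ E _ _ A B h' Λ U0 U1 a hq hΛ h0 h1 h01 z hz hbz hs
    exact h F E A B h' Λ U0 U1 a hq hΛ h0 h1 h01 z hz hbz hs
      ⟨verts z, card_verts_le hz hs, fun W hW _ => hW⟩

end Crest.Agent.R066.Fill
end

-- ▼ part R066/FillProd
section

/-!
Row 66 (S0088), M2: join of contractions.
-/

set_option autoImplicit false
set_option linter.unusedSectionVars false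

namespace Crest.Agent.R066.Fill

open Finset

variable {V : Type*} [DecidableEq V]

/-- a contraction of `K` below cardinality `a`, with supports bounded by `κ` -/
structure CLt (K : Set (Finset V)) (a κ : ℕ) (h : Finset V → Ch V) : Prop where
  ch : ∀ σ ∈ K, σ.card < a → IsCh K (σ.card + 1) (h σ)
  bd_eq : ∀ σ ∈ K, σ.card < a →
    bd (h σ) = (Finsupp.single σ 1 : Ch V) + ∑ v ∈ σ, h (σ.erase v)
  card_le : ∀ σ ∈ K, σ.card < a → (h σ).support.card ≤ κ

theorem IsContr.toCLt {K : Set (Finset V)} {m κ : ℕ} {h : Finset V → Ch V}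
    (H : IsContr K m κ h) : CLt K (m + 1) κ h :=
  ⟨fun σ hσ hc => H.ch σ hσ (by omega), fun σ hσ hc => H.bd_eq σ hσ (by omega),
    fun σ hσ hc => H.card_le σ hσ (by omega)⟩

theorem CLt.mono {K : Set (Finset V)} {a a' κ κ' : ℕ} {h : Finset V → Ch V} (H : CLt K a κ h)
    (ha : a' ≤ a) (hκ : κ ≤ κ') : CLt K a' κ' h :=
  ⟨fun σ hσ hc => H.ch σ hσ (by omega), fun σ hσ hc => H.bd_eq σ hσ (by omega),
    fun σ hσ hc => (H.card_le σ hσ (by omega)).trans hκ⟩

theorem CLt.zero {K : Set (Finset V)} (κ : ℕ) : CLt K 0 κ (fun _ => 0) :=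
  ⟨fun σ _ hc => by omega, fun σ _ hc => by omega, fun σ _ hc => by omega⟩

/-- join of chains -/
noncomputable def jn : Ch V →ₗ[ZMod 2] Ch V →ₗ[ZMod 2] Ch V :=
  Finsupp.linearCombination (ZMod 2) (fun σ : Finset V =>
    Finsupp.linearCombination (ZMod 2) (fun τ : Finset V => (Finsupp.single (σ ∪ τ) 1 : Ch V)))

theorem jn_single (σ τ : Finset V) :
    jn (Finsupp.single σ 1 : Ch V) (Finsupp.single τ 1 : Ch V) = Finsupp.single (σ ∪ τ) 1 := by
  unfold jn
  rw [Finsupp.linearCombination_single, one_smul, Finsupp.linearCombination_single, one_smul]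

theorem jn_sums {ι ι' : Type*} (s : Finset ι) (t : Finset ι') (f : ι → Ch V) (g : ι' → Ch V) :
    jn (∑ i ∈ s, f i) (∑ j ∈ t, g j) = ∑ i ∈ s, ∑ j ∈ t, jn (f i) (g j) := by
  have h1 : jn (∑ i ∈ s, f i) = ∑ i ∈ s, jn (f i) := map_sum _ _ _
  rw [h1, LinearMap.sum_apply]
  exact Finset.sum_congr rfl fun i _ => map_sum _ _ _

theorem jn_eq_sum (x y : Ch V) :
    jn x y = ∑ σ ∈ x.support, ∑ τ ∈ y.support, (Finsupp.single (σ ∪ τ) 1 : Ch V) := by
  conv_lhs => rw [chain_eq_sum x, chain_eq_sum y]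
  rw [jn_sums]
  exact Finset.sum_congr rfl fun σ _ => Finset.sum_congr rfl fun τ _ => jn_single σ τ

theorem card_jn_le (x y : Ch V) : (jn x y).support.card ≤ x.support.card * y.support.card := by
  rw [jn_eq_sum]
  refine card_sum_le _ _ _ fun σ _ => ?_
  refine (card_sum_le _ _ 1 fun τ _ => ?_).trans (by rw [mul_one])
  exact (Finset.card_le_card Finsupp.support_single_subset).trans (by simp)

/-- Leibniz rule -/
theorem bd_jn {x y : Ch V} (hd : ∀ σ ∈ x.support, ∀ τ ∈ y.support, Disjoint σ τ) :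
    bd (jn x y) = jn (bd x) y + jn x (bd y) := by
  have key : ∀ σ τ : Finset V, Disjoint σ τ →
      bd (Finsupp.single (σ ∪ τ) 1 : Ch V) = jn (bd (Finsupp.single σ 1)) (Finsupp.single τ 1) +
        jn (Finsupp.single σ 1) (bd (Finsupp.single τ 1)) := by
    intro σ τ h
    rw [bd_single, bd_single, bd_single, map_sum, map_sum, LinearMap.sum_apply,
      Finset.sum_union h]
    congr 1
    · refine Finset.sum_congr rfl fun v hv => ?_
      rw [jn_single]
      congr 1
      rw [Finset.erase_union_distrib, Finset.erase_eq_of_notMem (Finset.disjoint_left.1 h hv)]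
    · refine Finset.sum_congr rfl fun v hv => ?_
      rw [jn_single]
      congr 1
      rw [Finset.erase_union_distrib, Finset.erase_eq_of_notMem (Finset.disjoint_right.1 h hv)]
  have h1 : jn (bd x) y = ∑ σ ∈ x.support, ∑ τ ∈ y.support,
      jn (bd (Finsupp.single σ 1)) (Finsupp.single τ 1) := by
    conv_lhs => rw [chain_eq_sum x, chain_eq_sum y]
    have : bd (∑ σ ∈ x.support, (Finsupp.single σ 1 : Ch V)) =
        ∑ σ ∈ x.support, bd (Finsupp.single σ 1 : Ch V) := map_sum _ _ _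
    rw [this, jn_sums]
  have h2 : jn x (bd y) = ∑ σ ∈ x.support, ∑ τ ∈ y.support,
      jn (Finsupp.single σ 1) (bd (Finsupp.single τ 1)) := by
    conv_lhs => rw [chain_eq_sum x, chain_eq_sum y]
    have : bd (∑ τ ∈ y.support, (Finsupp.single τ 1 : Ch V)) =
        ∑ τ ∈ y.support, bd (Finsupp.single τ 1 : Ch V) := map_sum _ _ _
    rw [this, jn_sums]
  rw [h1, h2, jn_eq_sum, map_sum, ← Finset.sum_add_distrib]
  refine Finset.sum_congr rfl fun σ hσ => ?_
  rw [map_sum, ← Finset.sum_add_distrib]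
  exact Finset.sum_congr rfl fun τ hτ => key σ τ (hd σ hσ τ hτ)

section join

variable (p : V → Prop) [DecidablePred p]

/-- join of complexes with vertices separated by `p` -/
def JCx (KA KB : Set (Finset V)) : Set (Finset V) :=
  {σ | σ.filter p ∈ KA ∧ σ.filter (fun v => ¬ p v) ∈ KB}

variable {p} {KA KB : Set (Finset V)}

theorem union_mem_JCx (hA : ∀ σ ∈ KA, ∀ v ∈ σ, p v) (hB : ∀ σ ∈ KB, ∀ v ∈ σ, ¬ p v)
    {σ τ : Finset V} (hσ : σ ∈ KA) (hτ : τ ∈ KB) : σ ∪ τ ∈ JCx p KA KB := by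
  constructor
  · rw [Finset.filter_union, Finset.filter_true_of_mem (hA σ hσ),
      Finset.filter_false_of_mem (hB τ hτ), Finset.union_empty]
    exact hσ
  · rw [Finset.filter_union, Finset.filter_false_of_mem (fun v hv => not_not.2 (hA σ hσ v hv)),
      Finset.filter_true_of_mem (hB τ hτ), Finset.empty_union]
    exact hτ

theorem disj_AB (hA : ∀ σ ∈ KA, ∀ v ∈ σ, p v) (hB : ∀ σ ∈ KB, ∀ v ∈ σ, ¬ p v)
    {σ τ : Finset V} (hσ : σ ∈ KA) (hτ : τ ∈ KB) : Disjoint σ τ :=
  Finset.disjoint_left.2 fun v h1 h2 => hB τ hτ v h2 (hA σ hσ v h1)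

theorem IsCh.jn (hA : ∀ σ ∈ KA, ∀ v ∈ σ, p v) (hB : ∀ σ ∈ KB, ∀ v ∈ σ, ¬ p v) {m k : ℕ}
    {x y : Ch V} (hx : IsCh KA m x) (hy : IsCh KB k y) :
    IsCh (JCx p KA KB) (m + k) (Fill.jn x y) := by
  rw [jn_eq_sum]
  refine IsCh.sum _ _ fun σ hσ => IsCh.sum _ _ fun τ hτ => ?_
  intro ρ hρ
  obtain rfl := Finset.mem_singleton.1 (Finsupp.support_single_subset hρ)
  obtain ⟨h1, h2⟩ := hx σ hσ
  obtain ⟨h3, h4⟩ := hy τ hτ
  exact ⟨union_mem_JCx hA hB h1 h3, by
    rw [Finset.card_union_of_disjoint (disj_AB hA hB h1 h3), h2, h4]⟩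

theorem bd_jn' (hA : ∀ σ ∈ KA, ∀ v ∈ σ, p v) (hB : ∀ σ ∈ KB, ∀ v ∈ σ, ¬ p v) {m k : ℕ}
    {x y : Ch V} (hx : IsCh KA m x) (hy : IsCh KB k y) :
    bd (jn x y) = jn (bd x) y + jn x (bd y) :=
  bd_jn fun σ hσ τ hτ => disj_AB hA hB (hx σ hσ).1 (hy τ hτ).1

/-- truncated operator -/
noncomputable def tr (a : ℕ) (h : Finset V → Ch V) : Finset V → Ch V :=
  fun σ => if σ.card < a then h σ else 0

/-- the complementary projection -/
noncomputable def pr (a : ℕ) (h : Finset V → Ch V) : Finset V → Ch V :=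
  fun σ => (Finsupp.single σ 1 : Ch V) + bd (tr a h σ) + ∑ v ∈ σ, tr a h (σ.erase v)

theorem add_aux (x y z : Ch V) : y = x + (x + y + z) + z := by
  have hx := add_self x
  have hz := add_self z
  calc y = y + (x + x) + (z + z) := by rw [hx, hz]; simp
    _ = x + (x + y + z) + z := by abel

theorem bd_tr (a : ℕ) (h : Finset V → Ch V) (σ : Finset V) :
    bd (tr a h σ) = (Finsupp.single σ 1 : Ch V) + pr a h σ + ∑ v ∈ σ, tr a h (σ.erase v) :=
  add_aux _ _ _

theorem comb_aux (r x1 x2 x3 x4 x5 : Ch V) :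
    (r + x1 + x2 + x3) + (x4 + (x1 + 0 + x5)) = r + ((x2 + x4) + (x3 + x5)) := by
  have hx := add_self x1
  calc _ = r + ((x2 + x4) + (x3 + x5)) + (x1 + x1) := by abel
    _ = _ := by rw [hx, add_zero]

theorem bd_pr (a : ℕ) (h : Finset V → Ch V) (σ : Finset V) :
    bd (pr a h σ) = ∑ v ∈ σ, pr a h (σ.erase v) := by
  unfold pr
  rw [map_add, map_add, bd_bd, add_zero, Finset.sum_add_distrib, Finset.sum_add_distrib,
    sum_sum_erase, add_zero, bd_single, map_sum]

variable {a κ : ℕ} {h : Finset V → Ch V}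

theorem IsCh.single {K : Set (Finset V)} {σ : Finset V} (h1 : σ ∈ K) :
    IsCh K σ.card (Finsupp.single σ 1 : Ch V) := by
  intro τ hτ
  obtain rfl := Finset.mem_singleton.1 (Finsupp.support_single_subset hτ)
  exact ⟨h1, rfl⟩

theorem card_single_le (σ : Finset V) : (Finsupp.single σ 1 : Ch V).support.card ≤ 1 :=
  (Finset.card_le_card Finsupp.support_single_subset).trans (by simp)

theorem CLt.tr_ch {K : Set (Finset V)} (H : CLt K a κ h) {σ : Finset V} (hσ : σ ∈ K) :
    IsCh K (σ.card + 1) (tr a h σ) := by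
  unfold tr
  split_ifs with h1
  · exact H.ch σ hσ h1
  · exact IsCh.zero

theorem CLt.tr_card {K : Set (Finset V)} (H : CLt K a κ h) {σ : Finset V} (hσ : σ ∈ K) :
    (tr a h σ).support.card ≤ κ := by
  unfold tr
  split_ifs with h1
  · exact H.card_le σ hσ h1
  · simp

theorem CLt.pr_zero {K : Set (Finset V)} (H : CLt K a κ h) {σ : Finset V} (hσ : σ ∈ K)
    (hc : σ.card < a) : pr a h σ = 0 := by
  unfold pr
  have h1 : tr a h σ = h σ := if_pos hc
  have h2 : ∀ v ∈ σ, tr a h (σ.erase v) = h (σ.erase v) := fun v hv => if_pos (by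
    have := Finset.card_erase_of_mem hv
    omega)
  rw [h1, H.bd_eq σ hσ hc, Finset.sum_congr rfl h2, ← add_assoc, add_self, zero_add, add_self]

theorem CLt.pr_ch {K : Set (Finset V)} (hK : ∀ σ ∈ K, ∀ v ∈ σ, σ.erase v ∈ K)
    (H : CLt K a κ h) {σ : Finset V} (hσ : σ ∈ K) :
    IsCh K σ.card (pr a h σ) := by
  by_cases hc : σ.card < a
  · rw [H.pr_zero hσ hc]; exact IsCh.zero
  · unfold pr
    have h1 : tr a h σ = 0 := if_neg hc
    rw [h1, map_zero, add_zero]
    refine (IsCh.single hσ).add (IsCh.sum _ _ fun v hv => ?_)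
    have := H.tr_ch (hK σ hσ v hv)
    have h2 : (σ.erase v).card + 1 = σ.card := Finset.card_erase_add_one hv
    rwa [h2] at this

theorem CLt.pr_card {K : Set (Finset V)} (hK : ∀ σ ∈ K, ∀ v ∈ σ, σ.erase v ∈ K)
    (H : CLt K a κ h) {σ : Finset V} (hσ : σ ∈ K) :
    (pr a h σ).support.card ≤ 1 + a * κ := by
  by_cases hc : σ.card < a
  · rw [H.pr_zero hσ hc]; simp
  · unfold pr
    have h1 : tr a h σ = 0 := if_neg hc
    rw [h1, map_zero, add_zero]
    refine (card_add_le _ _).trans (Nat.add_le_add (card_single_le σ) ?_)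
    by_cases hc2 : σ.card = a
    · have := card_sum_le σ (fun v => tr a h (σ.erase v)) κ fun v hv => H.tr_card (hK σ hσ v hv)
      rwa [hc2] at this
    · have h2 : ∀ v ∈ σ, tr a h (σ.erase v) = 0 := fun v hv => if_neg (by
        have := Finset.card_erase_of_mem hv
        omega)
      rw [Finset.sum_congr rfl h2]; simp

theorem join_core (hA : ∀ σ ∈ KA, ∀ v ∈ σ, p v) (hB : ∀ σ ∈ KB, ∀ v ∈ σ, ¬ p v)
    (hKA : ∀ σ ∈ KA, ∀ v ∈ σ, σ.erase v ∈ KA)
    {a b κA κB : ℕ} {f g : Finset V → Ch V} (HA : CLt KA a κA f) (HB : CLt KB b κB g)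
    {σ τ : Finset V} (h1 : σ ∈ KA) (h2 : τ ∈ KB) (hc : σ.card + τ.card < a + b) :
    bd (jn (tr a f σ) (Finsupp.single τ 1) + jn (pr a f σ) (tr b g τ)) =
      (Finsupp.single (σ ∪ τ) 1 : Ch V) +
      (∑ v ∈ σ, (jn (tr a f (σ.erase v)) (Finsupp.single τ 1) +
        jn (pr a f (σ.erase v)) (tr b g τ)) +
      ∑ v ∈ τ, (jn (tr a f σ) (Finsupp.single (τ.erase v) 1) +
        jn (pr a f σ) (tr b g (τ.erase v)))) := by
  rw [Finset.sum_add_distrib, Finset.sum_add_distrib, map_add,
      bd_jn' hA hB (HA.tr_ch h1) (IsCh.single h2), bd_jn' hA hB (HA.pr_ch hKA h1) (HB.tr_ch h2),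
      bd_pr, bd_single]
  have s1 : ∑ v ∈ σ, jn (tr a f (σ.erase v)) (Finsupp.single τ 1 : Ch V) =
      jn (∑ v ∈ σ, tr a f (σ.erase v)) (Finsupp.single τ 1 : Ch V) := by
    rw [map_sum, LinearMap.sum_apply]
  have s2 : ∑ v ∈ σ, jn (pr a f (σ.erase v)) (tr b g τ) =
      jn (∑ v ∈ σ, pr a f (σ.erase v)) (tr b g τ) := by
    rw [map_sum, LinearMap.sum_apply]
  have s3 : ∑ v ∈ τ, jn (tr a f σ) (Finsupp.single (τ.erase v) 1 : Ch V) =
      jn (tr a f σ) (∑ v ∈ τ, (Finsupp.single (τ.erase v) 1 : Ch V)) := by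
    rw [map_sum]
  have s4 : ∑ v ∈ τ, jn (pr a f σ) (tr b g (τ.erase v)) =
      jn (pr a f σ) (∑ v ∈ τ, tr b g (τ.erase v)) := by
    rw [map_sum]
  rw [s1, s2, s3, s4]
  have hPP : jn (pr a f σ) (pr b g τ) = 0 := by
    by_cases hca : σ.card < a
    · rw [HA.pr_zero h1 hca, map_zero, LinearMap.zero_apply]
    · rw [HB.pr_zero h2 (by omega), map_zero]
  have e1 : jn (bd (tr a f σ)) (Finsupp.single τ 1 : Ch V) = (Finsupp.single (σ ∪ τ) 1 : Ch V) +
      jn (pr a f σ) (Finsupp.single τ 1 : Ch V) +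
      jn (∑ v ∈ σ, tr a f (σ.erase v)) (Finsupp.single τ 1 : Ch V) := by
    rw [bd_tr, map_add, map_add, LinearMap.add_apply, LinearMap.add_apply, jn_single]
  have e2 : jn (pr a f σ) (bd (tr b g τ)) = jn (pr a f σ) (Finsupp.single τ 1 : Ch V) + 0 +
      jn (pr a f σ) (∑ v ∈ τ, tr b g (τ.erase v)) := by
    rw [bd_tr, map_add, map_add, hPP]
  rw [e1, e2]
  exact comb_aux _ _ _ _ _ _

/-- **Join of contractions.** -/
theorem join_contr (hA : ∀ σ ∈ KA, ∀ v ∈ σ, p v) (hB : ∀ σ ∈ KB, ∀ v ∈ σ, ¬ p v)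
    (hKA : ∀ σ ∈ KA, ∀ v ∈ σ, σ.erase v ∈ KA)
    {a b κA κB : ℕ} {f g : Finset V → Ch V} (HA : CLt KA a κA f) (HB : CLt KB b κB g) :
    ∃ h : Finset V → Ch V, CLt (JCx p KA KB) (a + b) (κA + (1 + a * κA) * κB) h := by
  have hcard : ∀ ρ : Finset V, (ρ.filter p).card + (ρ.filter (fun v => ¬ p v)).card = ρ.card :=
    fun ρ => Finset.card_filter_add_card_filter_not p
  refine ⟨fun ρ => jn (tr a f (ρ.filter p)) (Finsupp.single (ρ.filter (fun v => ¬ p v)) 1) +
    jn (pr a f (ρ.filter p)) (tr b g (ρ.filter (fun v => ¬ p v))), ⟨?_, ?_, ?_⟩⟩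
  · rintro ρ ⟨h1, h2⟩ _
    have e1 := IsCh.jn hA hB (HA.tr_ch h1) (IsCh.single h2)
    have e2 := IsCh.jn hA hB (HA.pr_ch hKA h1) (HB.tr_ch h2)
    have e3 : (ρ.filter p).card + 1 + (ρ.filter (fun v => ¬ p v)).card = ρ.card + 1 := by
      rw [← hcard ρ]; ring
    have e4 : (ρ.filter p).card + ((ρ.filter (fun v => ¬ p v)).card + 1) = ρ.card + 1 := by
      rw [← hcard ρ]; ring
    rw [e3] at e1
    rw [e4] at e2
    exact e1.add e2
  · rintro ρ ⟨h1, h2⟩ hc
    have hρ : ρ = ρ.filter p ∪ ρ.filter (fun v => ¬ p v) :=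
      (Finset.filter_union_filter_not_eq p ρ).symm
    have hdisj : Disjoint (ρ.filter p) (ρ.filter (fun v => ¬ p v)) := disj_AB hA hB h1 h2
    have hcore := join_core hA hB hKA HA HB h1 h2 (by rw [hcard]; exact hc)
    have hA' : ∀ v ∈ ρ.filter p, (ρ.erase v).filter p = (ρ.filter p).erase v ∧
        (ρ.erase v).filter (fun v => ¬ p v) = ρ.filter (fun v => ¬ p v) := by
      intro v hv
      refine ⟨by rw [Finset.filter_erase], ?_⟩
      rw [Finset.filter_erase, Finset.erase_eq_of_notMem]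
      exact Finset.disjoint_left.1 hdisj hv
    have hB' : ∀ v ∈ ρ.filter (fun v => ¬ p v), (ρ.erase v).filter p = ρ.filter p ∧
        (ρ.erase v).filter (fun v => ¬ p v) = (ρ.filter (fun v => ¬ p v)).erase v := by
      intro v hv
      refine ⟨?_, by rw [Finset.filter_erase]⟩
      rw [Finset.filter_erase, Finset.erase_eq_of_notMem]
      exact Finset.disjoint_right.1 hdisj hv
    refine hcore.trans ?_
    rw [← hρ]
    refine congrArg (fun x => (Finsupp.single ρ 1 : Ch V) + x) ?_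
    rw [← Finset.sum_filter_add_sum_filter_not ρ p]
    refine congrArg₂ (fun x y => x + y) ?_ ?_
    · refine Finset.sum_congr rfl fun v hv => ?_
      rw [(hA' v hv).1, (hA' v hv).2]
    · refine Finset.sum_congr rfl fun v hv => ?_
      rw [(hB' v hv).1, (hB' v hv).2]
  · rintro ρ ⟨h1, h2⟩ _
    refine (card_add_le _ _).trans (Nat.add_le_add ?_ ?_)
    · refine (card_jn_le _ _).trans ?_
      calc _ ≤ κA * 1 := Nat.mul_le_mul (HA.tr_card h1) (card_single_le _)
        _ = κA := mul_one _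
    · exact (card_jn_le _ _).trans (Nat.mul_le_mul (HA.pr_card hKA h1) (HB.tr_card h2))

end join

end Crest.Agent.R066.Fill
end

-- ▼ part R066/GapContr
section

/-!
Row 66 (S0088), M2: uniform contraction operators for one gap.
-/

set_option autoImplicit false
set_option linter.unusedSectionVars false

namespace Crest.Agent.R066.Fill

open Finset

noncomputable local instance {F : Type} [Field F] {E : Type} [AddCommGroup E] [Module F E] :
    DecidableEq (Submodule F E) := Classical.decEq _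

theorem gap_isContr (u : ℕ) : ∀ m : ℕ, m + 2 ≤ u → ∃ κ q0 : ℕ,
    ∀ (F : Type) [Field F] [Fintype F] (E : Type) [AddCommGroup E]
    [Module F E] (A B : Submodule F E) (h : ℕ) (Λ : ℕ → Submodule F E)
    (U0 U1 : Submodule F E) (a : ℕ), q0 ≤ Fintype.card F →
    IsGap A B h Λ → GOpp A B h Λ a U0 → GOpp A B h Λ (a + u) U1 → U0 ≤ U1 →
    ∃ c : Finset (Submodule F E) → Ch (Submodule F E), IsContr (GIv A B h Λ U0 U1) m κ c := by
  intro m
  induction m with
  | zero =>
    intro hm
    obtain ⟨t, q0, h⟩ := gap_fill u 0 hm 1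
    refine ⟨t, q0, ?_⟩
    intro F _ _ E _ _ A B h' Λ U0 U1 a hq hΛ h0 h1 h01
    exact contr_zero ⟨by simp, by simp⟩ (h F E A B h' Λ U0 U1 a hq hΛ h0 h1 h01)
  | succ m ih =>
    intro hm
    obtain ⟨κ, q1, hκ⟩ := ih (by omega)
    obtain ⟨t, q2, ht⟩ := gap_fill u (m + 1) hm (1 + (m + 1) * κ)
    refine ⟨max κ t, max q1 q2, ?_⟩
    intro F _ _ E _ _ A B h' Λ U0 U1 a hq hΛ h0 h1 h01
    obtain ⟨c, hc⟩ := hκ F E A B h' Λ U0 U1 a ((le_max_left _ _).trans hq) hΛ h0 h1 h01
    exact contr_succ (fun σ hσ v _ => GIv_erase hσ v) hc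
      (ht F E A B h' Λ U0 U1 a ((le_max_right _ _).trans hq) hΛ h0 h1 h01)

theorem gap_contr (u : ℕ) : ∃ κ q0 : ℕ,
    ∀ (F : Type) [Field F] [Fintype F] (E : Type) [AddCommGroup E]
    [Module F E] (A B : Submodule F E) (Λ : ℕ → Submodule F E), q0 ≤ Fintype.card F →
    IsGap A B u Λ → Λ 0 = B → Λ u = A →
    ∃ c : Finset (Submodule F E) → Ch (Submodule F E), CLt (GIv A B u Λ A B) (u - 1) κ c := by
  rcases Nat.lt_or_ge u 2 with hu | hu
  · refine ⟨0, 0, ?_⟩
    intro F _ _ E _ _ A B Λ _ _ _ _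
    have : u - 1 = 0 := by omega
    rw [this]
    exact ⟨_, CLt.zero 0⟩
  · obtain ⟨κ, q0, h⟩ := gap_isContr u (u - 2) (by omega)
    refine ⟨κ, q0, ?_⟩
    intro F _ _ E _ _ A B Λ hq hG h0 hu'
    have hAB : A ≤ B := (hG.leA 0).trans (hG.leB 0)
    obtain ⟨c, hc⟩ := h F E A B u Λ A B 0 hq hG
      ⟨Nat.zero_le _, by rw [h0]; exact inf_eq_left.2 hAB, by rw [h0]; exact sup_eq_right.2 hAB⟩
      (by
        rw [Nat.zero_add]
        exact ⟨le_rfl, by rw [hu']; exact inf_eq_right.2 hAB, by rw [hu']; exact sup_eq_left.2 hAB⟩)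
      hAB
    refine ⟨c, ?_⟩
    have := hc.toCLt
    have e : u - 2 + 1 = u - 1 := by omega
    rwa [e] at this

/-- the same with uniform constants for all heights `u ≤ n` -/
theorem gap_contr_le (n : ℕ) : ∃ κ q0 : ℕ, ∀ u ≤ n,
    ∀ (F : Type) [Field F] [Fintype F] (E : Type) [AddCommGroup E]
    [Module F E] (A B : Submodule F E) (Λ : ℕ → Submodule F E), q0 ≤ Fintype.card F →
    IsGap A B u Λ → Λ 0 = B → Λ u = A →
    ∃ c : Finset (Submodule F E) → Ch (Submodule F E), CLt (GIv A B u Λ A B) (u - 1) κ c := by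
  choose κ q h using gap_contr
  refine ⟨∑ u ∈ range (n + 1), κ u, ∑ u ∈ range (n + 1), q u, ?_⟩
  intro u hu F _ _ E _ _ A B Λ hq hG h0 hu'
  have hmem : u ∈ range (n + 1) := mem_range.2 (by omega)
  have h1 : q u ≤ ∑ u ∈ range (n + 1), q u :=
    Finset.single_le_sum (f := q) (fun _ _ => Nat.zero_le _) hmem
  have h2 : κ u ≤ ∑ u ∈ range (n + 1), κ u :=
    Finset.single_le_sum (f := κ) (fun _ _ => Nat.zero_le _) hmem
  obtain ⟨c, hc⟩ := h u F E A B Λ (h1.trans hq) hG h0 hu'
  exact ⟨c, hc.mono le_rfl h2⟩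

end Crest.Agent.R066.Fill
end

-- ▼ part R066/GapBridge
section

/-!
Row 66 (S0088), M2: the relation `Gen` of `Basic.lean` in one gap `A ≤ B` is the relation `GOpp`
for the induced flag.
-/

set_option autoImplicit false
set_option linter.unusedSectionVars false
open Module (finrank)

namespace Crest.Agent.R066.Fill

section

variable {F Q : Type} [Field F] [AddCommGroup Q] [Module F Q] [FiniteDimensional F Q]

/-- induced filtration -/
def indM (Fl : ℕ → Submodule F Q) (A B : Submodule F Q) (u : ℕ) : Submodule F Q :=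
  A ⊔ (Fl u ⊓ B)

variable {Fl : ℕ → Submodule F Q} {A B : Submodule F Q}

theorem le_indM (u : ℕ) : A ≤ indM Fl A B u := le_sup_left

theorem indM_le (hAB : A ≤ B) (u : ℕ) : indM Fl A B u ≤ B := sup_le hAB inf_le_right

theorem indM_mono (hmono : Monotone Fl) : Monotone (indM Fl A B) := fun _ _ h =>
  sup_le_sup_left (inf_le_inf_right _ (hmono h)) _

theorem indM_inf {W : Submodule F Q} (hAW : A ≤ W) (hWB : W ≤ B) (u : ℕ) :
    indM Fl A B u ⊓ W = A ⊔ (Fl u ⊓ W) := by
  unfold indM
  rw [sup_inf_assoc_of_le _ hAW, inf_assoc, inf_eq_right.2 hWB]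

theorem finrank_indM_inf {W : Submodule F Q} (hAW : A ≤ W) (hWB : W ≤ B) (u : ℕ) :
    finrank F ↥(indM Fl A B u ⊓ W) + finrank F ↥(Fl u ⊓ A) =
      finrank F A + finrank F ↥(Fl u ⊓ W) := by
  rw [indM_inf hAW hWB]
  have h1 := Submodule.finrank_sup_add_finrank_inf_eq A (Fl u ⊓ W)
  have h2 : A ⊓ (Fl u ⊓ W) = Fl u ⊓ A := by
    rw [inf_left_comm, inf_eq_left.2 hAW]
  rwa [h2] at h1

theorem finrank_indM (hAB : A ≤ B) (u : ℕ) :
    finrank F ↥(indM Fl A B u) + finrank F ↥(Fl u ⊓ A) =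
      finrank F A + finrank F ↥(Fl u ⊓ B) := by
  have h1 := finrank_indM_inf (Fl := Fl) hAB le_rfl u
  rwa [inf_eq_left.2 (indM_le hAB u)] at h1

/-- `Gen` in terms of the induced filtration -/
theorem gen_iff (hAB : A ≤ B) {W : Submodule F Q} (hAW : A ≤ W) (hWB : W ≤ B) :
    Gen Fl A B W ↔ ∀ u, finrank F ↥(indM Fl A B u ⊓ W) =
      max (finrank F A) (finrank F ↥(indM Fl A B u) - (finrank F B - finrank F W)) := by
  have hW : finrank F W ≤ finrank F B := Submodule.finrank_mono hWB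
  constructor
  · rintro ⟨_, _, h⟩ u
    have h1 := finrank_indM_inf (Fl := Fl) hAW hWB u
    have h2 := finrank_indM (Fl := Fl) hAB u
    have h3 := h u
    omega
  · intro h
    refine ⟨hAW, hWB, fun u => ?_⟩
    have h1 := finrank_indM_inf (Fl := Fl) hAW hWB u
    have h2 := finrank_indM (Fl := Fl) hAB u
    have h3 := h u
    have h4 : finrank F ↥(Fl u ⊓ A) ≤ finrank F A := Submodule.finrank_mono inf_le_right
    omega

/-- steps of the induced filtration -/
theorem indM_step {n : ℕ} (hmono : Monotone Fl) (hfl : ∀ u ≤ n, finrank F ↥(Fl u) = u)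
    (hAB : A ≤ B) {u : ℕ} (hu : u < n) :
    finrank F ↥(indM Fl A B (u + 1)) ≤ finrank F ↥(indM Fl A B u) + 1 := by
  have h1 := finrank_indM (Fl := Fl) hAB u
  have h2 := finrank_indM (Fl := Fl) hAB (u + 1)
  have h3 : finrank F ↥(Fl (u + 1) ⊓ B) ≤ finrank F ↥(Fl u ⊓ B) + 1 := by
    have e1 := Submodule.finrank_sup_add_finrank_inf_eq (Fl u) (Fl (u + 1) ⊓ B)
    have e2 : Fl u ⊓ (Fl (u + 1) ⊓ B) = Fl u ⊓ B := by
      rw [← inf_assoc, inf_eq_left.2 (hmono (Nat.le_succ u))]
    rw [e2, hfl u (by omega)] at e1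
    have e3 : finrank F ↥(Fl u ⊔ Fl (u + 1) ⊓ B) ≤ finrank F ↥(Fl (u + 1)) :=
      Submodule.finrank_mono (sup_le (hmono (Nat.le_succ u)) inf_le_left)
    rw [hfl (u + 1) (by omega)] at e3
    omega
  have h4 : finrank F ↥(Fl u ⊓ A) ≤ finrank F ↥(Fl (u + 1) ⊓ A) :=
    Submodule.finrank_mono (inf_le_inf_right _ (hmono (Nat.le_succ u)))
  omega

/-- discrete intermediate values -/
theorem exists_index {n : ℕ} (hn : finrank F Q = n) (hmono : Monotone Fl)
    (hfl : ∀ u ≤ n, finrank F ↥(Fl u) = u) (hAB : A ≤ B) {r : ℕ} (h1 : finrank F A ≤ r)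
    (h2 : r ≤ finrank F B) : ∃ u ≤ n, finrank F ↥(indM Fl A B u) = r := by
  have h0 : finrank F ↥(indM Fl A B 0) = finrank F A := by
    have : Fl 0 = ⊥ := by
      apply Submodule.finrank_eq_zero.1
      exact hfl 0 (Nat.zero_le _)
    unfold indM
    rw [this, bot_inf_eq, sup_bot_eq]
  have hn' : finrank F ↥(indM Fl A B n) = finrank F B := by
    have : Fl n = ⊤ := by
      apply Submodule.eq_top_of_finrank_eq
      rw [hfl n le_rfl, hn]
    unfold indM
    rw [this, top_inf_eq, sup_eq_right.2 hAB]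
  -- largest `u ≤ n` with value `≤ r`
  have key : ∀ v ≤ n, (∃ u ≤ v, finrank F ↥(indM Fl A B u) = r) ∨
      finrank F ↥(indM Fl A B v) < r ∨ False := by
    intro v
    induction v with
    | zero =>
      intro _
      rcases h1.lt_or_eq with h | h
      · right; left; rw [h0]; exact h
      · left; exact ⟨0, le_rfl, h0.trans h⟩
    | succ v ih =>
      intro hv
      rcases ih (by omega) with ⟨u, hu, h⟩ | h | h
      · left; exact ⟨u, by omega, h⟩
      · have h3 := indM_step hmono hfl hAB (show v < n by omega)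
        rcases Nat.lt_or_ge (finrank F ↥(indM Fl A B (v + 1))) r with h4 | h4
        · right; left; exact h4
        · left; exact ⟨v + 1, le_rfl, by omega⟩
      · exact absurd h id
  rcases key n le_rfl with ⟨u, hu, h⟩ | h | h
  · exact ⟨u, hu, h⟩
  · rw [hn'] at h; omega
  · exact absurd h id

theorem eq_of_le_finrank {X Y : Submodule F Q} (h : X ≤ Y) (hf : finrank F Y ≤ finrank F X) :
    X = Y := Submodule.eq_of_le_of_finrank_le h hf

end

theorem gap_bridge {F Q : Type} [Field F] [AddCommGroup Q] [Module F Q] [FiniteDimensional F Q]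
    {n : ℕ} (hn : finrank F Q = n) (Fl : ℕ → Submodule F Q) (hmono : Monotone Fl)
    (hfl : ∀ u ≤ n, finrank F ↥(Fl u) = u) (A B : Submodule F Q) (hAB : A ≤ B) :
    ∃ Λ : ℕ → Submodule F Q, IsGap A B (finrank F B - finrank F A) Λ ∧ Λ 0 = B ∧
      Λ (finrank F B - finrank F A) = A ∧
      ∀ W, A ≤ W → W ≤ B →
        (Gen Fl A B W ↔ ∃ j, GOpp A B (finrank F B - finrank F A) Λ j W) := by
  classical
  have hab : finrank F A ≤ finrank F B := Submodule.finrank_mono hAB
  have hex : ∀ j, ∃ u, j ≤ finrank F B - finrank F A →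
      finrank F ↥(indM Fl A B u) = finrank F B - j := by
    intro j
    by_cases hj : j ≤ finrank F B - finrank F A
    · obtain ⟨u, _, hu⟩ := exists_index hn hmono hfl hAB (r := finrank F B - j) (by omega)
        (by omega)
      exact ⟨u, fun _ => hu⟩
    · exact ⟨0, fun h => absurd h hj⟩
  choose u hu using hex
  -- comparison
  have hcmp : ∀ v w, finrank F ↥(indM Fl A B v) ≤ finrank F ↥(indM Fl A B w) →
      indM Fl A B v ≤ indM Fl A B w := by
    intro v w h
    rcases le_total v w with h1 | h1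
    · exact indM_mono hmono h1
    · exact (eq_of_le_finrank (indM_mono hmono h1) h).ge
  refine ⟨fun j => if j ≤ finrank F B - finrank F A then indM Fl A B (u j) else A,
    ⟨?_, ?_, ?_⟩, ?_, ?_, ?_⟩
  · intro j
    split_ifs
    · exact le_indM _
    · exact le_rfl
  · intro j
    split_ifs
    · exact indM_le hAB _
    · exact hAB
  · intro j hj
    have e1 := hu j hj.le
    have e2 := hu (j + 1) hj
    rw [if_pos hj.le, if_pos (show j + 1 ≤ finrank F B - finrank F A from hj)]
    have hlt : indM Fl A B (u (j + 1)) < indM Fl A B (u j) := by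
      refine lt_of_le_of_ne (hcmp _ _ (by omega)) fun e => ?_
      have : finrank F ↥(indM Fl A B (u (j + 1))) = finrank F ↥(indM Fl A B (u j)) := by rw [e]
      omega
    obtain ⟨x, hx1, hx2⟩ := SetLike.exists_of_lt hlt
    refine ⟨x, hx2, ?_⟩
    symm
    apply eq_of_le_finrank
    · refine sup_le hlt.le ?_
      rwa [Submodule.span_singleton_le_iff_mem]
    · have h3 : indM Fl A B (u (j + 1)) < indM Fl A B (u (j + 1)) ⊔ Submodule.span F {x} := by
        refine lt_of_le_of_ne le_sup_left fun e => hx2 ?_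
        rw [e]
        exact Submodule.mem_sup_right (Submodule.mem_span_singleton_self x)
      have h4 := Submodule.finrank_lt_finrank_of_lt h3
      omega
  · dsimp only
    rw [if_pos (Nat.zero_le _)]
    apply eq_of_le_finrank (indM_le hAB _)
    rw [hu 0 (Nat.zero_le _)]; omega
  · dsimp only
    rw [if_pos le_rfl]
    symm
    apply eq_of_le_finrank (le_indM _)
    rw [hu _ le_rfl]; omega
  · intro W hAW hWB
    have hAW' : finrank F A ≤ finrank F W := Submodule.finrank_mono hAW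
    have hWB' : finrank F W ≤ finrank F B := Submodule.finrank_mono hWB
    rw [gen_iff hAB hAW hWB]
    constructor
    · intro h
      have hj : finrank F W - finrank F A ≤ finrank F B - finrank F A := by omega
      refine ⟨finrank F W - finrank F A, hj, ?_, ?_⟩
      · dsimp only
        rw [if_pos hj, inf_comm]
        symm
        apply eq_of_le_finrank (le_inf (le_indM _) hAW)
        rw [h, hu _ hj]
        omega
      · dsimp only
        rw [if_pos hj]
        apply eq_of_le_finrank (sup_le hWB (indM_le hAB _))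
        have h1 := Submodule.finrank_sup_add_finrank_inf_eq W
          (indM Fl A B (u (finrank F W - finrank F A)))
        rw [inf_comm, h, hu _ hj] at h1
        omega
    · rintro ⟨j, hj, h1, h2⟩ v
      dsimp only at h1 h2
      rw [if_pos hj] at h1 h2
      have h3 := Submodule.finrank_sup_add_finrank_inf_eq W (indM Fl A B (u j))
      rw [h1, h2] at h3
      have h4 := hu j hj
      rcases Nat.lt_or_ge (finrank F ↥(indM Fl A B (u j))) (finrank F ↥(indM Fl A B v)) with h5 | h5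
      · -- large
        have h6 : W ⊔ indM Fl A B v = B := by
          apply le_antisymm (sup_le hWB (indM_le hAB _))
          exact h2.ge.trans (sup_le_sup_left (hcmp _ _ h5.le) _)
        have h7 := Submodule.finrank_sup_add_finrank_inf_eq W (indM Fl A B v)
        rw [h6, inf_comm] at h7
        omega
      · -- small
        have h6 : indM Fl A B v ⊓ W = A := by
          apply le_antisymm
          · exact (le_of_eq (inf_comm _ _)).trans ((inf_le_inf_left _ (hcmp _ _ h5)).trans h1.le)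
          · exact le_inf (le_indM _) hAW
        rw [h6]
        omega

end Crest.Agent.R066.Fill
end

-- ▼ part R066/WallsContr
section

/-!
Row 66 (S0088), M2: contraction operators for all gaps of a chain of walls.
-/

set_option autoImplicit false
set_option linter.unusedSectionVars false

namespace Crest.Agent.R066.Fill

open Finset
open Module (finrank)

noncomputable local instance {F : Type} [Field F] {E : Type} [AddCommGroup E] [Module F E] :
    DecidableEq (Submodule F E) := Classical.decEq _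

section

variable {F Q : Type} [Field F] [AddCommGroup Q] [Module F Q]


open Classical in
/-- decomposition of `GenCx` along the top gap -/
theorem GenCx_decomp {Fl : ℕ → Submodule F Q} {Wl : Finset (Submodule F Q)}
    {A B : Submodule F Q} (hB : B ∈ Wl) (hA : A ∈ Wl) (hAB : A < B)
    (hmax : ∀ X ∈ Wl, X = B ∨ X ≤ A) (KA : Set (Finset (Submodule F Q)))
    (hKA : ∀ s, s ∈ KA ↔ (∀ W ∈ s, A < W ∧ W < B ∧ Gen Fl A B W) ∧
      ∀ W ∈ s, ∀ W' ∈ s, W ≤ W' ∨ W' ≤ W) :
    GenCx Fl Wl = JCx (fun W => A < W) KA (GenCx Fl (Wl.erase B)) := by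
  ext s
  constructor
  · rintro ⟨h1, h2⟩
    refine ⟨(hKA _).2 ⟨?_, ?_⟩, ?_, ?_⟩
    · intro W hW
      obtain ⟨hWs, hAW⟩ := Finset.mem_filter.1 hW
      obtain ⟨A', hA', B', hB', hA'W, hWB', hcons, hgen⟩ := h1 W hWs
      have hB'B : B' = B := by
        rcases hmax B' hB' with h | h
        · exact h
        · exact absurd (hAW.trans (hWB'.trans_le h)) (lt_irrefl _)
      have hA'A : A' = A := by
        apply le_antisymm
        · rcases hmax A' hA' with h | h
          · exfalso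
            have : A' < B := hB'B ▸ hA'W.trans hWB'
            exact this.ne h
          · exact h
        · rcases hcons A hA with h | h
          · exact h
          · exfalso
            exact absurd (hAW.trans (hWB'.trans_le h)) (lt_irrefl _)
      subst hB'B hA'A
      exact ⟨hAW, hWB', hgen⟩
    · intro W hW W' hW'
      exact h2 W (Finset.mem_filter.1 hW).1 W' (Finset.mem_filter.1 hW').1
    · intro W hW
      obtain ⟨hWs, hAW⟩ := Finset.mem_filter.1 hW
      obtain ⟨A', hA', B', hB', hA'W, hWB', hcons, hgen⟩ := h1 W hWs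
      have hB'A : B' ≤ A := by
        rcases hcons A hA with h | h
        · exact absurd (h.trans_lt hA'W) hAW
        · exact h
      have hB'B : B' ≠ B := fun e => absurd (e ▸ hB'A) (not_le_of_gt hAB)
      have hA'B : A' ≠ B := fun e => absurd ((e ▸ hA'W.trans hWB').trans_le hB'A)
        (not_lt_of_gt hAB)
      exact ⟨A', Finset.mem_erase.2 ⟨hA'B, hA'⟩, B', Finset.mem_erase.2 ⟨hB'B, hB'⟩, hA'W, hWB',
        fun X hX => hcons X (Finset.mem_of_mem_erase hX), hgen⟩
    · intro W hW W' hW'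
      exact h2 W (Finset.mem_filter.1 hW).1 W' (Finset.mem_filter.1 hW').1
  · rintro ⟨h1, h2, h3⟩
    obtain ⟨h4, h5⟩ := (hKA _).1 h1
    -- elements not above `A` are below `A`
    have hlow : ∀ W ∈ s, ¬ A < W → W ≤ A := by
      intro W hW hAW
      obtain ⟨A', hA', B', hB', hA'W, hWB', hcons, hgen⟩ := h2 W (Finset.mem_filter.2 ⟨hW, hAW⟩)
      obtain ⟨hB'B, hB'm⟩ := Finset.mem_erase.1 hB'
      rcases hmax B' hB'm with h | h
      · exact absurd h hB'B
      · exact hWB'.le.trans h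
    refine ⟨?_, ?_⟩
    · intro W hW
      by_cases hAW : A < W
      · obtain ⟨_, hWB, hgen⟩ := h4 W (Finset.mem_filter.2 ⟨hW, hAW⟩)
        refine ⟨A, hA, B, hB, hAW, hWB, fun X hX => ?_, hgen⟩
        rcases hmax X hX with h | h
        · exact Or.inr h.ge
        · exact Or.inl h
      · obtain ⟨A', hA', B', hB', hA'W, hWB', hcons, hgen⟩ := h2 W (Finset.mem_filter.2 ⟨hW, hAW⟩)
        obtain ⟨hB'B, hB'm⟩ := Finset.mem_erase.1 hB'
        refine ⟨A', Finset.mem_of_mem_erase hA', B', hB'm, hA'W, hWB', fun X hX => ?_, hgen⟩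
        by_cases hXB : X = B
        · right
          rcases hmax B' hB'm with h | h
          · exact absurd h hB'B
          · exact h.trans (hXB ▸ hAB.le)
        · exact hcons X (Finset.mem_erase.2 ⟨hXB, hX⟩)
    · intro W hW W' hW'
      by_cases hAW : A < W <;> by_cases hAW' : A < W'
      · exact h5 W (Finset.mem_filter.2 ⟨hW, hAW⟩) W' (Finset.mem_filter.2 ⟨hW', hAW'⟩)
      · exact Or.inr ((hlow W' hW' hAW').trans hAW.le)
      · exact Or.inl ((hlow W hW hAW).trans hAW'.le)
      · exact h3 W (Finset.mem_filter.2 ⟨hW, hAW⟩) W' (Finset.mem_filter.2 ⟨hW', hAW'⟩)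

end

/-- contraction operators for `GenCx Fl Wl` -/
theorem walls_contr (n : ℕ) : ∃ q0 : ℕ, ∀ k : ℕ, ∃ κ : ℕ, ∀ (F : Type) [Field F] [Fintype F],
    q0 ≤ Fintype.card F →
    ∀ (Q : Type) [AddCommGroup Q] [Module F Q] [FiniteDimensional F Q], finrank F Q = n →
    ∀ Fl : ℕ → Submodule F Q, Monotone Fl → (∀ u ≤ n, finrank F ↥(Fl u) = u) →
    ∀ (Wl : Finset (Submodule F Q)) (T : Submodule F Q), Wl.card = k + 1 → ⊥ ∈ Wl → T ∈ Wl →
    (∀ X ∈ Wl, X ≤ T) → (∀ A ∈ Wl, ∀ B ∈ Wl, A ≤ B ∨ B ≤ A) →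
    ∀ a, a ≤ finrank F T - k →
    ∃ c : Finset (Submodule F Q) → Ch (Submodule F Q), CLt (GenCx Fl Wl) a κ c := by
  classical
  obtain ⟨κ1, q1, hgap⟩ := gap_contr_le n
  refine ⟨q1, ?_⟩
  intro k
  induction k with
  | zero =>
    refine ⟨0, ?_⟩
    intro F _ _ hq Q _ _ _ hn Fl hmono hfl Wl T hcard hbot hT hmax hch a ha
    have hT0 : T = ⊥ := by
      obtain ⟨x, hx⟩ := Finset.card_eq_one.1 hcard
      rw [hx, Finset.mem_singleton] at hT hbot
      rw [hT, hbot]
    rw [hT0, finrank_bot] at ha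
    obtain rfl : a = 0 := by omega
    exact ⟨_, CLt.zero 0⟩
  | succ k ih =>
    obtain ⟨κ2, hκ2⟩ := ih
    refine ⟨κ1 + (1 + n * κ1) * κ2, ?_⟩
    intro F _ _ hq Q _ _ _ hn Fl hmono hfl Wl T hcard hbot hT hmax hch a ha
    have hT0 : T ≠ ⊥ := by
      rintro rfl
      have : Wl ⊆ {⊥} := fun X hX => Finset.mem_singleton.2 (le_bot_iff.1 (hmax X hX))
      have := Finset.card_le_card this
      rw [hcard] at this
      simp at this
    have hne : (Wl.erase T).Nonempty := ⟨⊥, Finset.mem_erase.2 ⟨fun e => hT0 e.symm, hbot⟩⟩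
    -- the second largest wall
    obtain ⟨A, hAmax⟩ := Finset.exists_maximal hne
    have hAm := hAmax.prop
    obtain ⟨hAT, hAWl⟩ := Finset.mem_erase.1 hAm
    have hA_lt : A < T := lt_of_le_of_ne (hmax A hAWl) hAT
    have hA_le : ∀ X ∈ Wl.erase T, X ≤ A := by
      intro X hX
      rcases hch X (Finset.mem_of_mem_erase hX) A hAWl with h | h
      · exact h
      · exact hAmax.le_of_ge hX h
    have hmaxA : ∀ X ∈ Wl, X = T ∨ X ≤ A := by
      intro X hX
      by_cases h : X = T
      · exact Or.inl h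
      · exact Or.inr (hA_le X (Finset.mem_erase.2 ⟨h, hX⟩))
    obtain ⟨Λ, hG, hΛ0, hΛh, hgen⟩ := gap_bridge hn Fl hmono hfl A T hA_lt.le
    have hfr : finrank F A < finrank F T := Submodule.finrank_lt_finrank_of_lt hA_lt
    have hTn : finrank F T ≤ n := by rw [← hn]; exact Submodule.finrank_le T
    set u := finrank F T - finrank F A with hu
    obtain ⟨c1, hc1⟩ := hgap u (by omega) F Q A T Λ hq hG hΛ0 hΛh
    obtain ⟨c2, hc2⟩ := hκ2 F hq Q hn Fl hmono hfl (Wl.erase T) A
      (by rw [Finset.card_erase_of_mem hT, hcard]; rfl)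
      (Finset.mem_erase.2 ⟨fun e => hT0 e.symm, hbot⟩) hAm hA_le
      (fun X hX Y hY => hch X (Finset.mem_of_mem_erase hX) Y (Finset.mem_of_mem_erase hY))
      (finrank F A - k) le_rfl
    have hdec := GenCx_decomp (Fl := Fl) hT hAWl hA_lt hmaxA (GIv A T u Λ A T) (fun s => by
      constructor
      · rintro ⟨h1, h2⟩
        exact ⟨fun W hW => ⟨(h1 W hW).1, (h1 W hW).2.1,
          (hgen W (h1 W hW).1.le (h1 W hW).2.1.le).2 (h1 W hW).2.2⟩, h2⟩
      · rintro ⟨h1, h2⟩
        exact ⟨fun W hW => ⟨(h1 W hW).1, (h1 W hW).2.1,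
          (hgen W (h1 W hW).1.le (h1 W hW).2.1.le).1 (h1 W hW).2.2⟩, h2⟩)
    rw [hdec]
    obtain ⟨c, hc⟩ := join_contr (p := fun W => A < W) (KA := GIv A T u Λ A T)
      (KB := GenCx Fl (Wl.erase T)) (fun σ hσ v hv => (hσ.1 v hv).1)
      (fun σ hσ v hv hAv => by
        obtain ⟨A', hA', B', hB', hA'W, hWB', _⟩ := hσ.1 v hv
        exact absurd (hAv.trans (hWB'.trans_le (hA_le B' hB'))) (lt_irrefl _))
      (fun σ hσ v _ => GIv_erase hσ v) hc1 hc2
    refine ⟨c, hc.mono (by omega) ?_⟩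
    have h5 : u - 1 ≤ n := by omega
    have h6 : 1 + (u - 1) * κ1 ≤ 1 + n * κ1 := Nat.add_le_add_left (Nat.mul_le_mul_right _ h5) 1
    exact Nat.add_le_add_left (Nat.mul_le_mul_right _ h6) _

end Crest.Agent.R066.Fill
end

-- ▼ part R066/ConeFill

/-! Uniform cone operators for complexes of generic subspaces (task M2). -/

set_option autoImplicit false
open scoped BigOperators
open Module (finrank)

namespace Crest.Agent.R066

theorem fill_bd_eq {V : Type*} [DecidableEq V] (c : Ch V) : Fill.bd c = bd c := by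
  have h : (Fill.bd : Ch V →ₗ[ZMod 2] Ch V) = bd := by
    apply Fill.lin_ext
    intro σ
    rw [Fill.bd_single]
    unfold bd
    rw [Finsupp.lsum_single, LinearMap.sum_apply]
    rfl
  exact LinearMap.congr_fun h c

theorem fill_mem_chains {V : Type*} {K : Set (Finset V)} {m : ℕ} {c : Ch V}
    (h : Fill.IsCh K m c) : c ∈ chains K m := by
  intro σ hσ
  exact h σ hσ

/-- from a contraction in the sense of `Fill` to a cone operator -/
theorem cone_of_CLt {V : Type*} [DecidableEq V] {K : Set (Finset V)} {a κ : ℕ}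
    {c : Finset V → Ch V} (H : Fill.CLt K a κ c) {s : Finset V} (hs : s ∈ K) (hc : s.card < a) :
    c s ∈ chains K (s.card + 1) ∧
      bd (c s) + ∑ v ∈ s, c (s.erase v) = Finsupp.single s 1 ∧ (c s).support.card ≤ κ := by
  refine ⟨fill_mem_chains (H.ch s hs hc), ?_, H.card_le s hs hc⟩
  rw [← fill_bd_eq, H.bd_eq s hs hc, add_assoc, Fill.add_self, add_zero]

open Classical in
/-- Uniformly bounded cone operators on the complexes `GenCx Fl Wl`. -/
theorem cone_exists (n : ℕ) : ∃ R q₀ : ℕ, ∀ (F : Type) [Field F] [Fintype F], q₀ ≤ Fintype.card F →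
    ∀ (Q : Type) [AddCommGroup Q] [Module F Q] [FiniteDimensional F Q], finrank F Q = n →
    ∀ Fl : ℕ → Submodule F Q, Monotone Fl → (∀ u ≤ n, finrank F ↥(Fl u) = u) →
    ∀ Wl : Finset (Submodule F Q), ⊥ ∈ Wl → ⊤ ∈ Wl → (∀ A ∈ Wl, ∀ B ∈ Wl, A ≤ B ∨ B ≤ A) →
    ∃ κ : Finset (Submodule F Q) → Ch (Submodule F Q), ∀ s ∈ GenCx Fl Wl, s.card + Wl.card ≤ n →
      κ s ∈ chains (GenCx Fl Wl) (s.card + 1) ∧
      bd (κ s) + ∑ v ∈ s, κ (s.erase v) = Finsupp.single s 1 ∧
      (κ s).support.card ≤ R := by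
  obtain ⟨q0, hq0⟩ := Fill.walls_contr n
  choose κ hκ using hq0
  refine ⟨∑ k ∈ Finset.range (n + 1), κ k, q0, ?_⟩
  intro F _ _ hq Q _ _ _ hn Fl hmono hfl Wl hbot htop hch
  have hpos : 0 < Wl.card := Finset.card_pos.2 ⟨_, hbot⟩
  by_cases hW : Wl.card ≤ n
  · have htopn : finrank F (⊤ : Submodule F Q) = n := by rw [finrank_top, hn]
    obtain ⟨c, hc⟩ := hκ (Wl.card - 1) F hq Q hn Fl hmono hfl Wl ⊤ (by omega) hbot htop
      (fun _ _ => le_top) hch (n - (Wl.card - 1)) (by rw [htopn])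
    refine ⟨c, fun s hs hsc => ?_⟩
    have h1 := cone_of_CLt hc hs (by omega)
    have h2 : κ (Wl.card - 1) ≤ ∑ k ∈ Finset.range (n + 1), κ k :=
      Finset.single_le_sum (f := κ) (fun _ _ => Nat.zero_le _) (Finset.mem_range.2 (by omega))
    refine ⟨h1.1, ?_, h1.2.2.trans h2⟩
    convert h1.2.1
  · exact ⟨fun _ => 0, fun s _ hsc => by omega⟩

end Crest.Agent.R066
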