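import Mathlib

-- ▼ part R066/LGCoset
section

/-!
# Row 66: coset calculus

A finite group `G` with subgroups `K S` indexed by finite sets of types.  A face of type `S` is a
coset `g K_S`; an `n`-cochain (on faces with `n` vertices) is a family `f S : G → ZMod 2`
(`S.card = n`), each `f S` being right `K_S`-invariant.  The link of the face `(g,T)` is described
by functions on `K T`.
-/

set_option autoImplicit false

open Finset

namespace Crest.Agent.R066.LG

/-- A coset system: subgroups indexed by finite sets of types. -/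
structure CosetSystem (G : Type*) [Group G] (I : Type*) [DecidableEq I] where
  K : Finset I → Subgroup G
  K_empty : K ∅ = ⊤
  K_union : ∀ S T, K (S ∪ T) = K S ⊓ K T

variable {G : Type*} [Group G] {I : Type*} [DecidableEq I]

theorem CosetSystem.K_mono (X : CosetSystem G I) {S T : Finset I} (h : S ⊆ T) : X.K T ≤ X.K S := by
  have := X.K_union S T
  rw [Finset.union_eq_right.mpr h] at this
  rw [this]; exact inf_le_left

/-- Coboundary of a family. -/
def cob (f : Finset I → G → ZMod 2) : Finset I → G → ZMod 2 :=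
  fun S g => ∑ s ∈ S, f (S.erase s) g

/-- `f` is a cochain on faces of size `n` in the link of type `T`. -/
def IsCochain (X : CosetSystem G I) (T : Finset I) (n : ℕ) (f : Finset I → G → ZMod 2) : Prop :=
  ∀ S : Finset I, S.card = n → Disjoint T S →
    ∀ g ∈ X.K T, ∀ k ∈ X.K (T ∪ S), f S (g * k) = f S g

/-- Localisation of `f` at the face `(g,T)`. -/
def loc (f : Finset I → G → ZMod 2) (T : Finset I) (g : G) : Finset I → G → ZMod 2 :=
  fun S k => f (T ∪ S) (g * k)

theorem cob_add (f g : Finset I → G → ZMod 2) : cob (f + g) = cob f + cob g := by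
  funext S x; simp [cob, Finset.sum_add_distrib]

theorem cob_zero : cob (0 : Finset I → G → ZMod 2) = 0 := by
  funext S x; simp [cob]

theorem cob_cob (f : Finset I → G → ZMod 2) : cob (cob f) = 0 := by
  funext S x
  simp only [cob, Pi.zero_apply]
  rw [Finset.sum_sigma']
  refine Finset.sum_involution (fun p _ => ⟨p.2, p.1⟩) ?_ ?_ ?_ ?_
  · rintro ⟨a, b⟩ h
    simp only [Finset.mem_sigma, Finset.mem_erase] at h
    rw [Finset.erase_right_comm]
    exact CharTwo.add_self_eq_zero _
  · rintro ⟨a, b⟩ h _
    simp only [Finset.mem_sigma, Finset.mem_erase] at h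
    intro e
    simp only [Sigma.mk.injEq, heq_eq_eq] at e
    exact h.2.1 e.1
  · rintro ⟨a, b⟩ h
    simp only [Finset.mem_sigma, Finset.mem_erase] at h ⊢
    exact ⟨h.2.2, fun e => h.2.1 e.symm, h.1⟩
  · rintro ⟨a, b⟩ h
    rfl

theorem IsCochain.loc {X : CosetSystem G I} {n : ℕ} {f : Finset I → G → ZMod 2}
    (hf : IsCochain X ∅ n f) (T : Finset I) (hT : T.card ≤ n) (g : G) :
    IsCochain X T (n - T.card) (loc f T g) := by
  intro S hS hd x hx k hk
  simp only [LG.loc]
  rw [← mul_assoc]
  refine hf (T ∪ S) ?_ (Finset.disjoint_empty_left _) (g * x) ?_ k ?_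
  · rw [Finset.card_union_of_disjoint hd, hS]; omega
  · rw [X.K_empty]; trivial
  · simpa using hk

theorem IsCochain.cob {X : CosetSystem G I} {T : Finset I} {n : ℕ} {f : Finset I → G → ZMod 2}
    (hf : IsCochain X T n f) : IsCochain X T (n + 1) (cob f) := by
  intro S hS hd g hg k hk
  simp only [LG.cob]
  refine Finset.sum_congr rfl fun s hs => ?_
  refine hf (S.erase s) ?_ ?_ g hg k ?_
  · rw [Finset.card_erase_of_mem hs, hS]; rfl
  · exact hd.mono_right (Finset.erase_subset _ _)
  · exact X.K_mono (Finset.union_subset_union_right (Finset.erase_subset _ _)) hk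

theorem IsCochain.add {X : CosetSystem G I} {T : Finset I} {n : ℕ} {f g : Finset I → G → ZMod 2}
    (hf : IsCochain X T n f) (hg : IsCochain X T n g) : IsCochain X T n (f + g) := by
  intro S hS hd x hx k hk
  simp only [Pi.add_apply]
  rw [hf S hS hd x hx k hk, hg S hS hd x hx k hk]

section Count

variable [Fintype G] [Fintype I]

/-- The faces of size `n` in the link of type `T`. -/
def faces (T : Finset I) (n : ℕ) : Finset (Finset I) :=
  univ.filter (fun S => S.card = n ∧ Disjoint T S)

open Classical in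
/-- Number of elements of the subgroup `H` where `u` does not vanish. -/
noncomputable def supp (H : Subgroup G) (u : G → ZMod 2) : ℕ :=
  (univ.filter (fun g => g ∈ H ∧ u g ≠ 0)).card

/-- Counting norm of a cochain of the link of type `T`. -/
noncomputable def cnt (X : CosetSystem G I) (T : Finset I) (n : ℕ)
    (f : Finset I → G → ZMod 2) : ℕ :=
  ∑ S ∈ faces T n, supp (X.K T) (f S)

open Classical in
theorem supp_top (u : G → ZMod 2) :
    supp (⊤ : Subgroup G) u = (univ.filter (fun g => u g ≠ 0)).card := by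
  simp [supp]

open Classical in
/-- Double counting. -/
theorem sum_supp_mul (H : Subgroup G) (P : G → Prop) (hP : ∀ g, ∀ k ∈ H, P (g * k) ↔ P g)
    (u : G → ZMod 2) :
    ∑ g ∈ univ.filter P, supp H (fun k => u (g * k)) =
      Fintype.card H * (univ.filter (fun g => P g ∧ u g ≠ 0)).card := by
  have h1 : ∀ g, supp H (fun k => u (g * k)) = ∑ k : H, if u (g * (k : G)) ≠ 0 then 1 else 0 := by
    intro g
    rw [supp, ← Finset.sum_subtype (univ.filter (fun k => k ∈ H)) (by simp)
      (fun k => if u (g * k) ≠ 0 then 1 else 0), Finset.sum_boole, Finset.filter_filter]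
    simp
  simp_rw [h1]
  rw [Finset.sum_comm]
  have h2 : ∀ k : H, ∑ g ∈ univ.filter P, (if u (g * (k : G)) ≠ 0 then 1 else 0) =
      (univ.filter (fun g => P g ∧ u g ≠ 0)).card := by
    intro k
    rw [Finset.sum_boole, Finset.filter_filter]
    simp only [Nat.cast_id]
    refine Finset.card_bij (fun g _ => g * (k : G)) ?_ ?_ ?_
    · intro g hg
      simp only [mem_filter, mem_univ, true_and] at hg ⊢
      exact ⟨(hP g k k.2).mpr hg.1, hg.2⟩
    · intro a _ b _ h
      exact mul_right_cancel h
    · intro b hb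
      simp only [mem_filter, mem_univ, true_and] at hb
      refine ⟨b * (k : G)⁻¹, ?_, by simp⟩
      simp only [mem_filter, mem_univ, true_and, inv_mul_cancel_right]
      refine ⟨?_, hb.2⟩
      rw [← hP (b * (k : G)⁻¹) k k.2]; simpa using hb.1
  rw [Finset.sum_congr rfl (fun k _ => h2 k)]
  simp

end Count

end Crest.Agent.R066.LG
end

-- ▼ part R066/LGSmallSet

/-!
# Row 66: small locally minimal cochains expand
-/

set_option autoImplicit false
set_option linter.unusedSectionVars false

open Finset

namespace Crest.Agent.R066.LG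

variable {G : Type*} [Group G] [Fintype G] {I : Type*} [Fintype I] [DecidableEq I]

/-- Coboundary expansion (constant `β`) of the link of type `T` on faces of size `n`. -/
def LinkExp (X : CosetSystem G I) (T : Finset I) (n : ℕ) (β : ℝ) : Prop :=
  ∀ f : Finset I → G → ZMod 2, IsCochain X T n f →
    ∃ ψ : Finset I → G → ZMod 2, IsCochain X T (n - 1) ψ ∧
      β * (cnt X T n (f + cob ψ) : ℝ) ≤ (cnt X T (n + 1) (cob f) : ℝ)

/-- `f` is minimal modulo coboundaries in every link (of a nonempty face). -/
def LocMin (X : CosetSystem G I) (n : ℕ) (f : Finset I → G → ZMod 2) : Prop :=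
  ∀ T : Finset I, T.Nonempty → T.card ≤ n → ∀ g : G, ∀ ψ : Finset I → G → ZMod 2,
    IsCochain X T (n - T.card - 1) ψ →
      cnt X T (n - T.card) (loc f T g) ≤ cnt X T (n - T.card) (loc f T g + cob ψ)

open Classical in
/-- Average over right cosets of `H`. -/
noncomputable def avg (H : Subgroup G) (u : G → ℝ) (g : G) : ℝ :=
  (∑ k : H, u (g * (k : G))) / (Fintype.card H : ℝ)

/-- Mixing between a vertex `w` and a face `S` in the link of `κ`. -/
def Mix (X : CosetSystem G I) (lam : ℝ) : Prop :=
  ∀ κ : Finset I, ∀ w : I, w ∉ κ → ∀ S : Finset I, Disjoint (insert w κ) S →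
    ∀ u v : G → ℝ, (∀ g, ∀ k ∈ X.K (insert w κ), u (g * k) = u g) →
      (∀ g, ∀ k ∈ X.K (κ ∪ S), v (g * k) = v g) →
      ∑ g, u g * v g ≤ ∑ g, avg (X.K κ) u g * avg (X.K κ) v g +
        lam * Real.sqrt (∑ g, u g ^ 2) * Real.sqrt (∑ g, v g ^ 2)

open Classical in
theorem sum_avg (H : Subgroup G) (u : G → ℝ) : ∑ g, avg H u g = ∑ g, u g := by
  have hc : (Fintype.card H : ℝ) ≠ 0 := by
    exact_mod_cast Fintype.card_ne_zero
  simp only [avg]
  rw [← Finset.sum_div, Finset.sum_comm]
  have : ∀ k : H, ∑ g : G, u (g * (k : G)) = ∑ g, u g := fun k =>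
    Fintype.sum_equiv (Equiv.mulRight (k : G)) _ _ (fun g => by simp)
  rw [Finset.sum_congr rfl (fun k _ => this k)]
  simp only [sum_const, card_univ, nsmul_eq_mul]
  field_simp

open Classical in
/-- The basic error estimate. -/
theorem err_bound (X : CosetSystem G I) {lam : ℝ} (hlam : 0 ≤ lam) (hMix : Mix X lam)
    (κ : Finset I) (w : I) (hw : w ∉ κ) (S : Finset I) (hS : Disjoint (insert w κ) S)
    (A B : G → Prop) (hA : ∀ g, ∀ k ∈ X.K (insert w κ), A (g * k) ↔ A g)
    (hB : ∀ g, ∀ k ∈ X.K (κ ∪ S), B (g * k) ↔ B g) (e : ℝ)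
    (he : ∀ g, avg (X.K κ) (fun x => if B x then 1 else 0) g ≤ e)
    (N η : ℝ) (hη : 0 < η) (hN : 0 ≤ N) (he0 : 0 ≤ e)
    (hAN : ((univ.filter A).card : ℝ) ≤ N / η) (hBN : ((univ.filter B).card : ℝ) ≤ N) :
    ((univ.filter (fun g => A g ∧ B g)).card : ℝ) ≤ (e / η + lam / Real.sqrt η) * N := by
  set u : G → ℝ := fun x => if A x then 1 else 0 with hu
  set v : G → ℝ := fun x => if B x then 1 else 0 with hv
  have h1 := hMix κ w hw S hS u v (fun g k hk => by simp only [hu, hA g k hk])
    (fun g k hk => by simp only [hv, hB g k hk])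
  have e1 : ∑ g, u g * v g = ((univ.filter (fun g => A g ∧ B g)).card : ℝ) := by
    rw [Finset.card_filter]
    push_cast
    refine Finset.sum_congr rfl fun g _ => ?_
    simp only [hu, hv]
    by_cases hA' : A g <;> by_cases hB' : B g <;> simp [hA', hB']
  have e2 : ∑ g, u g ^ 2 = ((univ.filter A).card : ℝ) := by
    rw [Finset.card_filter]; push_cast
    refine Finset.sum_congr rfl fun g _ => ?_
    simp only [hu]; split_ifs <;> simp
  have e3 : ∑ g, v g ^ 2 = ((univ.filter B).card : ℝ) := by
    rw [Finset.card_filter]; push_cast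
    refine Finset.sum_congr rfl fun g _ => ?_
    simp only [hv]; split_ifs <;> simp
  have e4 : ∑ g, u g = ((univ.filter A).card : ℝ) := by
    rw [Finset.card_filter]; push_cast; rfl
  have hunn : ∀ g, 0 ≤ avg (X.K κ) u g := by
    intro g
    refine div_nonneg (Finset.sum_nonneg fun k _ => ?_) (by positivity)
    simp only [hu]; split_ifs <;> simp
  have h2 : ∑ g, avg (X.K κ) u g * avg (X.K κ) v g ≤ e * ((univ.filter A).card : ℝ) := by
    calc ∑ g, avg (X.K κ) u g * avg (X.K κ) v g ≤ ∑ g, avg (X.K κ) u g * e :=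
          Finset.sum_le_sum fun g _ => mul_le_mul_of_nonneg_left (he g) (hunn g)
      _ = e * ((univ.filter A).card : ℝ) := by
          rw [← Finset.sum_mul, sum_avg, e4]; ring
  rw [e1, e2, e3] at h1
  have hs1 : Real.sqrt ((univ.filter A).card : ℝ) ≤ Real.sqrt N / Real.sqrt η := by
    rw [← Real.sqrt_div hN]; exact Real.sqrt_le_sqrt hAN
  have hs2 : Real.sqrt ((univ.filter B).card : ℝ) ≤ Real.sqrt N := Real.sqrt_le_sqrt hBN
  have hsη : 0 < Real.sqrt η := Real.sqrt_pos.mpr hη
  have h3 : lam * Real.sqrt ((univ.filter A).card : ℝ) * Real.sqrt ((univ.filter B).card : ℝ)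
      ≤ lam / Real.sqrt η * N := by
    calc lam * Real.sqrt ((univ.filter A).card : ℝ) * Real.sqrt ((univ.filter B).card : ℝ)
        ≤ lam * (Real.sqrt N / Real.sqrt η) * Real.sqrt N := by
          gcongr
      _ = lam / Real.sqrt η * (Real.sqrt N * Real.sqrt N) := by ring
      _ = lam / Real.sqrt η * N := by rw [Real.mul_self_sqrt hN]
  have h4 : e * ((univ.filter A).card : ℝ) ≤ e / η * N := by
    calc e * ((univ.filter A).card : ℝ) ≤ e * (N / η) := by gcongr
      _ = e / η * N := by ring
  calc ((univ.filter (fun g => A g ∧ B g)).card : ℝ) ≤ e / η * N + lam / Real.sqrt η * N := by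
        linarith
    _ = _ := by ring

theorem supp_mul_left (H : Subgroup G) (u : G → ZMod 2) (g k : G) (hk : k ∈ H) :
    supp H (fun x => u (g * k * x)) = supp H (fun x => u (g * x)) := by
  classical
  unfold supp
  refine Finset.card_bij (fun x _ => k * x) ?_ ?_ ?_
  · intro x hx
    simp only [mem_filter, mem_univ, true_and] at hx ⊢
    exact ⟨H.mul_mem hk hx.1, by rw [← mul_assoc]; exact hx.2⟩
  · intro a _ b _ h; exact mul_left_cancel h
  · intro b hb
    simp only [mem_filter, mem_univ, true_and] at hb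
    refine ⟨k⁻¹ * b, ?_, by simp⟩
    simp only [mem_filter, mem_univ, true_and]
    refine ⟨H.mul_mem (H.inv_mem hk) hb.1, ?_⟩
    rw [mul_assoc, mul_inv_cancel_left]; exact hb.2

/-- local weight -/
noncomputable def locW (X : CosetSystem G I) (n : ℕ) (f : Finset I → G → ZMod 2)
    (T : Finset I) (g : G) : ℕ := cnt X T (n - T.card) (loc f T g)

theorem locW_inv (X : CosetSystem G I) (n : ℕ) (f : Finset I → G → ZMod 2)
    (T : Finset I) (g k : G) (hk : k ∈ X.K T) : locW X n f T (g * k) = locW X n f T g := by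
  unfold locW cnt loc
  exact Finset.sum_congr rfl fun S _ => supp_mul_left _ _ _ _ hk

open Classical in
theorem sum_cnt_loc (X : CosetSystem G I) (T : Finset I) (m : ℕ)
    (F : Finset I → G → ZMod 2) (P : G → Prop) (hP : ∀ g, ∀ k ∈ X.K T, P (g * k) ↔ P g) :
    ∑ g ∈ univ.filter P, cnt X T m (fun S k => F S (g * k)) =
      Fintype.card (X.K T) *
        ∑ S ∈ faces T m, (univ.filter (fun g => P g ∧ F S g ≠ 0)).card := by
  unfold cnt
  rw [Finset.sum_comm, Finset.mul_sum]
  refine Finset.sum_congr rfl fun S _ => ?_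
  exact sum_supp_mul (X.K T) P hP (F S)

open Classical in
theorem cnt_eq (X : CosetSystem G I) (n : ℕ) (f : Finset I → G → ZMod 2) :
    cnt X ∅ n f = ∑ S ∈ faces (∅ : Finset I) n, (univ.filter (fun g => f S g ≠ 0)).card := by
  unfold cnt
  refine Finset.sum_congr rfl fun S _ => ?_
  rw [X.K_empty, supp_top]

theorem faces_zero (T : Finset I) : faces T 0 = {∅} := by
  ext S
  simp only [faces, mem_filter, mem_univ, true_and, mem_singleton, Finset.card_eq_zero]
  constructor
  · rintro ⟨h, _⟩; exact h
  · rintro rfl; exact ⟨rfl, Finset.disjoint_empty_right _⟩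

theorem locW_empty (X : CosetSystem G I) (n : ℕ) (f : Finset I → G → ZMod 2) (g : G) :
    locW X n f ∅ g = cnt X ∅ n f := by
  have h := locW_inv X n f ∅ 1 g (by rw [X.K_empty]; trivial)
  rw [one_mul] at h
  rw [h]
  unfold locW loc
  simp

open Classical in
theorem locW_full (X : CosetSystem G I) (n : ℕ) (f : Finset I → G → ZMod 2)
    (hf : IsCochain X ∅ n f) (τ : Finset I) (hτ : τ.card = n) (g : G) (h : f τ g ≠ 0) :
    locW X n f τ g = Fintype.card (X.K τ) := by
  unfold locW cnt
  rw [hτ, Nat.sub_self, faces_zero, Finset.sum_singleton]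
  unfold supp loc
  rw [Finset.union_empty, Fintype.card_subtype]
  congr 1
  ext k
  simp only [mem_filter, mem_univ, true_and, and_iff_left_iff_imp]
  intro hk
  rw [hf τ hτ (Finset.disjoint_empty_left _) g (by rw [X.K_empty]; trivial) k (by simpa using hk)]
  exact h

open Classical in
/-- **Small locally minimal cochains expand.** -/
theorem small_set (X : CosetSystem G I) (n : ℕ) (β lam ε : ℝ) (η : ℕ → ℝ)
    (hβ : 0 ≤ β) (hlam : 0 ≤ lam) (hη : ∀ r, 0 < η r) (hηn : η n ≤ 1) (hε0 : 0 ≤ ε)
    (hLE : ∀ T : Finset I, T.Nonempty → T.card ≤ n → LinkExp X T (n - T.card) β)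
    (hMix : Mix X lam)
    (hε : ∀ r, r < n → η r / η (r + 1) + lam / Real.sqrt (η (r + 1)) ≤ ε)
    (f : Finset I → G → ZMod 2) (hf : IsCochain X ∅ n f) (hmin : LocMin X n f)
    (hsmall : (cnt X ∅ n f : ℝ) < η 0 * Fintype.card G) :
    β * cnt X ∅ n f ≤ 2 ^ Fintype.card I * cnt X ∅ (n + 1) (cob f) +
      (Fintype.card I * 4 ^ Fintype.card I) * ε * cnt X ∅ n f := by
  set N : ℕ := cnt X ∅ n f with hN
  -- heavy faces
  obtain ⟨heavy, hheavy⟩ : ∃ heavy : Finset I → G → Prop, ∀ T g, heavy T g ↔
    η T.card * (Fintype.card (X.K T) : ℝ) ≤ (locW X n f T g : ℝ) := ⟨_, fun _ _ => Iff.rfl⟩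
  have heavy_inv : ∀ T T' : Finset I, T ⊆ T' → ∀ g, ∀ k ∈ X.K T', heavy T (g * k) ↔ heavy T g := by
    intro T T' hTT g k hk
    rw [hheavy, hheavy, locW_inv X n f T g k (X.K_mono hTT hk)]
  obtain ⟨Hv, hHv⟩ : ∃ Hv : Finset I → G → Prop, ∀ T g, Hv T g ↔
    (heavy T g ∧ ∀ w ∈ T, ¬ heavy (T.erase w) g) := ⟨_, fun _ _ => Iff.rfl⟩
  have Hv_inv : ∀ T : Finset I, ∀ g, ∀ k ∈ X.K T, Hv T (g * k) ↔ Hv T g := by
    intro T g k hk
    rw [hHv, hHv, heavy_inv T T subset_rfl g k hk]
    refine and_congr Iff.rfl ?_
    refine forall₂_congr fun w _ => ?_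
    rw [heavy_inv (T.erase w) T (Finset.erase_subset _ _) g k hk]
  have not_heavy_empty : ∀ g, ¬ heavy ∅ g := by
    intro g hg
    rw [hheavy, locW_empty] at hg
    have hc : (Fintype.card (X.K ∅) : ℝ) = Fintype.card G := by
      have : Fintype.card (X.K ∅) = Fintype.card G := by
        rw [Fintype.card_congr (Equiv.subtypeEquivRight (q := fun _ => True) (fun x => by
          rw [X.K_empty]; simp))]
        simp [Fintype.card_subtype]
      exact_mod_cast this
    rw [Finset.card_empty, hc] at hg
    linarith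
  let 𝒯 : Finset (Finset I) := univ.filter (fun T => T.Nonempty ∧ T.card ≤ n)
  let Q : Finset (Σ _ : Finset I, Finset I) := 𝒯.sigma (fun T => faces T (n - T.card))
  -- step 1
  have key1 : N ≤ ∑ p ∈ Q, (univ.filter (fun g => Hv p.1 g ∧ f (p.1 ∪ p.2) g ≠ 0)).card := by
    have e1 : N = ∑ g : G, ((faces (∅ : Finset I) n).filter (fun τ => f τ g ≠ 0)).card := by
      rw [hN, cnt_eq]
      simp_rw [Finset.card_filter]
      exact Finset.sum_comm
    have e2 : ∑ p ∈ Q, (univ.filter (fun g => Hv p.1 g ∧ f (p.1 ∪ p.2) g ≠ 0)).card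
        = ∑ g : G, (Q.filter (fun p => Hv p.1 g ∧ f (p.1 ∪ p.2) g ≠ 0)).card := by
      simp_rw [Finset.card_filter]
      exact Finset.sum_comm
    rw [e1, e2]
    refine Finset.sum_le_sum fun g _ => ?_
    have hex : ∀ τ ∈ (faces (∅ : Finset I) n).filter (fun τ => f τ g ≠ 0),
        ∃ T ∈ 𝒯, T ⊆ τ ∧ Hv T g := by
      intro τ hτ
      simp only [faces, mem_filter, mem_univ, true_and] at hτ
      obtain ⟨⟨hτn, -⟩, hfτ⟩ := hτ
      have hτh : heavy τ g := by
        rw [hheavy, locW_full X n f hf τ hτn g hfτ, hτn]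
        have : (0 : ℝ) ≤ Fintype.card (X.K τ) := by positivity
        nlinarith
      obtain ⟨T, hT, hTmin⟩ := Finset.exists_min_image (τ.powerset.filter (fun T => heavy T g))
        Finset.card ⟨τ, by simp [hτh]⟩
      simp only [mem_filter, mem_powerset] at hT hTmin
      refine ⟨T, ?_, hT.1, (hHv T g).mpr ⟨hT.2, ?_⟩⟩
      · simp only [𝒯, mem_filter, mem_univ, true_and]
        refine ⟨?_, hτn ▸ Finset.card_le_card hT.1⟩
        rw [Finset.nonempty_iff_ne_empty]
        rintro rfl
        exact not_heavy_empty g hT.2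
      · intro w hw hh
        have := hTmin (T.erase w) ⟨(Finset.erase_subset _ _).trans hT.1, hh⟩
        rw [Finset.card_erase_of_mem hw] at this
        have := Finset.card_pos.mpr ⟨w, hw⟩
        omega
    choose! t ht using hex
    refine Finset.card_le_card_of_injOn (fun τ => ⟨t τ, τ \ t τ⟩) ?_ ?_
    · intro τ hτ
      have hτ' : τ ∈ (faces (∅ : Finset I) n).filter (fun τ => f τ g ≠ 0) := by simpa using hτ
      obtain ⟨h1, h2, h3⟩ := ht τ hτ'
      simp only [faces, mem_filter, mem_univ, true_and] at hτ'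
      simp only [Q, coe_filter, Finset.mem_sigma, Set.mem_ofPred_eq, faces, mem_filter, mem_univ,
        true_and]
      refine ⟨⟨h1, ?_, Finset.disjoint_sdiff⟩, h3, ?_⟩
      · rw [Finset.card_sdiff_of_subset h2, hτ'.1.1]
      · rw [Finset.union_sdiff_of_subset h2]; exact hτ'.2
    · intro τ hτ τ' hτ' e
      have h2 := (ht τ (by simpa using hτ)).2.1
      have h2' := (ht τ' (by simpa using hτ')).2.1
      simp only [Sigma.mk.injEq, heq_eq_eq] at e
      rw [← Finset.union_sdiff_of_subset h2, ← Finset.union_sdiff_of_subset h2', e.2, e.1]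
  -- step 2 : local expansion
  have key2 : ∀ T ∈ 𝒯, β * (∑ S ∈ faces T (n - T.card),
        ((univ.filter (fun g => Hv T g ∧ f (T ∪ S) g ≠ 0)).card : ℝ)) ≤
      ∑ S ∈ faces T (n - T.card + 1),
        ((univ.filter (fun g => Hv T g ∧ (∑ s ∈ S, f (T ∪ S.erase s) g) ≠ 0)).card : ℝ) := by
    intro T hT
    simp only [𝒯, mem_filter, mem_univ, true_and] at hT
    have hpos : (0 : ℝ) < Fintype.card (X.K T) := by exact_mod_cast Fintype.card_pos
    have hpt : ∀ g, β * (locW X n f T g : ℝ) ≤
        (cnt X T (n - T.card + 1) (cob (loc f T g)) : ℝ) := by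
      intro g
      obtain ⟨ψ, hψ, hle⟩ := hLE T hT.1 hT.2 (loc f T g) (hf.loc T hT.2 g)
      have := hmin T hT.1 hT.2 g ψ hψ
      have h' : (locW X n f T g : ℝ) ≤ (cnt X T (n - T.card) (loc f T g + cob ψ) : ℝ) := by
        exact_mod_cast this
      exact (mul_le_mul_of_nonneg_left h' hβ).trans hle
    have hs1 := sum_cnt_loc X T (n - T.card) (fun S => f (T ∪ S)) (Hv T) (Hv_inv T)
    have hs2 := sum_cnt_loc X T (n - T.card + 1) (fun S x => ∑ s ∈ S, f (T ∪ S.erase s) x)
      (Hv T) (Hv_inv T)
    have hsum : β * (∑ g ∈ univ.filter (Hv T), (locW X n f T g : ℝ)) ≤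
        ∑ g ∈ univ.filter (Hv T), (cnt X T (n - T.card + 1) (cob (loc f T g)) : ℝ) := by
      rw [Finset.mul_sum]
      exact Finset.sum_le_sum fun g _ => hpt g
    have e1 : (∑ g ∈ univ.filter (Hv T), (locW X n f T g : ℝ)) =
        Fintype.card (X.K T) * ∑ S ∈ faces T (n - T.card),
          ((univ.filter (fun g => Hv T g ∧ f (T ∪ S) g ≠ 0)).card : ℝ) := by
      have := congrArg (Nat.cast : ℕ → ℝ) hs1
      push_cast at this
      exact this
    have e2 : (∑ g ∈ univ.filter (Hv T), (cnt X T (n - T.card + 1) (cob (loc f T g)) : ℝ)) =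
        Fintype.card (X.K T) * ∑ S ∈ faces T (n - T.card + 1),
          ((univ.filter (fun g => Hv T g ∧ (∑ s ∈ S, f (T ∪ S.erase s) g) ≠ 0)).card : ℝ) := by
      have := congrArg (Nat.cast : ℕ → ℝ) hs2
      push_cast at this
      exact this
    rw [e1, e2] at hsum
    have : (Fintype.card (X.K T) : ℝ) * (β * (∑ S ∈ faces T (n - T.card),
        ((univ.filter (fun g => Hv T g ∧ f (T ∪ S) g ≠ 0)).card : ℝ))) ≤
        Fintype.card (X.K T) * ∑ S ∈ faces T (n - T.card + 1),
          ((univ.filter (fun g => Hv T g ∧ (∑ s ∈ S, f (T ∪ S.erase s) g) ≠ 0)).card : ℝ) := by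
      linarith
    exact le_of_mul_le_mul_left this hpos
  -- step 3 : the error terms
  have key3 : ∀ T ∈ 𝒯, ∀ S ∈ faces T (n - T.card + 1), ∀ w ∈ T,
      ((univ.filter (fun g => Hv T g ∧ f (T.erase w ∪ S) g ≠ 0)).card : ℝ) ≤ ε * N := by
    intro T hT S hS w hw
    simp only [𝒯, mem_filter, mem_univ, true_and] at hT
    simp only [faces, mem_filter, mem_univ, true_and] at hS
    have hTc : 0 < T.card := Finset.card_pos.mpr ⟨w, hw⟩
    set κ := T.erase w with hκ
    have hκT : insert w κ = T := Finset.insert_erase hw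
    have hκc : κ.card = T.card - 1 := Finset.card_erase_of_mem hw
    have hκS : (κ ∪ S).card = n := by
      rw [Finset.card_union_of_disjoint (hS.2.mono_left (Finset.erase_subset _ _)), hκc, hS.1]
      omega
    obtain ⟨B, hB⟩ : ∃ B : G → Prop, ∀ g, B g ↔ (¬ heavy κ g ∧ f (κ ∪ S) g ≠ 0) :=
      ⟨_, fun _ => Iff.rfl⟩
    have hBinv : ∀ g, ∀ k ∈ X.K (κ ∪ S), B (g * k) ↔ B g := by
      intro g k hk
      rw [hB, hB, heavy_inv κ (κ ∪ S) Finset.subset_union_left g k hk,
        hf (κ ∪ S) hκS (Finset.disjoint_empty_left _) g (by rw [X.K_empty]; trivial) k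
          (by simpa using hk)]
    have hsub : univ.filter (fun g => Hv T g ∧ f (κ ∪ S) g ≠ 0) ⊆
        univ.filter (fun g => Hv T g ∧ B g) := by
      intro g hg
      simp only [mem_filter, mem_univ, true_and, hB] at hg ⊢
      exact ⟨hg.1, ((hHv T g).mp hg.1).2 w hw, hg.2⟩
    have hηr : 0 < η T.card := hη _
    have hNn : (0 : ℝ) ≤ N := by positivity
    -- cardinality of the heavy set
    have hA : ((univ.filter (Hv T)).card : ℝ) ≤ N / η T.card := by
      rw [le_div_iff₀ hηr]
      have hpos : (0 : ℝ) < Fintype.card (X.K T) := by exact_mod_cast Fintype.card_pos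
      have hs1 := sum_cnt_loc X T (n - T.card) (fun S => f (T ∪ S)) (Hv T) (Hv_inv T)
      have h1 : ((univ.filter (Hv T)).card : ℝ) * (η T.card * Fintype.card (X.K T)) ≤
          ∑ g ∈ univ.filter (Hv T), (locW X n f T g : ℝ) := by
        rw [← nsmul_eq_mul]
        refine Finset.card_nsmul_le_sum _ _ _ fun g hg => ?_
        simp only [mem_filter, mem_univ, true_and] at hg
        exact (hheavy T g).mp ((hHv T g).mp hg).1
      have e1 : (∑ g ∈ univ.filter (Hv T), (locW X n f T g : ℝ)) =
          Fintype.card (X.K T) * ∑ S ∈ faces T (n - T.card),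
            ((univ.filter (fun g => Hv T g ∧ f (T ∪ S) g ≠ 0)).card : ℝ) := by
        have := congrArg (Nat.cast : ℕ → ℝ) hs1
        push_cast at this
        exact this
      have h2 : ∑ S ∈ faces T (n - T.card),
            ((univ.filter (fun g => Hv T g ∧ f (T ∪ S) g ≠ 0)).card : ℝ) ≤ N := by
        have : ∑ S ∈ faces T (n - T.card),
            (univ.filter (fun g => Hv T g ∧ f (T ∪ S) g ≠ 0)).card ≤ N := by
          rw [hN, cnt_eq]
          calc ∑ S ∈ faces T (n - T.card), (univ.filter (fun g => Hv T g ∧ f (T ∪ S) g ≠ 0)).card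
              ≤ ∑ S ∈ faces T (n - T.card), (univ.filter (fun g => f (T ∪ S) g ≠ 0)).card := by
                refine Finset.sum_le_sum fun S _ => Finset.card_le_card ?_
                intro g hg
                simp only [mem_filter, mem_univ, true_and] at hg ⊢
                exact hg.2
            _ = ∑ R ∈ (faces T (n - T.card)).image (fun S => T ∪ S),
                (univ.filter (fun g => f R g ≠ 0)).card := by
                rw [Finset.sum_image]
                intro a ha b hb hab
                simp only [faces, coe_filter, mem_univ, true_and, Set.mem_ofPred_eq] at ha hb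
                have : (T ∪ a) \ T = (T ∪ b) \ T := by
                  simp only at hab; rw [hab]
                rwa [Finset.union_sdiff_cancel_left ha.2, Finset.union_sdiff_cancel_left hb.2]
                  at this
            _ ≤ _ := by
                refine Finset.sum_le_sum_of_subset ?_
                intro R hR
                simp only [mem_image, faces, mem_filter, mem_univ, true_and] at hR ⊢
                obtain ⟨a, ha, rfl⟩ := hR
                refine ⟨?_, Finset.disjoint_empty_left _⟩
                rw [Finset.card_union_of_disjoint ha.2, ha.1]; omega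
        exact_mod_cast this
      rw [e1] at h1
      have h3 : ((univ.filter (Hv T)).card : ℝ) * η T.card * Fintype.card (X.K T) ≤
          N * Fintype.card (X.K T) := by nlinarith
      exact le_of_mul_le_mul_right h3 hpos
    have hBc : ((univ.filter B).card : ℝ) ≤ N := by
      have : (univ.filter B).card ≤ N := by
        rw [hN, cnt_eq]
        calc (univ.filter B).card ≤ (univ.filter (fun g => f (κ ∪ S) g ≠ 0)).card := by
              refine Finset.card_le_card ?_
              intro g hg
              simp only [mem_filter, mem_univ, true_and, hB] at hg ⊢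
              exact hg.2
          _ ≤ _ := by
              refine Finset.single_le_sum (f := fun S => (univ.filter (fun g => f S g ≠ 0)).card)
                (fun _ _ => Nat.zero_le _) ?_
              simp only [faces, mem_filter, mem_univ, true_and]
              exact ⟨hκS, Finset.disjoint_empty_left _⟩
      exact_mod_cast this
    have hav : ∀ g, avg (X.K κ) (fun x => if B x then 1 else 0) g ≤ η κ.card := by
      intro g
      have hpos : (0 : ℝ) < Fintype.card (X.K κ) := by exact_mod_cast Fintype.card_pos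
      unfold avg
      rw [div_le_iff₀ hpos]
      by_cases hh : heavy κ g
      · have : ∀ k : X.K κ, (if B (g * (k : G)) then (1 : ℝ) else 0) = 0 := by
          intro k
          rw [if_neg]
          rw [hB, heavy_inv κ κ subset_rfl g k k.2]
          tauto
        rw [Finset.sum_congr rfl (fun k _ => this k)]
        simp only [sum_const_zero]
        have := hη κ.card
        positivity
      · have h1 : ∑ k : X.K κ, (if B (g * (k : G)) then (1 : ℝ) else 0) ≤
            (locW X n f κ g : ℝ) := by
          have h2 : ∑ k : X.K κ, (if B (g * (k : G)) then (1 : ℝ) else 0) ≤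
              (supp (X.K κ) (fun x => f (κ ∪ S) (g * x)) : ℝ) := by
            unfold supp
            rw [← Finset.sum_subtype (univ.filter (fun k => k ∈ X.K κ)) (by simp)
              (fun k => if B (g * k) then (1 : ℝ) else 0), Finset.sum_boole,
              Finset.filter_filter]
            have : (univ.filter (fun k => k ∈ X.K κ ∧ B (g * k))).card ≤
                (univ.filter (fun k => k ∈ X.K κ ∧ f (κ ∪ S) (g * k) ≠ 0)).card := by
              refine Finset.card_le_card ?_
              intro k hk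
              simp only [mem_filter, mem_univ, true_and, hB] at hk ⊢
              exact ⟨hk.1, hk.2.2⟩
            exact_mod_cast this
          refine h2.trans ?_
          have h3 : supp (X.K κ) (fun x => f (κ ∪ S) (g * x)) ≤ locW X n f κ g := by
            unfold locW cnt loc
            refine Finset.single_le_sum (f := fun S => supp (X.K κ) (fun k => f (κ ∪ S) (g * k)))
                (fun _ _ => Nat.zero_le _) ?_
            simp only [faces, mem_filter, mem_univ, true_and]
            refine ⟨?_, hS.2.mono_left (Finset.erase_subset _ _)⟩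
            rw [hS.1]; omega
          exact_mod_cast h3
        have h4 : (locW X n f κ g : ℝ) < η κ.card * (Fintype.card (X.K κ) : ℝ) := by
          simpa only [hheavy, not_le] using hh
        linarith
    have hmain := err_bound X hlam hMix κ w (Finset.notMem_erase _ _) S (hκT ▸ hS.2) (Hv T) B
      (hκT ▸ Hv_inv T) hBinv (η κ.card) hav N (η T.card) hηr hNn (hη _).le hA hBc
    have hεr := hε κ.card (by omega)
    have hκ1 : κ.card + 1 = T.card := by omega
    rw [hκ1] at hεr
    calc ((univ.filter (fun g => Hv T g ∧ f (κ ∪ S) g ≠ 0)).card : ℝ)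
        ≤ ((univ.filter (fun g => Hv T g ∧ B g)).card : ℝ) := by
          exact_mod_cast Finset.card_le_card hsub
      _ ≤ (η κ.card / η T.card + lam / Real.sqrt (η T.card)) * N := hmain
      _ ≤ ε * N := mul_le_mul_of_nonneg_right hεr hNn
  -- step 4 : assemble
  have key4 : ∀ T ∈ 𝒯, ∀ S ∈ faces T (n - T.card + 1),
      ((univ.filter (fun g => Hv T g ∧ (∑ s ∈ S, f (T ∪ S.erase s) g) ≠ 0)).card : ℝ) ≤
        ((univ.filter (fun g => cob f (T ∪ S) g ≠ 0)).card : ℝ) + Fintype.card I * (ε * N) := by
    intro T hT S hS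
    have hS' := hS
    simp only [faces, mem_filter, mem_univ, true_and] at hS'
    have hcob : ∀ g, (∑ s ∈ S, f (T ∪ S.erase s) g) =
        cob f (T ∪ S) g - ∑ w ∈ T, f (T.erase w ∪ S) g := by
      intro g
      unfold cob
      rw [Finset.sum_union hS'.2]
      have a1 : ∑ x ∈ T, f ((T ∪ S).erase x) g = ∑ w ∈ T, f (T.erase w ∪ S) g := by
        refine Finset.sum_congr rfl fun x hx => ?_
        rw [Finset.erase_union_distrib, Finset.erase_eq_of_notMem
          (Finset.disjoint_left.mp hS'.2 hx)]
      have a2 : ∑ x ∈ S, f ((T ∪ S).erase x) g = ∑ s ∈ S, f (T ∪ S.erase s) g := by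
        refine Finset.sum_congr rfl fun x hx => ?_
        rw [Finset.erase_union_distrib, Finset.erase_eq_of_notMem
          (Finset.disjoint_right.mp hS'.2 hx)]
      rw [a1, a2]; ring
    have hsub : univ.filter (fun g => Hv T g ∧ (∑ s ∈ S, f (T ∪ S.erase s) g) ≠ 0) ⊆
        univ.filter (fun g => cob f (T ∪ S) g ≠ 0) ∪
          T.biUnion (fun w => univ.filter (fun g => Hv T g ∧ f (T.erase w ∪ S) g ≠ 0)) := by
      intro g hg
      simp only [mem_filter, mem_univ, true_and, mem_union, mem_biUnion] at hg ⊢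
      by_contra hcon
      push Not at hcon
      apply hg.2
      rw [hcob, hcon.1, Finset.sum_eq_zero (fun w hw => hcon.2 w hw hg.1)]
      simp
    have hle : (univ.filter (fun g => Hv T g ∧ (∑ s ∈ S, f (T ∪ S.erase s) g) ≠ 0)).card ≤
        (univ.filter (fun g => cob f (T ∪ S) g ≠ 0)).card +
          ∑ w ∈ T, (univ.filter (fun g => Hv T g ∧ f (T.erase w ∪ S) g ≠ 0)).card :=
      (Finset.card_le_card hsub).trans ((Finset.card_union_le _ _).trans
        (Nat.add_le_add_left Finset.card_biUnion_le _))
    have hle' : ((univ.filter (fun g => Hv T g ∧ (∑ s ∈ S, f (T ∪ S.erase s) g) ≠ 0)).card : ℝ) ≤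
        ((univ.filter (fun g => cob f (T ∪ S) g ≠ 0)).card : ℝ) +
          ∑ w ∈ T, ((univ.filter (fun g => Hv T g ∧ f (T.erase w ∪ S) g ≠ 0)).card : ℝ) := by
      exact_mod_cast hle
    refine hle'.trans (add_le_add_right ?_ _)
    calc ∑ w ∈ T, ((univ.filter (fun g => Hv T g ∧ f (T.erase w ∪ S) g ≠ 0)).card : ℝ)
        ≤ ∑ w ∈ T, ε * N := Finset.sum_le_sum fun w hw => key3 T hT S hS w hw
      _ = T.card * (ε * N) := by simp
      _ ≤ Fintype.card I * (ε * N) := by
          refine mul_le_mul_of_nonneg_right ?_ (by positivity)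
          exact_mod_cast Finset.card_le_univ T
  -- final computation
  have hfin1 : β * (N : ℝ) ≤ ∑ T ∈ 𝒯, ∑ S ∈ faces T (n - T.card + 1),
      ((univ.filter (fun g => Hv T g ∧ (∑ s ∈ S, f (T ∪ S.erase s) g) ≠ 0)).card : ℝ) := by
    have k1 : (N : ℝ) ≤ ∑ T ∈ 𝒯, ∑ S ∈ faces T (n - T.card),
        ((univ.filter (fun g => Hv T g ∧ f (T ∪ S) g ≠ 0)).card : ℝ) := by
      have := key1
      rw [Finset.sum_sigma] at this
      exact_mod_cast this
    calc β * (N : ℝ) ≤ β * ∑ T ∈ 𝒯, ∑ S ∈ faces T (n - T.card),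
        ((univ.filter (fun g => Hv T g ∧ f (T ∪ S) g ≠ 0)).card : ℝ) :=
          mul_le_mul_of_nonneg_left k1 hβ
      _ = ∑ T ∈ 𝒯, β * ∑ S ∈ faces T (n - T.card),
        ((univ.filter (fun g => Hv T g ∧ f (T ∪ S) g ≠ 0)).card : ℝ) := by rw [Finset.mul_sum]
      _ ≤ _ := Finset.sum_le_sum key2
  have hcard𝒯 : (𝒯.card : ℝ) ≤ 2 ^ Fintype.card I := by
    have : 𝒯.card ≤ 2 ^ Fintype.card I := by
      calc 𝒯.card ≤ (univ : Finset (Finset I)).card := Finset.card_le_card (Finset.subset_univ _)
        _ = _ := by simp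
    exact_mod_cast this
  have hcardf : ∀ T : Finset I, ∀ m, ((faces T m).card : ℝ) ≤ 2 ^ Fintype.card I := by
    intro T m
    have : (faces T m).card ≤ 2 ^ Fintype.card I := by
      calc (faces T m).card ≤ (univ : Finset (Finset I)).card :=
            Finset.card_le_card (Finset.subset_univ _)
        _ = _ := by simp
    exact_mod_cast this
  have hfin2 : ∀ T ∈ 𝒯, ∑ S ∈ faces T (n - T.card + 1),
      ((univ.filter (fun g => Hv T g ∧ (∑ s ∈ S, f (T ∪ S.erase s) g) ≠ 0)).card : ℝ) ≤
      cnt X ∅ (n + 1) (cob f) + 2 ^ Fintype.card I * (Fintype.card I * (ε * N)) := by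
    intro T hT
    have hT' := hT
    simp only [𝒯, mem_filter, mem_univ, true_and] at hT'
    calc ∑ S ∈ faces T (n - T.card + 1),
      ((univ.filter (fun g => Hv T g ∧ (∑ s ∈ S, f (T ∪ S.erase s) g) ≠ 0)).card : ℝ)
        ≤ ∑ S ∈ faces T (n - T.card + 1),
          (((univ.filter (fun g => cob f (T ∪ S) g ≠ 0)).card : ℝ) +
            Fintype.card I * (ε * N)) := Finset.sum_le_sum (key4 T hT)
      _ = ∑ S ∈ faces T (n - T.card + 1), ((univ.filter (fun g => cob f (T ∪ S) g ≠ 0)).card : ℝ)
          + (faces T (n - T.card + 1)).card * (Fintype.card I * (ε * N)) := by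
          rw [Finset.sum_add_distrib]; simp
      _ ≤ _ := by
          refine add_le_add ?_ (mul_le_mul_of_nonneg_right (hcardf _ _) (by positivity))
          have : ∑ S ∈ faces T (n - T.card + 1), (univ.filter (fun g => cob f (T ∪ S) g ≠ 0)).card
              ≤ cnt X ∅ (n + 1) (cob f) := by
            rw [cnt_eq]
            calc _ = ∑ R ∈ (faces T (n - T.card + 1)).image (fun S => T ∪ S),
                (univ.filter (fun g => cob f R g ≠ 0)).card := by
                  rw [Finset.sum_image]
                  intro a ha b hb hab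
                  simp only [faces, coe_filter, mem_univ, true_and, Set.mem_ofPred_eq] at ha hb
                  have : (T ∪ a) \ T = (T ∪ b) \ T := by
                    simp only at hab; rw [hab]
                  rwa [Finset.union_sdiff_cancel_left ha.2, Finset.union_sdiff_cancel_left hb.2]
                    at this
              _ ≤ _ := by
                  refine Finset.sum_le_sum_of_subset ?_
                  intro R hR
                  simp only [mem_image, faces, mem_filter, mem_univ, true_and] at hR ⊢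
                  obtain ⟨a, ha, rfl⟩ := hR
                  refine ⟨?_, Finset.disjoint_empty_left _⟩
                  rw [Finset.card_union_of_disjoint ha.2, ha.1]; omega
          exact_mod_cast this
  calc β * (N : ℝ) ≤ _ := hfin1
    _ ≤ ∑ T ∈ 𝒯, ((cnt X ∅ (n + 1) (cob f) : ℝ) +
        2 ^ Fintype.card I * (Fintype.card I * (ε * N))) := Finset.sum_le_sum hfin2
    _ = 𝒯.card * ((cnt X ∅ (n + 1) (cob f) : ℝ) +
        2 ^ Fintype.card I * (Fintype.card I * (ε * N))) := by
        rw [Finset.sum_const, nsmul_eq_mul]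
    _ ≤ 2 ^ Fintype.card I * ((cnt X ∅ (n + 1) (cob f) : ℝ) +
        2 ^ Fintype.card I * (Fintype.card I * (ε * N))) :=
        mul_le_mul_of_nonneg_right hcard𝒯 (by positivity)
    _ = 2 ^ Fintype.card I * cnt X ∅ (n + 1) (cob f) +
      (Fintype.card I * 4 ^ Fintype.card I) * ε * N := by
        have : (4 : ℝ) ^ Fintype.card I = 2 ^ Fintype.card I * 2 ^ Fintype.card I := by
          rw [← mul_pow]; norm_num
        rw [this]; ring

end Crest.Agent.R066.LG
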