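import Crest.Agent.R066.Chain
import Crest.Agent.R066.Morse
import Crest.Agent.R066.LatApi

-- ▼ part R066/ListPrism
section

/-!
Row 66: ordered chains (lists), the prism operator of two maps, and the comparison with the unordered
(Finset) chains.  Used for the acyclicity of the building.
-/

set_option autoImplicit false
set_option linter.unusedSectionVars false
set_option linter.unusedVariables false
open scoped BigOperators

namespace Crest.Agent.R066.LP

variable {X : Type*}

/-- list chains -/
abbrev LCh (X : Type*) := List X →₀ ZMod 2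

/-- prepend a vertex -/
noncomputable def cns (x : X) : LCh X →ₗ[ZMod 2] LCh X :=
  Finsupp.lmapDomain (ZMod 2) (ZMod 2) (List.cons x)

theorem cns_single (x : X) (l : List X) (c : ZMod 2) :
    cns x (Finsupp.single l c) = Finsupp.single (x :: l) c := by
  simp [cns]

/-- boundary of a list -/
noncomputable def lb : List X → LCh X
  | [] => 0
  | x :: l => Finsupp.single l 1 + cns x (lb l)

/-- boundary -/
noncomputable def lbd : LCh X →ₗ[ZMod 2] LCh X := Finsupp.linearCombination (ZMod 2) lb

theorem lbd_single (l : List X) : lbd (Finsupp.single l 1) = lb l := by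
  unfold lbd
  rw [Finsupp.linearCombination_single, one_smul]

theorem l_add_self (c : LCh X) : c + c = 0 := by
  ext σ
  exact CharTwo.add_self_eq_zero _

theorem l_cancel (a b : LCh X) : a + b + b = a := by
  rw [add_assoc, l_add_self, add_zero]

theorem l_hom_ext {M : Type*} [AddCommMonoid M] [Module (ZMod 2) M] {f g : LCh X →ₗ[ZMod 2] M}
    (h : ∀ σ, f (Finsupp.single σ 1) = g (Finsupp.single σ 1)) : f = g := by
  apply Finsupp.lhom_ext'
  intro σ
  apply LinearMap.ext_ring
  exact h σ

theorem lbd_cns (x : X) (c : LCh X) : lbd (cns x c) = c + cns x (lbd c) := by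
  have h : lbd.comp (cns x) = LinearMap.id + (cns x).comp lbd := by
    apply l_hom_ext
    intro l
    simp only [LinearMap.comp_apply, LinearMap.add_apply, LinearMap.id_apply, cns_single, lbd_single]
    rfl
  exact LinearMap.congr_fun h c

/-- induced map -/
noncomputable def mp (f : X → X) : LCh X →ₗ[ZMod 2] LCh X :=
  Finsupp.lmapDomain (ZMod 2) (ZMod 2) (List.map f)

theorem mp_single (f : X → X) (l : List X) (c : ZMod 2) :
    mp f (Finsupp.single l c) = Finsupp.single (l.map f) c := by
  simp [mp]

theorem mp_cns (f : X → X) (x : X) (c : LCh X) : mp f (cns x c) = cns (f x) (mp f c) := by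
  have h : (mp f).comp (cns x) = (cns (f x)).comp (mp f) := by
    apply l_hom_ext
    intro l
    simp only [LinearMap.comp_apply, cns_single, mp_single, List.map_cons]
  exact LinearMap.congr_fun h c

theorem lbd_mp (f : X → X) (c : LCh X) : lbd (mp f c) = mp f (lbd c) := by
  have h : lbd.comp (mp f) = (mp f).comp lbd := by
    apply l_hom_ext
    intro l
    simp only [LinearMap.comp_apply, mp_single, lbd_single]
    induction l with
    | nil => simp [lb]
    | cons x l ih =>
      rw [List.map_cons, lb, lb, map_add, mp_single, mp_cns, ih]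
  exact LinearMap.congr_fun h c

/-- prism of a list -/
noncomputable def pr (f g : X → X) : List X → LCh X
  | [] => 0
  | x :: l => Finsupp.single (f x :: g x :: l.map g) 1 + cns (f x) (pr f g l)

/-- prism operator -/
noncomputable def prL (f g : X → X) : LCh X →ₗ[ZMod 2] LCh X :=
  Finsupp.linearCombination (ZMod 2) (pr f g)

theorem prL_single (f g : X → X) (l : List X) : prL f g (Finsupp.single l 1) = pr f g l := by
  unfold prL
  rw [Finsupp.linearCombination_single, one_smul]

theorem prL_cns (f g : X → X) (x : X) (c : LCh X) :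
    prL f g (cns x c) = cns (f x) (cns (g x) (mp g c)) + cns (f x) (prL f g c) := by
  have h : (prL f g).comp (cns x) = (cns (f x)).comp ((cns (g x)).comp (mp g)) +
      (cns (f x)).comp (prL f g) := by
    apply l_hom_ext
    intro l
    simp only [LinearMap.comp_apply, LinearMap.add_apply, cns_single, mp_single, prL_single]
    rfl
  exact LinearMap.congr_fun h c

theorem prism (f g : X → X) (c : LCh X) :
    lbd (prL f g c) + prL f g (lbd c) = mp f c + mp g c := by
  have h : lbd.comp (prL f g) + (prL f g).comp lbd = mp f + mp g := by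
    apply l_hom_ext
    intro l
    simp only [LinearMap.comp_apply, LinearMap.add_apply, mp_single, prL_single, lbd_single]
    induction l with
    | nil => simp [pr, lb, l_add_self]
    | cons x l ih =>
      have e1 : lbd (pr f g (x :: l)) = Finsupp.single (g x :: l.map g) 1 +
          (Finsupp.single (f x :: l.map g) 1 + cns (f x) (cns (g x) (mp g (lb l)))) +
          (pr f g l + cns (f x) (lbd (pr f g l))) := by
        rw [pr, map_add, lbd_cns, ← cns_single, ← cns_single, lbd_cns, lbd_cns, map_add, cns_single,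
          cns_single, ← mp_single, lbd_mp, lbd_single]
      have e2 : prL f g (lb (x :: l)) = pr f g l + (cns (f x) (cns (g x) (mp g (lb l))) +
          cns (f x) (prL f g (lb l))) := by
        rw [lb, map_add, prL_single, prL_cns]
      have e3 : cns (f x) (lbd (pr f g l)) + cns (f x) (prL f g (lb l)) =
          Finsupp.single (f x :: l.map f) 1 + Finsupp.single (f x :: l.map g) 1 := by
        rw [← map_add, ih, map_add, cns_single, cns_single]
      rw [e1, e2, List.map_cons, List.map_cons]
      calc _ = (Finsupp.single (g x :: l.map g) (1 : ZMod 2) + Finsupp.single (f x :: l.map g) 1 +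
            (cns (f x) (lbd (pr f g l)) + cns (f x) (prL f g (lb l)))) +
            (cns (f x) (cns (g x) (mp g (lb l))) + cns (f x) (cns (g x) (mp g (lb l)))) +
            (pr f g l + pr f g l) := by abel
        _ = _ := by
          rw [e3, l_add_self, l_add_self, add_zero, add_zero]
          calc _ = Finsupp.single (f x :: l.map f) 1 + Finsupp.single (g x :: l.map g) 1 +
                (Finsupp.single (f x :: l.map g) 1 + Finsupp.single (f x :: l.map g) (1 : ZMod 2)) := by
                abel
            _ = _ := by rw [l_add_self, add_zero]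
  exact LinearMap.congr_fun h c

/-! ### supports -/

/-- admissible lists -/
def Adm (P : X → Prop) (R : X → X → Prop) (l : List X) : Prop := (∀ x ∈ l, P x) ∧ l.Pairwise R

theorem mem_support_cns {x : X} {c : LCh X} {m : List X} (h : m ∈ (cns x c).support) :
    ∃ l ∈ c.support, m = x :: l := by
  classical
  unfold cns at h
  rw [Finsupp.lmapDomain_apply] at h
  obtain ⟨l, hl, rfl⟩ := Finset.mem_image.1 (Finsupp.mapDomain_support h)
  exact ⟨l, hl, rfl⟩

theorem mem_support_mp {f : X → X} {c : LCh X} {m : List X} (h : m ∈ (mp f c).support) :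
    ∃ l ∈ c.support, m = l.map f := by
  classical
  unfold mp at h
  rw [Finsupp.lmapDomain_apply] at h
  obtain ⟨l, hl, rfl⟩ := Finset.mem_image.1 (Finsupp.mapDomain_support h)
  exact ⟨l, hl, rfl⟩

theorem pr_adm {P : X → Prop} {R : X → X → Prop} {f g : X → X}
    (hPf : ∀ x, P x → P (f x)) (hPg : ∀ x, P x → P (g x))
    (hff : ∀ x y, P x → P y → R x y → R (f x) (f y))
    (hfg : ∀ x y, P x → P y → R x y → R (f x) (g y))
    (hgg : ∀ x y, P x → P y → R x y → R (g x) (g y)) (hx : ∀ x, P x → R (f x) (g x)) (l : List X)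
    (hl : Adm P R l) :
    ∀ m ∈ (pr f g l).support, Adm P R m ∧ m.length = l.length + 1 ∧
      ∀ y ∈ m, ∃ x ∈ l, y = f x ∨ y = g x := by
  classical
  induction l with
  | nil => intro m hm; simp [pr] at hm
  | cons x l ih =>
    intro m hm
    obtain ⟨h1, h2⟩ := hl
    rw [List.pairwise_cons] at h2
    have hPx : P x := h1 x List.mem_cons_self
    have hPl : ∀ y ∈ l, P y := fun y hy => h1 y (List.mem_cons_of_mem _ hy)
    rw [pr] at hm
    rcases Finset.mem_union.1 (Finsupp.support_add hm) with hm | hm
    · rw [Finset.mem_singleton.1 (Finsupp.support_single_subset hm)]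
      refine ⟨⟨?_, ?_⟩, by simp, ?_⟩
      · intro y hy
        rcases List.mem_cons.1 hy with rfl | hy
        · exact hPf _ hPx
        rcases List.mem_cons.1 hy with rfl | hy
        · exact hPg _ hPx
        obtain ⟨z, hz, rfl⟩ := List.mem_map.1 hy
        exact hPg _ (hPl z hz)
      · rw [List.pairwise_cons, List.pairwise_cons]
        refine ⟨?_, ?_, ?_⟩
        · intro y hy
          rcases List.mem_cons.1 hy with rfl | hy
          · exact hx _ hPx
          obtain ⟨z, hz, rfl⟩ := List.mem_map.1 hy
          exact hfg _ _ hPx (hPl z hz) (h2.1 z hz)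
        · intro y hy
          obtain ⟨z, hz, rfl⟩ := List.mem_map.1 hy
          exact hgg _ _ hPx (hPl z hz) (h2.1 z hz)
        · rw [List.pairwise_map]
          exact h2.2.imp_of_mem fun ha hb hab => hgg _ _ (hPl _ ha) (hPl _ hb) hab
      · intro y hy
        rcases List.mem_cons.1 hy with rfl | hy
        · exact ⟨x, List.mem_cons_self, Or.inl rfl⟩
        rcases List.mem_cons.1 hy with rfl | hy
        · exact ⟨x, List.mem_cons_self, Or.inr rfl⟩
        obtain ⟨z, hz, rfl⟩ := List.mem_map.1 hy
        exact ⟨z, List.mem_cons_of_mem _ hz, Or.inr rfl⟩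
    · obtain ⟨m', hm', rfl⟩ := mem_support_cns hm
      obtain ⟨⟨h3, h4⟩, h5, h6⟩ := ih ⟨hPl, h2.2⟩ m' hm'
      refine ⟨⟨?_, ?_⟩, by simp [h5], ?_⟩
      · intro y hy
        rcases List.mem_cons.1 hy with rfl | hy
        · exact hPf _ hPx
        · exact h3 y hy
      · rw [List.pairwise_cons]
        refine ⟨fun y hy => ?_, h4⟩
        obtain ⟨z, hz, rfl | rfl⟩ := h6 y hy
        · exact hff _ _ hPx (hPl z hz) (h2.1 z hz)
        · exact hfg _ _ hPx (hPl z hz) (h2.1 z hz)
      · intro y hy
        rcases List.mem_cons.1 hy with rfl | hy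
        · exact ⟨x, List.mem_cons_self, Or.inl rfl⟩
        · obtain ⟨z, hz, hyz⟩ := h6 y hy
          exact ⟨z, List.mem_cons_of_mem _ hz, hyz⟩

/-- chains of admissible lists of given length -/
def AdmCh (P : X → Prop) (R : X → X → Prop) (i : ℕ) : Submodule (ZMod 2) (LCh X) :=
  Finsupp.supported (ZMod 2) (ZMod 2) {l | Adm P R l ∧ l.length = i}

theorem mem_AdmCh {P : X → Prop} {R : X → X → Prop} {i : ℕ} {c : LCh X} :
    c ∈ AdmCh P R i ↔ ∀ l ∈ c.support, Adm P R l ∧ l.length = i := by
  rw [AdmCh, Finsupp.mem_supported]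
  constructor
  · intro h s hs
    exact h (Finset.mem_coe.2 hs)
  · intro h s hs
    exact h s (Finset.mem_coe.1 hs)

theorem prL_mem {P : X → Prop} {R : X → X → Prop} {f g : X → X}
    (hPf : ∀ x, P x → P (f x)) (hPg : ∀ x, P x → P (g x))
    (hff : ∀ x y, P x → P y → R x y → R (f x) (f y))
    (hfg : ∀ x y, P x → P y → R x y → R (f x) (g y))
    (hgg : ∀ x y, P x → P y → R x y → R (g x) (g y)) (hx : ∀ x, P x → R (f x) (g x)) {i : ℕ}
    {c : LCh X} (hc : c ∈ AdmCh P R i) : prL f g c ∈ AdmCh P R (i + 1) := by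
  rw [mem_AdmCh] at hc ⊢
  intro m hm
  obtain ⟨l, hl, hml⟩ := mem_support_linearCombination c hm
  obtain ⟨h1, h2⟩ := hc l hl
  obtain ⟨h3, h4, _⟩ := pr_adm hPf hPg hff hfg hgg hx l h1 m hml
  exact ⟨h3, by rw [h4, h2]⟩

/-! ### comparison with Finset chains -/

variable {W : Type*} [DecidableEq W]

/-- the unordered simplex of a list, through a map `r` of vertices (zero if degenerate) -/
noncomputable def T (r : X → W) : List X → Ch W
  | [] => Finsupp.single ∅ 1
  | x :: l => coneOp (r x) (T r l)

/-- linear extension of `T` -/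
noncomputable def TL (r : X → W) : LCh X →ₗ[ZMod 2] Ch W := Finsupp.linearCombination (ZMod 2) (T r)

theorem TL_single (r : X → W) (l : List X) : TL r (Finsupp.single l 1) = T r l := by
  unfold TL
  rw [Finsupp.linearCombination_single, one_smul]

theorem TL_cns (r : X → W) (x : X) (c : LCh X) : TL r (cns x c) = coneOp (r x) (TL r c) := by
  have h : (TL r).comp (cns x) = (coneOp (r x)).comp (TL r) := by
    apply l_hom_ext
    intro l
    simp only [LinearMap.comp_apply, cns_single, TL_single]
    rfl
  exact LinearMap.congr_fun h c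

theorem bd_TL (r : X → W) (c : LCh X) : bd (TL r c) = TL r (lbd c) := by
  have h : bd.comp (TL r) = (TL r).comp lbd := by
    apply l_hom_ext
    intro l
    simp only [LinearMap.comp_apply, TL_single, lbd_single]
    induction l with
    | nil => simp [lb, T, bd_single]
    | cons x l ih =>
      rw [lb, map_add, TL_single, TL_cns, ← ih, T]
      have := bd_coneOp (r x) (T r l)
      calc bd (coneOp (r x) (T r l)) =
          bd (coneOp (r x) (T r l)) + coneOp (r x) (bd (T r l)) + coneOp (r x) (bd (T r l)) :=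
            (ch_add_add_cancel _ _).symm
        _ = _ := by rw [this]
  exact LinearMap.congr_fun h c

theorem mem_support_T {r : X → W} {l : List X} {s : Finset W} (h : s ∈ (T r l).support) :
    s = (l.map r).toFinset ∧ s.card = l.length := by
  induction l generalizing s with
  | nil =>
    rw [T] at h
    rw [Finset.mem_singleton.1 (Finsupp.support_single_subset h)]
    simp
  | cons x l ih =>
    rw [T] at h
    obtain ⟨t, ht, hx, rfl⟩ := mem_support_coneOp h
    obtain ⟨h1, h2⟩ := ih ht
    refine ⟨by simp [h1], ?_⟩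
    rw [Finset.card_insert_of_notMem hx, h2, List.length_cons]

theorem T_of_nodup {r : X → W} {l : List X} (h : (l.map r).Nodup) :
    T r l = Finsupp.single (l.map r).toFinset 1 := by
  induction l with
  | nil => simp [T]
  | cons x l ih =>
    rw [List.map_cons, List.nodup_cons] at h
    rw [T, ih h.2, coneOp_single, if_neg (by rw [List.mem_toFinset]; exact h.1)]
    simp

section sorting

variable [DecidableEq X] [PartialOrder X]

/-- a decreasing linear order relation extending the partial order -/
def dec (x y : X) : Prop := toLinearExtension y ≤ toLinearExtension x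

noncomputable instance : DecidableRel (dec (X := X)) := fun _ _ => Classical.dec _

instance : IsTrans X dec := ⟨fun _ _ _ h1 h2 => h2.trans h1⟩

theorem toLinearExtension_inj {x y : X} (h : toLinearExtension x = toLinearExtension y) : x = y := h

instance : Std.Antisymm (dec (X := X)) :=
  ⟨fun _ _ h1 h2 => toLinearExtension_inj (le_antisymm h2 h1)⟩

instance : Std.Total (dec (X := X)) := ⟨fun x y => le_total (toLinearExtension y) (toLinearExtension x)⟩

theorem le_of_dec {x y : X} (h : dec x y) (hc : x ≤ y ∨ y ≤ x) : y ≤ x := by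
  rcases hc with h1 | h1
  · have h2 : toLinearExtension x ≤ toLinearExtension y := toLinearExtension.monotone h1
    exact le_of_eq (toLinearExtension_inj (le_antisymm h h2))
  · exact h1

/-- the decreasing list of a Finset -/
noncomputable def sl (s : Finset X) : List X := s.sort dec

theorem sl_nodup (s : Finset X) : (sl s).Nodup := s.sort_nodup dec

theorem sl_toFinset (s : Finset X) : (sl s).toFinset = s := s.sort_toFinset dec

theorem sl_pairwise (s : Finset X) : (sl s).Pairwise dec := s.pairwise_sort dec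

theorem mem_sl {s : Finset X} {x : X} : x ∈ sl s ↔ x ∈ s := Finset.mem_sort _

theorem length_sl (s : Finset X) : (sl s).length = s.card := Finset.length_sort _

theorem sl_erase (s : Finset X) (v : X) : sl (s.erase v) = (sl s).erase v := by
  have hn := (sl_nodup s).erase v
  refine List.Perm.eq_of_pairwise' (sl_pairwise _) ((sl_pairwise s).sublist List.erase_sublist) ?_
  rw [List.perm_ext_iff_of_nodup (sl_nodup _) hn]
  intro x
  rw [mem_sl, (sl_nodup s).mem_erase_iff, mem_sl, Finset.mem_erase]

theorem lb_of_nodup {l : List X} (h : l.Nodup) :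
    lb l = ∑ v ∈ l.toFinset, Finsupp.single (l.erase v) (1 : ZMod 2) := by
  induction l with
  | nil => simp [lb]
  | cons x l ih =>
    rw [List.nodup_cons] at h
    rw [lb, ih h.2, List.toFinset_cons, Finset.sum_insert (by rw [List.mem_toFinset]; exact h.1),
      List.erase_cons_head, map_sum]
    congr 1
    refine Finset.sum_congr rfl fun v hv => ?_
    have hv' : v ∈ l := List.mem_toFinset.1 hv
    rw [cns_single, List.erase_cons_tail]
    rw [beq_iff_eq]
    rintro rfl
    exact h.1 hv'

/-- the chain of decreasing lists -/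
noncomputable def slL : Ch X →ₗ[ZMod 2] LCh X := Finsupp.lmapDomain (ZMod 2) (ZMod 2) sl

theorem slL_single (s : Finset X) (c : ZMod 2) :
    slL (Finsupp.single s c) = Finsupp.single (sl s) c := by
  simp [slL]

theorem lbd_slL (c : Ch X) : lbd (slL c) = slL (bd c) := by
  have h : lbd.comp slL = slL.comp (bd : Ch X →ₗ[ZMod 2] Ch X) := by
    apply ch_hom_ext
    intro s
    simp only [LinearMap.comp_apply, slL_single, lbd_single, bd_single, map_sum]
    rw [lb_of_nodup (sl_nodup s), sl_toFinset]
    refine Finset.sum_congr rfl fun v _ => ?_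
    rw [sl_erase]
  exact LinearMap.congr_fun h c

theorem mem_support_slL {c : Ch X} {l : List X} (h : l ∈ (slL c).support) :
    ∃ s ∈ c.support, l = sl s := by
  classical
  unfold slL at h
  rw [Finsupp.lmapDomain_apply] at h
  obtain ⟨s, hs, rfl⟩ := Finset.mem_image.1 (Finsupp.mapDomain_support h)
  exact ⟨s, hs, rfl⟩

theorem TL_slL (r : X → X) (c : Ch X) (h : ∀ s ∈ c.support, ∀ v ∈ s, r v = v) :
    TL r (slL c) = c := by
  classical
  conv_lhs => rw [← Finsupp.sum_single c]
  conv_rhs => rw [← Finsupp.sum_single c]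
  rw [Finsupp.sum, map_sum, map_sum]
  refine Finset.sum_congr rfl fun s hs => ?_
  have h1 : (sl s).map r = sl s := by
    conv_rhs => rw [← List.map_id (sl s)]
    exact List.map_congr_left fun v hv => h s hs v (mem_sl.1 hv)
  have h2 : Finsupp.single s (c s) = c s • Finsupp.single s (1 : ZMod 2) := by
    rw [Finsupp.smul_single, smul_eq_mul, mul_one]
  rw [h2, map_smul, map_smul, slL_single, TL_single, T_of_nodup (by rw [h1]; exact sl_nodup s), h1,
    sl_toFinset]

end sorting

/-- Main abstract statement: a cycle `c` of Finset chains whose decreasing lists are admissible, a finite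
sequence of maps `f 0, f 1, …, f N` joined by prisms from the identity on `c` to a constant map, and a
normalisation map `r` fixing the vertices of `c` and sending admissible lists to simplices of `K`. -/
theorem exact_of_prisms [DecidableEq X] [PartialOrder X] {K : Set (Finset X)} {i : ℕ}
    (P : X → Prop) (R : X → X → Prop) (r : X → X) (z : Ch X) (hz : slL z ∈ AdmCh P R i)
    (hbd : bd z = 0) (hr : ∀ s ∈ z.support, ∀ v ∈ s, r v = v)
    (f : ℕ → X → X) (N : ℕ) (C : X) (hPC : P C) (hCC : R C C)
    (h0 : ∀ s ∈ z.support, ∀ v ∈ s, f 0 v = v) (hN : ∀ s ∈ z.support, ∀ v ∈ s, f N v = C)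
    (hP : ∀ j x, P x → P (f j x))
    (hff : ∀ j x y, P x → P y → R x y → R (f j x) (f j y))
    (hfg : ∀ j x y, P x → P y → R x y → R (f (j + 1) x) (f j y))
    (hx : ∀ j x, P x → R (f (j + 1) x) (f j x))
    (hK : ∀ l, Adm P R l → (l.map r).toFinset ∈ K) :
    ∃ y ∈ chains K (i + 1), bd y = z := by
  classical
  set w := slL z with hw
  have hwbd : lbd w = 0 := by rw [hw, lbd_slL, hbd, map_zero]
  have step : ∀ j, ∃ y ∈ AdmCh P R (i + 1), lbd y = w + mp (f j) w := by
    intro j
    induction j with
    | zero =>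
      refine ⟨0, zero_mem _, ?_⟩
      have : mp (f 0) w = w := by
        rw [hw]
        conv_rhs => rw [← Finsupp.sum_single z]
        conv_lhs => rw [← Finsupp.sum_single z]
        rw [Finsupp.sum, map_sum, map_sum]
        refine Finset.sum_congr rfl fun s hs => ?_
        rw [slL_single, mp_single]
        congr 1
        conv_rhs => rw [← List.map_id (sl s)]
        exact List.map_congr_left fun v hv => h0 s hs v (mem_sl.1 hv)
      rw [this, l_add_self, map_zero]
    | succ j ih =>
      obtain ⟨y, hy, hyw⟩ := ih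
      refine ⟨y + prL (f (j + 1)) (f j) w, add_mem hy (prL_mem (hP _) (hP _) (hff _) (hfg _)
        (hff _) (hx _) hz), ?_⟩
      have h1 := prism (f (j + 1)) (f j) w
      rw [hwbd, map_zero, add_zero] at h1
      rw [map_add, h1, hyw]
      calc w + mp (f j) w + (mp (f (j + 1)) w + mp (f j) w)
          = w + mp (f (j + 1)) w + mp (f j) w + mp (f j) w := by abel
        _ = _ := l_cancel _ _
  obtain ⟨y, hy, hyw⟩ := step N
  set u := mp (f N) w with hu
  have hubd : lbd u = 0 := by rw [hu, lbd_mp, hwbd, map_zero]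
  have hu2 : ∀ l ∈ u.support, (∀ x ∈ l, x = C) ∧ l.length = i := by
    intro l hl
    obtain ⟨m, hm, rfl⟩ := mem_support_mp hl
    have h2 := (mem_AdmCh.1 hz m hm).2
    obtain ⟨s, hs, rfl⟩ := mem_support_slL hm
    refine ⟨?_, by rw [List.length_map, h2]⟩
    intro x hx
    obtain ⟨v, hv, rfl⟩ := List.mem_map.1 hx
    exact hN s hs v (mem_sl.1 hv)
  have hcu : cns C u ∈ AdmCh P R (i + 1) := by
    rw [mem_AdmCh]
    intro l hl
    obtain ⟨m, hm, rfl⟩ := mem_support_cns hl
    obtain ⟨h2, h3⟩ := hu2 m hm
    have h4 : ∀ x ∈ C :: m, x = C := by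
      intro x hx
      rcases List.mem_cons.1 hx with rfl | hx
      · rfl
      · exact h2 x hx
    refine ⟨⟨fun x hx => by rw [h4 x hx]; exact hPC, ?_⟩, by rw [List.length_cons, h3]⟩
    exact List.pairwise_of_forall_mem_list fun a ha b hb => by rw [h4 a ha, h4 b hb]; exact hCC
  have hY : lbd (y + cns C u) = w := by
    rw [map_add, hyw, lbd_cns, hubd, map_zero, add_zero, l_cancel]
  refine ⟨TL r (y + cns C u), ?_, ?_⟩
  · have hYm := mem_AdmCh.1 (add_mem hy hcu)
    rw [mem_chains]
    intro s hs
    obtain ⟨l, hl, hsl⟩ := mem_support_linearCombination _ hs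
    obtain ⟨h1, h2⟩ := mem_support_T hsl
    obtain ⟨h3, h4⟩ := hYm l hl
    exact ⟨by rw [h1]; exact hK l h3, by rw [h2, h4]⟩
  · rw [bd_TL, hY, hw, TL_slL r z hr]

end Crest.Agent.R066.LP
private theorem rz_6d9950d986 : type_of% @_root_.Crest.Agent.R066.LP.T.eq_def := @_root_.Crest.Agent.R066.LP.T.eq_def -- L261
private theorem rz_b4c5de4d45 : type_of% @_root_.Crest.Agent.R066.LP.T.eq_1 := @_root_.Crest.Agent.R066.LP.T.eq_1 -- L261
private theorem rz_4861256b3b : type_of% @_root_.Crest.Agent.R066.LP.lb.eq_def := @_root_.Crest.Agent.R066.LP.lb.eq_def -- L29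
private theorem rz_0add37c305 : type_of% @_root_.Crest.Agent.R066.LP.lb.eq_1 := @_root_.Crest.Agent.R066.LP.lb.eq_1 -- L29
private theorem rz_d9a2a2631a : type_of% @_root_.Crest.Agent.R066.LP.pr.eq_def := @_root_.Crest.Agent.R066.LP.pr.eq_def -- L89
private theorem rz_3ab59200f4 : type_of% @_root_.Crest.Agent.R066.LP.pr.eq_1 := @_root_.Crest.Agent.R066.LP.pr.eq_1 -- L89
end

-- ▼ part R066/LatBase

/-! Lattices: basic facts and acyclicity of the building `BCx` (task A1). -/

set_option autoImplicit false
set_option linter.unusedSectionVars false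
set_option linter.unusedVariables false
open scoped BigOperators
open Module (finrank)

namespace Crest.Agent.R066.Lat

variable {F : Type} [Field F]

theorem tr_le_iff (n : ℕ) (a : ℤ) {L L' : Submodule F (V F)} :
    tr n a L ≤ L' ↔ L ≤ tr n (-a) L' := by
  constructor
  · intro h
    have := tr_mono n (-a) h
    rwa [tr_tr, neg_add_cancel, tr_zero] at this
  · intro h
    have := tr_mono n a h
    rwa [tr_tr, add_neg_cancel, tr_zero] at this

theorem isLat_L0 (n : ℕ) (j : ℤ) : IsLat n (L0 F j) := by
  refine ⟨?_, j.natAbs, L0_mono ?_, L0_mono ?_⟩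
  · rw [tr_L0]; exact L0_mono (by omega)
  · omega
  · omega

theorem IsLat.le_tr {n : ℕ} {L : Submodule F (V F)} (h : IsLat n L) : L ≤ Lat.tr n 1 L := by
  have := (tr_le_iff n (-1) (L := L) (L' := L)).1 h.1
  simpa using this

theorem IsLat.sup_L0 {n : ℕ} {L : Submodule F (V F)} (h : IsLat n L) (j : ℤ) :
    IsLat n (L ⊔ L0 F j) := by
  obtain ⟨h1, N, h2, h3⟩ := h
  refine ⟨?_, N + j.natAbs, ?_, ?_⟩
  · rw [tr_sup, tr_L0]
    exact sup_le_sup h1 (L0_mono (by omega))
  · exact ((L0_mono (by omega)).trans h2).trans le_sup_left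
  · exact sup_le (h3.trans (L0_mono (by omega))) (L0_mono (by omega))


open Classical in
/-- the charge of a lattice -/
noncomputable def charge (L : Submodule F (V F)) : ℤ :=
  if h : ∃ c, HasCharge L c then h.choose else 0

theorem charge_spec {n : ℕ} {L : Submodule F (V F)} (hL : IsLat n L) :
    HasCharge L (charge L) := by
  have h := hL.hasCharge
  rw [charge, dif_pos h]
  exact h.choose_spec

theorem charge_eq {n : ℕ} {L : Submodule F (V F)} (hL : IsLat n L) {c : ℤ} (h : HasCharge L c) :
    charge L = c := (charge_spec hL).unique h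

theorem charge_tr {n : ℕ} {L : Submodule F (V F)} (hL : IsLat n L) (a : ℤ) :
    charge (tr n a L) = charge L + a * n := charge_eq (hL.tr a) ((charge_spec hL).tr n a)

theorem charge_le {n : ℕ} {L L' : Submodule F (V F)} (hL : IsLat n L) (hL' : IsLat n L')
    (h : L ≤ L') : charge L ≤ charge L' := charge_mono hL' h (charge_spec hL) (charge_spec hL')

/-- normalisation: the representative of charge in `[0, n)` -/
noncomputable def nrm (n : ℕ) (L : Submodule F (V F)) : Submodule F (V F) :=
  tr n (-(charge L / n)) L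

theorem IsLat.nrm {n : ℕ} {L : Submodule F (V F)} (hL : IsLat n L) : IsLat n (nrm n L) := hL.tr _

theorem charge_nrm {n : ℕ} (hn : 1 ≤ n) {L : Submodule F (V F)} (hL : IsLat n L) :
    0 ≤ charge (nrm n L) ∧ charge (nrm n L) < n := by
  have hn' : (0 : ℤ) < n := by exact_mod_cast hn
  rw [nrm, charge_tr hL]
  have h1 := Int.mul_ediv_add_emod (charge L) n
  have h2 := Int.emod_nonneg (charge L) hn'.ne'
  have h3 := Int.emod_lt_of_pos (charge L) hn'
  have e : charge L + -(charge L / ↑n) * ↑n = charge L % n := by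
    linear_combination -h1
  rw [e]
  exact ⟨h2, h3⟩

theorem nrm_of_mem {n : ℕ} (hn : 1 ≤ n) {L : Submodule F (V F)} (hL : IsLat n L)
    (h : ∃ c : ℤ, 0 ≤ c ∧ c < n ∧ HasCharge L c) : nrm n L = L := by
  obtain ⟨c, h0, h1, hc⟩ := h
  rw [nrm, charge_eq hL hc, Int.ediv_eq_zero_of_lt h0 h1, neg_zero, tr_zero]

theorem adj_symm {n : ℕ} {L L' : Submodule F (V F)} (h : Adj n L L') : Adj n L' L := Or.symm h

theorem adj_refl {n : ℕ} {L : Submodule F (V F)} (h : IsLat n L) : Adj n L L :=
  Or.inl ⟨le_rfl, h.le_tr⟩

theorem adj_nrm {n : ℕ} (hn : 1 ≤ n) {L L' : Submodule F (V F)} (hL : IsLat n L) (hL' : IsLat n L')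
    (h1 : L' ≤ L) (h2 : tr n (-1) L ≤ L') : Adj n (nrm n L) (nrm n L') := by
  have hn' : (0 : ℤ) < n := by exact_mod_cast hn
  have c1 := charge_le hL' hL h1
  have c2 := charge_le (hL.tr (-1)) hL' h2
  rw [charge_tr hL] at c2
  have q1 : charge L' / n ≤ charge L / n := Int.ediv_le_ediv hn' c1
  have q2 : charge L / n - 1 ≤ charge L' / n := by
    have := Int.ediv_le_ediv hn' c2
    have e : (charge L + -1 * (n : ℤ)) / n = charge L / n - 1 := by
      rw [Int.add_mul_ediv_right _ _ hn'.ne']; ring
    rwa [e] at this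
  have h2' : L ≤ tr n 1 L' := by
    have := (tr_le_iff n (-1)).1 h2
    simpa using this
  rcases eq_or_lt_of_le q1 with e | hlt
  · -- same translate
    right
    refine ⟨?_, ?_⟩
    · rw [nrm, nrm, e]; exact tr_mono n _ h1
    · rw [nrm, nrm, e, tr_tr, add_comm, ← tr_tr]; exact tr_mono n _ h2'
  · have e : charge L' / n = charge L / n - 1 := by omega
    left
    refine ⟨?_, ?_⟩
    · rw [nrm, nrm, e]
      have := tr_mono n (-(charge L / n)) h2'
      rw [tr_tr] at this
      have e2 : -(charge L / (n : ℤ)) + 1 = -(charge L / n - 1) := by ring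
      rwa [e2] at this
    · rw [nrm, nrm, e, tr_tr]
      have e2 : 1 + -(charge L / (n : ℤ)) = -(charge L / n - 1) := by ring
      rw [e2]
      exact tr_mono n _ h1

/-! ### acyclicity of the building -/

open Classical in
/-- The building is acyclic. -/
theorem bcx_exact (n : ℕ) (hn : 1 ≤ n) (i : ℕ) : ExactAt (BCx F n) i := by
  intro z hz hbd
  have hz2 := mem_chains.1 hz
  -- a common bound for all lattices in `z`
  obtain ⟨N, hN⟩ : ∃ N : ℕ, ∀ s ∈ z.support, ∀ L ∈ s, L0 F (-(N : ℤ)) ≤ L ∧ L ≤ L0 F N := by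
    have h1 : ∀ L ∈ z.support.biUnion id, ∃ N : ℕ, L0 F (-(N : ℤ)) ≤ L ∧ L ≤ L0 F N := by
      intro L hL
      obtain ⟨s, hs, hLs⟩ := Finset.mem_biUnion.1 hL
      exact ((hz2 s hs).1.1 L hLs).1.2
    choose! N hN using h1
    refine ⟨(z.support.biUnion id).sup N, fun s hs L hL => ?_⟩
    have hL' : L ∈ z.support.biUnion id := Finset.mem_biUnion.2 ⟨s, hs, hL⟩
    have hle : N L ≤ (z.support.biUnion id).sup N := Finset.le_sup hL'
    obtain ⟨h2, h3⟩ := hN L hL'
    exact ⟨(L0_mono (by omega)).trans h2, h3.trans (L0_mono (by omega))⟩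
  refine LP.exact_of_prisms (IsLat n) (fun L L' => L' ≤ L ∧ tr n (-1) L ≤ L') (nrm n) z ?_ hbd ?_
    (fun j L => L ⊔ L0 F (-(N : ℤ) + j)) (2 * N) (L0 F N) (isLat_L0 n _) ?_ ?_ ?_ ?_ ?_ ?_ ?_ ?_
  · -- admissible lists
    rw [LP.mem_AdmCh]
    intro l hl
    obtain ⟨s, hs, rfl⟩ := LP.mem_support_slL hl
    obtain ⟨⟨h1, h2⟩, h3⟩ := hz2 s hs
    refine ⟨⟨fun L hL => (h1 L (LP.mem_sl.1 hL)).1, ?_⟩, by rw [LP.length_sl, h3]⟩
    refine (LP.sl_pairwise s).imp_of_mem ?_
    intro L L' hL hL' hd
    have hLs := LP.mem_sl.1 hL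
    have hLs' := LP.mem_sl.1 hL'
    have h4 := h2 L hLs L' hLs'
    have h5 : L' ≤ L := LP.le_of_dec hd (by
      rcases h4 with h | h
      · exact Or.inl h.1
      · exact Or.inr h.1)
    refine ⟨h5, ?_⟩
    rw [tr_le_iff, neg_neg]
    rcases h4 with h | h
    · have : L = L' := le_antisymm h.1 h5
      rw [← this]; exact (h1 L hLs).1.le_tr
    · exact h.2
  · intro s hs L hL
    have := (hz2 s hs).1.1 L hL
    exact nrm_of_mem hn this.1 this.2
  · exact ⟨le_rfl, (isLat_L0 n _).1⟩
  · intro s hs L hL
    have := (hN s hs L hL).1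
    simpa using this
  · intro s hs L hL
    have := (hN s hs L hL).2
    have e : -(N : ℤ) + ((2 * N : ℕ) : ℤ) = N := by push_cast; ring
    simp only [e]
    exact sup_eq_right.2 this
  · intro j L hL
    exact hL.sup_L0 _
  · rintro j L L' hL hL' ⟨h1, h2⟩
    refine ⟨sup_le_sup_right h1 _, ?_⟩
    rw [tr_sup, tr_L0]
    exact sup_le_sup h2 (L0_mono (by omega))
  · rintro j L L' hL hL' ⟨h1, h2⟩
    refine ⟨sup_le_sup h1 (L0_mono (by push_cast; omega)), ?_⟩
    rw [tr_sup, tr_L0]
    exact sup_le_sup h2 (L0_mono (by push_cast; omega))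
  · intro j L hL
    refine ⟨sup_le_sup_left (L0_mono (by push_cast; omega)) _, ?_⟩
    rw [tr_sup, tr_L0]
    exact sup_le_sup hL.1 (L0_mono (by push_cast; omega))
  · rintro l ⟨h1, h2⟩
    refine ⟨?_, ?_⟩
    · intro L hL
      rw [List.mem_toFinset] at hL
      obtain ⟨L₁, hL₁, rfl⟩ := List.mem_map.1 hL
      have h3 := h1 L₁ hL₁
      exact ⟨h3.nrm, charge (nrm n L₁), (charge_nrm hn h3).1, (charge_nrm hn h3).2,
        charge_spec h3.nrm⟩
    · intro L hL L' hL'
      rw [List.mem_toFinset] at hL hL'
      obtain ⟨L₁, hL₁, rfl⟩ := List.mem_map.1 hL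
      obtain ⟨L₂, hL₂, rfl⟩ := List.mem_map.1 hL'
      have h3 : l.Pairwise (fun L L' => Adj n (nrm n L) (nrm n L')) := by
        refine h2.imp_of_mem ?_
        rintro A B hA hB ⟨h4, h5⟩
        exact adj_nrm hn (h1 A hA) (h1 B hB) h4 h5
      by_cases e : L₁ = L₂
      · subst e; exact adj_refl (h1 L₁ hL₁).nrm
      · rw [List.pairwise_iff_getElem] at h3
        obtain ⟨a, ha, rfl⟩ := List.mem_iff_getElem.1 hL₁
        obtain ⟨b, hb, rfl⟩ := List.mem_iff_getElem.1 hL₂
        rcases lt_trichotomy a b with h | h | h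
        · exact h3 a b ha hb h
        · subst h; exact absurd rfl e
        · exact adj_symm (h3 b a hb ha h)

end Crest.Agent.R066.Lat
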