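import Crest.Agent.R066.LatProf
import Crest.Agent.R066.ConeFill
import Crest.Agent.R066.Chain
import Crest.Agent.R066.LatBase
import Crest.Agent.R066.Morse
import Crest.Agent.R066.Basic
import Crest.Agent.R066.Model

-- ▼ part R066/LatLink
section

/-! Task A2b: the generic link of a nonempty simplex of the building is highly acyclic
(it is isomorphic to `GenCx Fl Wl` in the quotient `tr 1 L⋆ / L⋆`, then `cone_exists`). -/

set_option autoImplicit false
set_option linter.unusedVariables false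
open scoped BigOperators
open Module (finrank)

namespace Crest.Agent.R066.Lat.Lk

/-! ### Subquotients `T / A` -/
section Quot

variable {F E : Type} [Field F] [AddCommGroup E] [Module F E]

theorem mem_so {A T : Submodule F E} {v : ↥T} : v ∈ A.submoduleOf T ↔ (v : E) ∈ A := Iff.rfl

/-- The quotient `T / A`. -/
abbrev QT (A T : Submodule F E) : Type := ↥T ⧸ (A.submoduleOf T)

/-- The image of `X ⊓ T` in `T / A`. -/
noncomputable def qm (A T X : Submodule F E) : Submodule F (QT A T) :=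
  (X.submoduleOf T).map (A.submoduleOf T).mkQ

/-- The preimage of `W ≤ T / A`. -/
noncomputable def lft (A T : Submodule F E) (W : Submodule F (QT A T)) : Submodule F E :=
  (W.comap (A.submoduleOf T).mkQ).map T.subtype

theorem mem_qm {A T X : Submodule F E} {q : QT A T} :
    q ∈ qm A T X ↔ ∃ v : ↥T, (v : E) ∈ X ∧ (A.submoduleOf T).mkQ v = q := by
  unfold qm
  rw [Submodule.mem_map]
  constructor
  · rintro ⟨v, hv, rfl⟩
    exact ⟨v, mem_so.mp hv, rfl⟩
  · rintro ⟨v, hv, rfl⟩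
    exact ⟨v, mem_so.mpr hv, rfl⟩

theorem mkQ_mem_qm {A T X : Submodule F E} (hA : A ≤ X) (v : ↥T) :
    (A.submoduleOf T).mkQ v ∈ qm A T X ↔ (v : E) ∈ X := by
  rw [mem_qm]
  constructor
  · rintro ⟨w, hw, h⟩
    rw [Submodule.mkQ_apply, Submodule.mkQ_apply, Submodule.Quotient.eq, mem_so] at h
    have h1 : (v : E) = (w : E) - ((w - v : ↥T) : E) := by
      rw [Submodule.coe_sub]; abel
    rw [h1]
    exact X.sub_mem hw (hA h)
  · intro h
    exact ⟨v, h, rfl⟩

theorem mem_lft {A T : Submodule F E} {W : Submodule F (QT A T)} {v : E} :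
    v ∈ lft A T W ↔ ∃ h : v ∈ T, (A.submoduleOf T).mkQ ⟨v, h⟩ ∈ W := by
  unfold lft
  rw [Submodule.mem_map]
  constructor
  · rintro ⟨v, hv, rfl⟩
    exact ⟨v.2, hv⟩
  · rintro ⟨h, hv⟩
    exact ⟨⟨v, h⟩, hv, rfl⟩

theorem lft_le (A T : Submodule F E) (W : Submodule F (QT A T)) : lft A T W ≤ T := by
  intro v hv
  rw [mem_lft] at hv
  exact hv.1

theorem le_lft {A T : Submodule F E} (hAT : A ≤ T) (W : Submodule F (QT A T)) : A ≤ lft A T W := by
  intro v hv
  rw [mem_lft]
  refine ⟨hAT hv, ?_⟩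
  have : (A.submoduleOf T).mkQ ⟨v, hAT hv⟩ = 0 := by
    rw [Submodule.mkQ_apply, Submodule.Quotient.mk_eq_zero, mem_so]
    exact hv
  rw [this]
  exact W.zero_mem

theorem qm_lft {A T : Submodule F E} (hAT : A ≤ T) (W : Submodule F (QT A T)) :
    qm A T (lft A T W) = W := by
  ext q
  obtain ⟨v, rfl⟩ := Submodule.mkQ_surjective _ q
  rw [mkQ_mem_qm (le_lft hAT W), mem_lft]
  constructor
  · rintro ⟨_, h⟩; exact h
  · intro h; exact ⟨v.2, h⟩


theorem qm_mono {A T X Y : Submodule F E} (h : X ≤ Y) : qm A T X ≤ qm A T Y := by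
  intro q hq
  rw [mem_qm] at hq ⊢
  obtain ⟨v, hv, rfl⟩ := hq
  exact ⟨v, h hv, rfl⟩

theorem qm_le_qm {A T X Y : Submodule F E} (hX : X ≤ T) (hY : A ≤ Y) :
    qm A T X ≤ qm A T Y ↔ X ≤ Y := by
  refine ⟨fun h v hv => ?_, qm_mono⟩
  have h1 : (A.submoduleOf T).mkQ ⟨v, hX hv⟩ ∈ qm A T X := mem_qm.mpr ⟨⟨v, hX hv⟩, hv, rfl⟩
  exact (mkQ_mem_qm hY _).mp (h h1)

theorem qm_inj {A T X Y : Submodule F E} (hX : X ≤ T) (hY : Y ≤ T) (hX' : A ≤ X) (hY' : A ≤ Y)
    (h : qm A T X = qm A T Y) : X = Y :=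
  le_antisymm ((qm_le_qm hX hY').mp h.le) ((qm_le_qm hY hX').mp h.ge)

theorem lft_mono {A T : Submodule F E} {W W' : Submodule F (QT A T)} (h : W ≤ W') :
    lft A T W ≤ lft A T W' := by
  intro v hv
  rw [mem_lft] at hv ⊢
  exact ⟨hv.1, h hv.2⟩

theorem qm_bot (A T : Submodule F E) : qm A T A = ⊥ := by
  rw [eq_bot_iff]
  intro q hq
  rw [mem_qm] at hq
  obtain ⟨v, hv, rfl⟩ := hq
  rw [Submodule.mem_bot, Submodule.mkQ_apply, Submodule.Quotient.mk_eq_zero, mem_so]
  exact hv

theorem qm_top (A T : Submodule F E) : qm A T T = ⊤ := by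
  rw [eq_top_iff]
  intro q _
  obtain ⟨v, rfl⟩ := Submodule.mkQ_surjective _ q
  rw [mem_qm]
  exact ⟨v, v.2, rfl⟩

theorem qm_inf {A T X : Submodule F E} (hA : A ≤ X) (Y : Submodule F E) :
    qm A T Y ⊓ qm A T X = qm A T (X ⊓ Y) := by
  apply le_antisymm
  · intro q hq
    obtain ⟨h1, h2⟩ := Submodule.mem_inf.mp hq
    rw [mem_qm] at h1
    obtain ⟨v, hv, rfl⟩ := h1
    rw [mkQ_mem_qm hA] at h2
    exact mem_qm.mpr ⟨v, Submodule.mem_inf.mpr ⟨h2, hv⟩, rfl⟩
  · exact le_inf (qm_mono inf_le_right) (qm_mono inf_le_left)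

theorem finrank_qm {A T Y : Submodule F E} (hY : Y ≤ T) [FiniteDimensional F ↥Y] :
    finrank F ↥(qm A T Y) + finrank F ↥(A ⊓ Y) = finrank F ↥Y := by
  set f : ↥Y →ₗ[F] QT A T := (A.submoduleOf T).mkQ.comp (Submodule.inclusion hY) with hf
  have h1 : LinearMap.range f = qm A T Y := by
    ext q
    rw [LinearMap.mem_range, mem_qm]
    constructor
    · rintro ⟨v, rfl⟩
      exact ⟨⟨v, hY v.2⟩, v.2, rfl⟩
    · rintro ⟨v, hv, rfl⟩
      exact ⟨⟨v, hv⟩, rfl⟩
  have h2 : (LinearMap.ker f).map Y.subtype = A ⊓ Y := by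
    ext v
    rw [Submodule.mem_map, Submodule.mem_inf]
    constructor
    · rintro ⟨w, hw, rfl⟩
      rw [LinearMap.mem_ker, hf, LinearMap.comp_apply, Submodule.mkQ_apply,
        Submodule.Quotient.mk_eq_zero, mem_so] at hw
      exact ⟨hw, w.2⟩
    · rintro ⟨h, h'⟩
      refine ⟨⟨v, h'⟩, ?_, rfl⟩
      rw [LinearMap.mem_ker, hf, LinearMap.comp_apply, Submodule.mkQ_apply,
        Submodule.Quotient.mk_eq_zero, mem_so]
      exact h
  have h3 : finrank F ↥(A ⊓ Y) = finrank F ↥(LinearMap.ker f) := by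
    rw [← h2]
    exact Submodule.finrank_map_subtype_eq _ _
  have h4 := LinearMap.finrank_range_add_finrank_ker f
  rw [h1] at h4
  omega

theorem finite_of_qm {A T Y : Submodule F E} [FiniteDimensional F ↥(T ⊓ Y)] (h : qm A T Y = ⊤) :
    FiniteDimensional F (QT A T) := by
  set f : ↥(T ⊓ Y) →ₗ[F] QT A T :=
    (A.submoduleOf T).mkQ.comp (Submodule.inclusion (inf_le_left : T ⊓ Y ≤ T)) with hf
  have hs : Function.Surjective f := by
    intro q
    have hq : q ∈ qm A T Y := by rw [h]; trivial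
    rw [mem_qm] at hq
    obtain ⟨v, hv, rfl⟩ := hq
    exact ⟨⟨v, Submodule.mem_inf.mpr ⟨v.2, hv⟩⟩, rfl⟩
  exact Module.Finite.of_surjective f hs

end Quot

/-! ### Lattices between `Ls` and `tr n 1 Ls` -/
section LatFacts

variable {F : Type} [Field F]

theorem tr_le_tr_of_le {n : ℕ} {L : Submodule F (V F)} (h : IsLat n L) {m m' : ℤ} (hm : m ≤ m') :
    tr n m L ≤ tr n m' L := by
  obtain ⟨k, hk⟩ := Int.eq_ofNat_of_zero_le (show 0 ≤ m' - m by omega)
  obtain rfl : m' = m + k := by omega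
  clear hk hm
  induction k with
  | zero => simp
  | succ k ih =>
    refine ih.trans ?_
    have h1 := tr_mono n (m + ((k+1 : ℕ) : ℤ)) h.1
    rwa [tr_tr, show m + ((k+1:ℕ):ℤ) + -1 = m + k by push_cast; ring] at h1

theorem le_tr_one {n : ℕ} {L : Submodule F (V F)} (h : IsLat n L) : L ≤ tr n 1 L := by
  have := tr_le_tr_of_le h (show (0:ℤ) ≤ 1 by norm_num)
  rwa [tr_zero] at this

theorem tr_neg_one_tr_one {n : ℕ} (L : Submodule F (V F)) : tr n (-1) (tr n 1 L) = L := by
  rw [tr_tr, neg_add_cancel, tr_zero]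

theorem tr_one_tr_neg_one {n : ℕ} (L : Submodule F (V F)) : tr n 1 (tr n (-1) L) = L := by
  rw [tr_tr, add_neg_cancel, tr_zero]

theorem isLat_of_between {n : ℕ} {Ls X : Submodule F (V F)} (h : IsLat n Ls) (h1 : Ls ≤ X)
    (h2 : X ≤ tr n 1 Ls) : IsLat n X := by
  refine ⟨?_, ?_⟩
  · calc tr n (-1) X ≤ tr n (-1) (tr n 1 Ls) := tr_mono _ _ h2
      _ = Ls := tr_neg_one_tr_one Ls
      _ ≤ X := h1
  · obtain ⟨_, N', _, hN'⟩ := h.tr 1
    obtain ⟨_, N, hN, _⟩ := h
    refine ⟨max N N', (L0_mono ?_).trans (hN.trans h1), (h2.trans hN').trans (L0_mono ?_)⟩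
    · have : (N : ℤ) ≤ ((max N N' : ℕ) : ℤ) := by exact_mod_cast le_max_left _ _
      omega
    · exact_mod_cast le_max_right _ _

theorem finrank_qm_inf {n : ℕ} {Ls T X : Submodule F (V F)} (hT : IsLat n T) (h1 : Ls ≤ X)
    (h2 : X ≤ T) (i : ℤ) :
    finrank F ↥(qm Ls T (M F i) ⊓ qm Ls T X) + D Ls i = D X i := by
  rw [qm_inf h1]
  have hfin : FiniteDimensional F ↥(X ⊓ M F i) := by
    have := hT.finite i
    exact Submodule.finiteDimensional_of_le (inf_le_inf_right (M F i) h2)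
  have := finrank_qm (A := Ls) (T := T) (Y := X ⊓ M F i) (inf_le_left.trans h2)
  have e : Ls ⊓ (X ⊓ M F i) = Ls ⊓ M F i := by rw [← inf_assoc, inf_eq_left.mpr h1]
  rw [e] at this
  exact this

theorem qm_M_top {Ls T : Submodule F (V F)} {i : ℤ} (h : L0 F i ≤ Ls) (hLT : Ls ≤ T) :
    qm Ls T (M F i) = ⊤ := by
  rw [eq_top_iff]
  intro q _
  obtain ⟨v, rfl⟩ := Submodule.mkQ_surjective _ q
  have : (v : V F) ∈ L0 F i ⊔ M F i := by rw [(isCompl_L0_M i).sup_eq_top]; trivial
  obtain ⟨a, ha, b, hb, hab⟩ := Submodule.mem_sup.mp this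
  have hb1 : b = v - a := by rw [← hab]; abel
  have hb' : b ∈ T := by rw [hb1]; exact T.sub_mem v.2 (hLT (h ha))
  rw [mem_qm]
  refine ⟨⟨b, hb'⟩, hb, ?_⟩
  rw [Submodule.mkQ_apply, Submodule.mkQ_apply, Submodule.Quotient.eq, mem_so]
  have : ((⟨b, hb'⟩ - v : ↥T) : V F) = -a := by
    rw [Submodule.coe_sub]
    show b - (v : V F) = -a
    rw [hb1]; abel
  rw [this]
  exact Ls.neg_mem (h ha)

theorem finrank_qm_charge {n : ℕ} {Ls T X : Submodule F (V F)} (hLs : IsLat n Ls) (hT : IsLat n T)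
    (h1 : Ls ≤ X) (h2 : X ≤ T) {c c' : ℤ} (hc : HasCharge Ls c) (hc' : HasCharge X c') :
    (finrank F ↥(qm Ls T X) : ℤ) = c' - c := by
  obtain ⟨N1, hN1⟩ := hc
  obtain ⟨N2, hN2⟩ := hc'
  obtain ⟨_, N3, hN3, _⟩ := hLs
  set i : ℤ := min (min N1 N2) (-(N3 : ℤ)) with hi
  have e1 := hN1 i (by omega)
  have e2 := hN2 i (by omega)
  have e3 : qm Ls T (M F i) = ⊤ := qm_M_top ((L0_mono (by omega)).trans hN3) (h1.trans h2)
  have e4 := finrank_qm_inf hT h1 h2 i
  rw [e3, top_inf_eq] at e4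
  omega

theorem finite_QT {n : ℕ} {Ls T : Submodule F (V F)} (hLs : IsLat n Ls) (hT : IsLat n T)
    (hLT : Ls ≤ T) : FiniteDimensional F (QT Ls T) := by
  obtain ⟨_, N, hN, _⟩ := hLs
  have h1 := qm_M_top (T := T) hN hLT
  have hfin := hT.finite (-(N : ℤ))
  exact finite_of_qm (Y := M F (-(N : ℤ))) h1

/-! ### The flag -/

/-- The flag induced by the filtration `M` on `T / Ls`. -/
noncomputable def flg (Ls T : Submodule F (V F)) (u : ℕ) : Submodule F (QT Ls T) :=
  ⨆ (i : ℤ) (_ : finrank F ↥(qm Ls T (M F i)) ≤ u), qm Ls T (M F i)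

theorem flg_mono (Ls T : Submodule F (V F)) : Monotone (flg Ls T) := by
  intro u v huv
  unfold flg
  exact iSup_mono fun i => iSup_mono' fun h => ⟨h.trans huv, le_rfl⟩

theorem finrank_M {n : ℕ} {Ls T : Submodule F (V F)} (hT : IsLat n T) (hLT : Ls ≤ T) (i : ℤ) :
    finrank F ↥(qm Ls T (M F i)) + D Ls i = D T i := by
  have := finrank_qm_inf hT hLT le_rfl i
  rwa [qm_top, inf_top_eq] at this

theorem flg_eq {n : ℕ} {Ls T : Submodule F (V F)} (hLs : IsLat n Ls) (hT : IsLat n T) (hLT : Ls ≤ T)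
    (i : ℤ) : flg Ls T (finrank F ↥(qm Ls T (M F i))) = qm Ls T (M F i) := by
  have := finite_QT hLs hT hLT
  apply le_antisymm
  · refine iSup₂_le fun j hj => ?_
    rcases le_total i j with h | h
    · exact qm_mono (M_anti h)
    · have h1 : qm Ls T (M F i) ≤ qm Ls T (M F j) := qm_mono (M_anti h)
      exact (Submodule.eq_of_le_of_finrank_le h1 hj).ge
  · exact le_iSup₂_of_le i le_rfl le_rfl

theorem exists_M_finrank {n : ℕ} {Ls T : Submodule F (V F)} (hLs : IsLat n Ls) (hT : IsLat n T)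
    (hLT : Ls ≤ T) {N : ℕ} (hN : finrank F (QT Ls T) = N) {u : ℕ} (hu : u ≤ N) :
    ∃ i : ℤ, finrank F ↥(qm Ls T (M F i)) = u := by
  obtain ⟨_, N0, hN0, _⟩ := id hLs
  obtain ⟨N1, hN1⟩ := hT.le_L0
  obtain ⟨N2, hN2⟩ := hLs.le_L0
  have key : ∀ k : ℕ, u ≤ finrank F ↥(qm Ls T (M F (N1 - k))) →
      ∃ i : ℤ, finrank F ↥(qm Ls T (M F i)) = u := by
    intro k
    induction k with
    | zero =>
      intro h
      refine ⟨N1, ?_⟩
      have h1 := finrank_M hT hLT N1
      rw [D_zero hN1 le_rfl] at h1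
      have e0 : N1 - ((0 : ℕ) : ℤ) = N1 := by simp
      rw [e0] at h
      omega
    | succ k ih =>
      intro h
      by_cases h' : u ≤ finrank F ↥(qm Ls T (M F (N1 - k)))
      · exact ih h'
      · refine ⟨N1 - ((k + 1 : ℕ) : ℤ), ?_⟩
        push Not at h'
        have h1 := finrank_M hT hLT (N1 - k)
        have h2 := finrank_M hT hLT (N1 - ((k + 1 : ℕ) : ℤ))
        have h3 := D_le_succ hN1 (N1 - ((k + 1 : ℕ) : ℤ))
        have h4 := D_succ_le hN2 (N1 - ((k + 1 : ℕ) : ℤ))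
        have e : N1 - ((k + 1 : ℕ) : ℤ) + 1 = N1 - k := by push_cast; ring
        rw [e] at h3 h4
        omega
  have htop : ∀ i : ℤ, i ≤ -(N0 : ℤ) → finrank F ↥(qm Ls T (M F i)) = N := by
    intro i hi
    rw [qm_M_top ((L0_mono hi).trans hN0) hLT, finrank_top, hN]
  obtain ⟨k, hk⟩ : ∃ k : ℕ, N1 - (k : ℤ) ≤ -(N0 : ℤ) :=
    ⟨(N1 + N0).toNat, by have := Int.self_le_toNat (N1 + N0); omega⟩
  exact key k (by rw [htop _ hk]; exact hu)

theorem finrank_flg {n : ℕ} {Ls T : Submodule F (V F)} (hLs : IsLat n Ls) (hT : IsLat n T)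
    (hLT : Ls ≤ T) {N : ℕ} (hN : finrank F (QT Ls T) = N) {u : ℕ} (hu : u ≤ N) :
    finrank F ↥(flg Ls T u) = u := by
  obtain ⟨i, hi⟩ := exists_M_finrank hLs hT hLT hN hu
  have := flg_eq hLs hT hLT i
  rw [hi] at this
  rw [this, hi]

theorem flg_exists {n : ℕ} {Ls T : Submodule F (V F)} (hLs : IsLat n Ls) (hT : IsLat n T)
    (hLT : Ls ≤ T) (u : ℕ) : ∃ i : ℤ, flg Ls T u = qm Ls T (M F i) := by
  rcases le_total u (finrank F (QT Ls T)) with h | h
  · obtain ⟨i, hi⟩ := exists_M_finrank hLs hT hLT rfl h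
    exact ⟨i, by rw [← hi]; exact flg_eq hLs hT hLT i⟩
  · obtain ⟨_, N0, hN0, _⟩ := id hLs
    have h1 := qm_M_top (T := T) hN0 hLT
    refine ⟨-(N0 : ℤ), ?_⟩
    rw [h1, eq_top_iff, ← h1]
    exact le_iSup₂_of_le (-(N0 : ℤ)) (by rw [h1, finrank_top]; exact h) le_rfl

/-- Genericity in terms of the dimension functions. -/
theorem gen_iff {n : ℕ} {Ls T A B W : Submodule F (V F)} (hLs : IsLat n Ls) (hT : IsLat n T)
    (h0 : Ls ≤ A) (h1 : A ≤ W) (h2 : W ≤ B) (h3 : B ≤ T) {c b w : ℤ} (hc : HasCharge Ls c)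
    (hb : HasCharge B b) (hw : HasCharge W w) :
    Gen (flg Ls T) (qm Ls T A) (qm Ls T B) (qm Ls T W) ↔
      ∀ i : ℤ, (D W i : ℤ) = max (D A i : ℤ) (D B i - (b - w)) := by
  have hLW := h0.trans h1
  have hLB := hLW.trans h2
  have hWT := h2.trans h3
  have hAT := h1.trans hWT
  have hLT := h0.trans hAT
  have eB := finrank_qm_charge hLs hT hLB h3 hc hb
  have eW := finrank_qm_charge hLs hT hLW hWT hc hw
  have hfin := finite_QT hLs hT hLT
  have hBW : finrank F ↥(qm Ls T W) ≤ finrank F ↥(qm Ls T B) := Submodule.finrank_mono (qm_mono h2)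
  have key : ∀ i : ℤ, (finrank F ↥(qm Ls T (M F i) ⊓ qm Ls T W) =
      max (finrank F ↥(qm Ls T (M F i) ⊓ qm Ls T A))
        (finrank F ↥(qm Ls T (M F i) ⊓ qm Ls T B) - (finrank F ↥(qm Ls T B) - finrank F ↥(qm Ls T W)))) ↔
      (D W i : ℤ) = max (D A i : ℤ) (D B i - (b - w)) := by
    intro i
    have e1 := finrank_qm_inf hT hLW hWT i
    have e2 := finrank_qm_inf hT h0 hAT i
    have e3 := finrank_qm_inf hT hLB h3 i
    omega
  unfold Gen
  constructor
  · rintro ⟨_, _, h⟩ i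
    rw [← key]
    have := h (finrank F ↥(qm Ls T (M F i)))
    rwa [flg_eq hLs hT hLT i] at this
  · intro h
    refine ⟨qm_mono h1, qm_mono h2, fun u => ?_⟩
    obtain ⟨i, hi⟩ := flg_exists hLs hT hLT u
    rw [hi, key]
    exact h i

/-! ### Profiles -/

theorem PP_shift {n : ℕ} {σ : Finset (Submodule F (V F))} {j i : ℤ} {r : ℕ} :
    PP n σ (j + n) (i + n) r ↔ PP n σ j i r := by
  unfold PP
  rw [show j + (n : ℤ) - (i + n) = j - i by ring]
  refine or_congr Iff.rfl (exists_congr fun L => and_congr Iff.rfl (exists_congr fun c => ?_))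
  constructor
  · rintro ⟨m, h1, h2⟩
    refine ⟨m - 1, h1, ?_⟩
    have e : D (tr n m L) (i + n) = D (tr n (m - 1) L) i := by
      rw [D_tr', D_tr']; congr 1; ring
    rw [e] at h2
    rwa [show c + (m - 1) * (n : ℤ) - j = c + m * n - (j + n) by ring]
  · rintro ⟨m, h1, h2⟩
    refine ⟨m + 1, h1, ?_⟩
    have e : D (tr n (m + 1) L) (i + n) = D (tr n m L) i := by
      rw [D_tr', D_tr']; congr 1; ring
    rw [e]
    rwa [show c + (m + 1) * (n : ℤ) - (j + n) = c + m * n - j by ring]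

theorem prof_shift {n : ℕ} {σ : Finset (Submodule F (V F))} {L : Submodule F (V F)} {c : ℤ} :
    (∀ (i : ℤ) (r : ℕ), (r ≤ D (tr n 1 L) i ↔ PP n σ (c + n) i r)) ↔
      ∀ (i : ℤ) (r : ℕ), (r ≤ D L i ↔ PP n σ c i r) := by
  constructor
  · intro h i r
    have := h (i + n) r
    rw [PP_shift] at this
    rw [← this]
    have e := D_tr n 1 i L
    rw [one_mul] at e
    rw [e]
  · intro h i r
    have := h (i - n) r
    have e2 : PP n σ (c + n) i r ↔ PP n σ c (i - n) r := by
      rw [← PP_shift (j := c) (i := i - n), sub_add_cancel]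
    rw [e2, ← this]
    have e := D_tr' n 1 i L
    rw [one_mul] at e
    rw [e]

theorem PP_iff {n : ℕ} {σ : Finset (Submodule F (V F))} {Ls : Submodule F (V F)} (hLs : Ls ∈ σ)
    (hlat : ∀ X ∈ σ, IsLat n X) (hbt : ∀ X ∈ σ, Ls ≤ X ∧ X ≤ tr n 1 Ls) {A B : Submodule F (V F)}
    (hA : A ∈ σ ∨ A = tr n 1 Ls) (hB : B ∈ σ ∨ B = tr n 1 Ls)
    (hnb : ∀ X, X ∈ σ ∨ X = tr n 1 Ls → X ≤ A ∨ B ≤ X)
    {a b w : ℤ} (ha : HasCharge A a) (hb : HasCharge B b) (haw : a ≤ w) (hwb : w ≤ b) (i : ℤ) (r : ℕ) :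
    PP n σ w i r ↔ r ≤ D A i ∨ (r : ℤ) + (b - w) ≤ D B i := by
  have hLsT : Ls ≤ tr n 1 Ls := le_tr_one (hlat Ls hLs)
  have hbt' : ∀ X, X ∈ σ ∨ X = tr n 1 Ls → Ls ≤ X ∧ X ≤ tr n 1 Ls := by
    rintro X (h | rfl)
    · exact hbt X h
    · exact ⟨hLsT, le_rfl⟩
  have hlat' : ∀ X, X ∈ σ ∨ X = tr n 1 Ls → IsLat n X := by
    rintro X (h | rfl)
    · exact hlat X h
    · exact (hlat Ls hLs).tr 1
  have hmem : ∀ X, X ∈ σ ∨ X = tr n 1 Ls → ∀ x, HasCharge X x →
      ∃ L ∈ σ, ∃ c m : ℤ, HasCharge L c ∧ x = c + m * n ∧ X = tr n m L := by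
    rintro X (h | rfl) x hx
    · exact ⟨X, h, x, 0, hx, by ring, (tr_zero n X).symm⟩
    · obtain ⟨c, hc⟩ := (hlat Ls hLs).hasCharge
      refine ⟨Ls, hLs, c, 1, hc, ?_, rfl⟩
      exact hx.unique (hc.tr n 1)
  unfold PP
  constructor
  · rintro (h | ⟨L, hL, c, m, hc, h⟩)
    · by_cases hr : (r : ℤ) ≤ 0
      · left; omega
      · right
        have := charge_le_D (hlat' B hB) hb i
        omega
    · have hX : tr n m L ≤ A ∨ B ≤ tr n m L := by
        rcases lt_trichotomy m 0 with hm | rfl | hm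
        · left
          calc tr n m L ≤ tr n (-1) L := tr_le_tr_of_le (hlat L hL) (by omega)
            _ ≤ tr n (-1) (tr n 1 Ls) := tr_mono _ _ (hbt L hL).2
            _ = Ls := tr_neg_one_tr_one Ls
            _ ≤ A := (hbt' A hA).1
        · rw [tr_zero]; exact hnb L (Or.inl hL)
        · right
          calc B ≤ tr n 1 Ls := (hbt' B hB).2
            _ ≤ tr n 1 L := tr_mono _ _ (hbt L hL).1
            _ ≤ tr n m L := tr_le_tr_of_le (hlat L hL) (by omega)
      rcases hX with hX | hX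
      · left
        have := D_mono (hlat' A hA) hX i
        have h0 : (0 : ℤ) ≤ max (c + m * n - w) 0 := le_max_right _ _
        omega
      · right
        have h1 := D_diff_le (hlat' B hB) ((hlat L hL).tr m) hX hb (hc.tr n m) i
        have h0 : c + m * n - w ≤ max (c + m * n - w) 0 := le_max_left _ _
        generalize c + m * (n : ℤ) = x at *
        omega
  · rintro (h | h)
    · right
      obtain ⟨L, hL, c, m, hc, hx, rfl⟩ := hmem A hA a ha
      refine ⟨L, hL, c, m, hc, ?_⟩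
      rw [← hx]
      omega
    · right
      obtain ⟨L, hL, c, m, hc, hx, rfl⟩ := hmem B hB b hb
      refine ⟨L, hL, c, m, hc, ?_⟩
      rw [← hx]
      omega

/-- The main translation: genericity of `W` in its gap of the periodic chain. -/
theorem prof_iff {n : ℕ} {σ : Finset (Submodule F (V F))} {Ls : Submodule F (V F)} (hLs : Ls ∈ σ)
    (hlat : ∀ X ∈ σ, IsLat n X) (hbt : ∀ X ∈ σ, Ls ≤ X ∧ X ≤ tr n 1 Ls) {A B W : Submodule F (V F)}
    (hA : A ∈ σ ∨ A = tr n 1 Ls) (hB : B ∈ σ ∨ B = tr n 1 Ls)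
    (hnb : ∀ X, X ∈ σ ∨ X = tr n 1 Ls → X ≤ A ∨ B ≤ X)
    {w : ℤ} (hw : HasCharge W w) (hAW : A ≤ W) (hWB : W ≤ B) :
    Gen (flg Ls (tr n 1 Ls)) (qm Ls (tr n 1 Ls) A) (qm Ls (tr n 1 Ls) B) (qm Ls (tr n 1 Ls) W) ↔
      ∀ (i : ℤ) (r : ℕ), (r ≤ D W i ↔ PP n σ w i r) := by
  have hLsT : Ls ≤ tr n 1 Ls := le_tr_one (hlat Ls hLs)
  have hbt' : ∀ X, X ∈ σ ∨ X = tr n 1 Ls → Ls ≤ X ∧ X ≤ tr n 1 Ls := by
    rintro X (h | rfl)
    · exact hbt X h
    · exact ⟨hLsT, le_rfl⟩
  have hlat' : ∀ X, X ∈ σ ∨ X = tr n 1 Ls → IsLat n X := by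
    rintro X (h | rfl)
    · exact hlat X h
    · exact (hlat Ls hLs).tr 1
  have hWlat : IsLat n W := isLat_of_between (hlat Ls hLs) ((hbt' A hA).1.trans hAW) (hWB.trans (hbt' B hB).2)
  obtain ⟨c, hc⟩ := (hlat Ls hLs).hasCharge
  obtain ⟨a, ha⟩ := (hlat' A hA).hasCharge
  obtain ⟨b, hb⟩ := (hlat' B hB).hasCharge
  have haw := charge_mono hWlat hAW ha hw
  have hwb := charge_mono (hlat' B hB) hWB hw hb
  rw [gen_iff (hlat Ls hLs) ((hlat Ls hLs).tr 1) (hbt' A hA).1 hAW hWB (hbt' B hB).2 hc hb hw]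
  constructor
  · intro h i r
    rw [PP_iff hLs hlat hbt hA hB hnb ha hb haw hwb i r]
    have := h i
    omega
  · intro h i
    have h1 := fun r => (h i r).trans (PP_iff hLs hlat hbt hA hB hnb ha hb haw hwb i r)
    have h2 := (h1 (D W i)).mp le_rfl
    have h3 := (h1 (D A i)).mpr (Or.inl le_rfl)
    have h4 : (D B i : ℤ) - (b - w) ≤ D W i := by
      by_cases h5 : 0 ≤ (D B i : ℤ) - (b - w)
      · have h6 := (h1 ((D B i : ℤ) - (b - w)).toNat).mpr (Or.inr (by omega))
        omega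
      · omega
    omega

/-! ### Walls -/

open Classical in
/-- The walls: the images of the vertices of `σ` and of `tr n 1 Ls`. -/
noncomputable def Wls (n : ℕ) (σ : Finset (Submodule F (V F))) (Ls : Submodule F (V F)) :
    Finset (Submodule F (QT Ls (tr n 1 Ls))) :=
  (insert (tr n 1 Ls) σ).image (qm Ls (tr n 1 Ls))

theorem mem_Wls {n : ℕ} {σ : Finset (Submodule F (V F))} {Ls : Submodule F (V F)}
    {X : Submodule F (QT Ls (tr n 1 Ls))} :
    X ∈ Wls n σ Ls ↔ ∃ Y, (Y ∈ σ ∨ Y = tr n 1 Ls) ∧ qm Ls (tr n 1 Ls) Y = X := by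
  unfold Wls
  rw [Finset.mem_image]
  refine exists_congr fun Y => and_congr ?_ Iff.rfl
  rw [Finset.mem_insert]
  exact or_comm

theorem gap_iff {n : ℕ} {σ : Finset (Submodule F (V F))} {Ls : Submodule F (V F)} (hLs : Ls ∈ σ)
    (hlat : ∀ X ∈ σ, IsLat n X) (hbt : ∀ X ∈ σ, Ls ≤ X ∧ X ≤ tr n 1 Ls)
    (hch : ∀ X ∈ σ, ∀ Y ∈ σ, X ≤ Y ∨ Y ≤ X)
    {W : Submodule F (V F)} {w : ℤ} (hw : HasCharge W w) (h1 : Ls ≤ W) (h2 : W ≤ tr n 1 Ls)
    (hcomp : ∀ X ∈ σ, X ≤ W ∨ W ≤ X) (hWσ : W ∉ σ) (hWT : W ≠ tr n 1 Ls) :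
    (∃ A ∈ Wls n σ Ls, ∃ B ∈ Wls n σ Ls, A < qm Ls (tr n 1 Ls) W ∧ qm Ls (tr n 1 Ls) W < B ∧
       (∀ X ∈ Wls n σ Ls, X ≤ A ∨ B ≤ X) ∧
        Gen (flg Ls (tr n 1 Ls)) A B (qm Ls (tr n 1 Ls) W)) ↔
    ∀ (i : ℤ) (r : ℕ), (r ≤ D W i ↔ PP n σ w i r) := by
  classical
  have hLsT : Ls ≤ tr n 1 Ls := le_tr_one (hlat Ls hLs)
  have hbt' : ∀ X, X ∈ σ ∨ X = tr n 1 Ls → Ls ≤ X ∧ X ≤ tr n 1 Ls := by
    rintro X (h | rfl)
    · exact hbt X h
    · exact ⟨hLsT, le_rfl⟩
  have hch' : ∀ X, X ∈ σ ∨ X = tr n 1 Ls → ∀ Y, Y ∈ σ ∨ Y = tr n 1 Ls → X ≤ Y ∨ Y ≤ X := by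
    rintro X (h | rfl) Y (h' | rfl)
    · exact hch X h Y h'
    · exact Or.inl (hbt X h).2
    · exact Or.inr (hbt Y h').2
    · exact Or.inl le_rfl
  have hcomp' : ∀ X, X ∈ σ ∨ X = tr n 1 Ls → X ≤ W ∨ W ≤ X := by
    rintro X (h | rfl)
    · exact hcomp X h
    · exact Or.inr h2
  have hne' : ∀ X, X ∈ σ ∨ X = tr n 1 Ls → X ≠ W := by
    rintro X (h | rfl) rfl
    · exact hWσ h
    · exact hWT rfl
  constructor
  · rintro ⟨A0, hA0, B0, hB0, hAW, hWB, hnb, hgen⟩
    obtain ⟨A, hA, rfl⟩ := mem_Wls.mp hA0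
    obtain ⟨B, hB, rfl⟩ := mem_Wls.mp hB0
    refine (prof_iff hLs hlat hbt hA hB ?_ hw ?_ ?_).mp hgen
    · intro X hX
      rcases hnb _ (mem_Wls.mpr ⟨X, hX, rfl⟩) with h | h
      · exact Or.inl ((qm_le_qm (hbt' X hX).2 (hbt' A hA).1).mp h)
      · exact Or.inr ((qm_le_qm (hbt' B hB).2 (hbt' X hX).1).mp h)
    · exact (qm_le_qm (hbt' A hA).2 h1).mp hAW.le
    · exact (qm_le_qm h2 (hbt' B hB).1).mp hWB.le
  · intro h
    obtain ⟨A, hA⟩ : ∃ A, Maximal (· ∈ (insert (tr n 1 Ls) σ).filter (· ≤ W)) A := by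
      apply Finset.exists_maximal
      exact ⟨Ls, Finset.mem_filter.mpr ⟨Finset.mem_insert_of_mem hLs, h1⟩⟩
    obtain ⟨B, hB⟩ : ∃ B, Minimal (· ∈ (insert (tr n 1 Ls) σ).filter (W ≤ ·)) B := by
      apply Finset.exists_minimal
      exact ⟨tr n 1 Ls, Finset.mem_filter.mpr ⟨Finset.mem_insert_self _ _, h2⟩⟩
    obtain ⟨hA1, hA2⟩ := hA
    obtain ⟨hB1, hB2⟩ := hB
    simp only [Finset.mem_filter, Finset.mem_insert] at hA1 hA2 hB1 hB2
    have hA3 : A ∈ σ ∨ A = tr n 1 Ls := hA1.1.symm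
    have hB3 : B ∈ σ ∨ B = tr n 1 Ls := hB1.1.symm
    have hnb : ∀ X, X ∈ σ ∨ X = tr n 1 Ls → X ≤ A ∨ B ≤ X := by
      intro X hX
      rcases hcomp' X hX with hXW | hXW
      · left
        rcases hch' X hX A hA3 with h' | h'
        · exact h'
        · exact hA2 ⟨hX.symm, hXW⟩ h'
      · right
        rcases hch' X hX B hB3 with h' | h'
        · exact hB2 ⟨hX.symm, hXW⟩ h'
        · exact h'
    refine ⟨_, mem_Wls.mpr ⟨A, hA3, rfl⟩, _, mem_Wls.mpr ⟨B, hB3, rfl⟩, ?_, ?_, ?_, ?_⟩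
    · refine lt_of_le_of_ne (qm_mono hA1.2) fun e => ?_
      exact hne' A hA3 (qm_inj (hbt' A hA3).2 h2 (hbt' A hA3).1 h1 e)
    · refine lt_of_le_of_ne (qm_mono hB1.2) fun e => ?_
      exact hne' B hB3 (qm_inj (hbt' B hB3).2 h2 (hbt' B hB3).1 h1 e.symm)
    · intro X0 hX0
      obtain ⟨X, hX, rfl⟩ := mem_Wls.mp hX0
      rcases hnb X hX with h' | h'
      · exact Or.inl (qm_mono h')
      · exact Or.inr (qm_mono h')
    · exact (prof_iff hLs hlat hbt hA3 hB3 hnb hw hA1.2 hB1.2).mpr h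

/-! ### The normalised representative above `Ls` -/

theorem adj_le {n : ℕ} {X Y : Submodule F (V F)} (hX : IsLat n X) (hY : IsLat n Y) (h : Adj n X Y)
    {x y : ℤ} (hx : HasCharge X x) (hy : HasCharge Y y) (hxy : x ≤ y) : X ≤ Y ∧ Y ≤ tr n 1 X := by
  rcases h with h | ⟨h1, h2⟩
  · exact h
  · have := eq_of_le_of_charge hY hX h1 hy hx hxy
    subst this
    exact ⟨le_rfl, le_tr_one hX⟩

theorem Adj.symm {n : ℕ} {X Y : Submodule F (V F)} (h : Adj n X Y) : Adj n Y X := Or.symm h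

open Classical in
/-- The representative of `L` between `Ls` and `tr n 1 Ls`. -/
noncomputable def up (n : ℕ) (Ls L : Submodule F (V F)) : Submodule F (V F) :=
  if Ls ≤ L then L else tr n 1 L

theorem up_spec {n : ℕ} {Ls L : Submodule F (V F)} (hLs : IsLat n Ls) (hL : IsLat n L)
    (h : Adj n Ls L) {c l : ℤ} (hc : HasCharge Ls c) (hl : HasCharge L l) :
    (c ≤ l ∧ Ls ≤ L ∧ L ≤ tr n 1 Ls ∧ up n Ls L = L) ∨
    (l < c ∧ Ls ≤ tr n 1 L ∧ tr n 1 L ≤ tr n 1 Ls ∧ up n Ls L = tr n 1 L) := by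
  rcases le_or_gt c l with hcl | hcl
  · left
    obtain ⟨h1, h2⟩ := adj_le hLs hL h hc hl hcl
    exact ⟨hcl, h1, h2, if_pos h1⟩
  · right
    obtain ⟨h1, h2⟩ := adj_le hL hLs h.symm hl hc hcl.le
    refine ⟨hcl, h2, tr_mono _ _ h1, if_neg fun h3 => ?_⟩
    have := charge_mono hL h3 hc hl
    omega

theorem up_between {n : ℕ} {Ls L : Submodule F (V F)} (hLs : IsLat n Ls) (hL : IsLat n L)
    (h : Adj n Ls L) {c l : ℤ} (hc : HasCharge Ls c) (hl : HasCharge L l) :
    Ls ≤ up n Ls L ∧ up n Ls L ≤ tr n 1 Ls := by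
  rcases up_spec hLs hL h hc hl with ⟨_, h1, h2, e⟩ | ⟨_, h1, h2, e⟩ <;> rw [e] <;> exact ⟨h1, h2⟩

theorem up_comp {n : ℕ} {Ls L L' : Submodule F (V F)} (hLs : IsLat n Ls) (hL : IsLat n L)
    (hL' : IsLat n L') (h : Adj n Ls L) (h' : Adj n Ls L') (h'' : Adj n L L') {c l l' : ℤ}
    (hc : HasCharge Ls c) (hl : HasCharge L l) (hl' : HasCharge L' l') :
    up n Ls L ≤ up n Ls L' ∨ up n Ls L' ≤ up n Ls L := by
  rcases up_spec hLs hL h hc hl with ⟨a1, h1, h2, e⟩ | ⟨a1, h1, h2, e⟩ <;>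
    rcases up_spec hLs hL' h' hc hl' with ⟨a2, h3, h4, e'⟩ | ⟨a2, h3, h4, e'⟩ <;> rw [e, e']
  · rcases h'' with h'' | h''
    · exact Or.inl h''.1
    · exact Or.inr h''.1
  · exact Or.inl (adj_le hL' hL h''.symm hl' hl (by omega)).2
  · exact Or.inr (adj_le hL hL' h'' hl hl' (by omega)).2
  · rcases h'' with h'' | h''
    · exact Or.inl (tr_mono _ _ h''.1)
    · exact Or.inr (tr_mono _ _ h''.1)

open Classical in
/-- Inverse normalisation: the representative with charge in `[0, n)`. -/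
noncomputable def dn (n : ℕ) (W : Submodule F (V F)) : Submodule F (V F) :=
  if ∃ w : ℤ, HasCharge W w ∧ w < n then W else tr n (-1) W

theorem dn_spec {n : ℕ} {W : Submodule F (V F)} {w : ℤ} (hw : HasCharge W w) :
    (w < n ∧ dn n W = W) ∨ ((n : ℤ) ≤ w ∧ dn n W = tr n (-1) W) := by
  rcases lt_or_ge w n with h | h
  · exact Or.inl ⟨h, if_pos ⟨w, hw, h⟩⟩
  · refine Or.inr ⟨h, if_neg ?_⟩
    rintro ⟨w', hw', h'⟩
    have := hw.unique hw'
    omega

theorem dn_adj {n : ℕ} {Ls X Y : Submodule F (V F)} (hYl : IsLat n Y) (hX : Ls ≤ X)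
    (hY : Y ≤ tr n 1 Ls) (h : X ≤ Y) {x y : ℤ} (hx : HasCharge X x) (hy : HasCharge Y y) :
    Adj n (dn n X) (dn n Y) := by
  have hXY : Y ≤ tr n 1 X := hY.trans (tr_mono _ _ hX)
  have hxy := charge_mono hYl h hx hy
  rcases dn_spec (n := n) hx with ⟨a1, e1⟩ | ⟨a1, e1⟩ <;>
    rcases dn_spec (n := n) hy with ⟨a2, e2⟩ | ⟨a2, e2⟩ <;> rw [e1, e2]
  · exact Or.inl ⟨h, hXY⟩
  · refine Or.inr ⟨?_, ?_⟩
    · have := tr_mono n (-1) hXY
      rwa [tr_neg_one_tr_one] at this
    · rwa [tr_one_tr_neg_one]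
  · omega
  · refine Or.inl ⟨tr_mono _ _ h, ?_⟩
    have := tr_mono n (-1) hXY
    rw [tr_neg_one_tr_one] at this
    rwa [tr_one_tr_neg_one]

/-! ### Bookkeeping -/

theorem charge_range {n : ℕ} {s : Finset (Submodule F (V F))} (hs : s ∈ BCx F n) {L : Submodule F (V F)}
    (hL : L ∈ s) {l : ℤ} (hl : HasCharge L l) : 0 ≤ l ∧ l < n := by
  obtain ⟨_, c, h1, h2, h3⟩ := hs.1 L hL
  have := hl.unique h3
  omega

/-- A vertex of the link (simplex side). -/
theorem mem_gen_of_link {n : ℕ} {σ : Finset (Submodule F (V F))} {Ls : Submodule F (V F)} {c : ℤ}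
    (hLs : Ls ∈ σ) (hc : HasCharge Ls c) (hmin : ∀ X ∈ σ, ∀ x, HasCharge X x → c ≤ x)
    {τ : Finset (Submodule F (V F))} (hτ : τ ∈ BCx F n) (hστ : σ ⊆ τ) {L : Submodule F (V F)}
    (hL : L ∈ τ) (hLσ : L ∉ σ)
    (hprof : ∀ c : ℤ, HasCharge L c → ∀ (i : ℤ) (r : ℕ), (r ≤ D L i ↔ PP n σ c i r)) :
    (∃ A ∈ Wls n σ Ls, ∃ B ∈ Wls n σ Ls, A < qm Ls (tr n 1 Ls) (up n Ls L) ∧
       qm Ls (tr n 1 Ls) (up n Ls L) < B ∧
       (∀ X ∈ Wls n σ Ls, X ≤ A ∨ B ≤ X) ∧
        Gen (flg Ls (tr n 1 Ls)) A B (qm Ls (tr n 1 Ls) (up n Ls L))) := by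
  have hlatτ : ∀ X ∈ τ, IsLat n X := fun X hX => (hτ.1 X hX).1
  have hlat : ∀ X ∈ σ, IsLat n X := fun X hX => hlatτ X (hστ hX)
  have hLsl := hlat Ls hLs
  have hLl := hlatτ L hL
  obtain ⟨l, hl⟩ := hLl.hasCharge
  have hcr := charge_range hτ (hστ hLs) hc
  have hlr := charge_range hτ hL hl
  have hbt : ∀ X ∈ σ, Ls ≤ X ∧ X ≤ tr n 1 Ls := by
    intro X hX
    obtain ⟨x, hx⟩ := (hlat X hX).hasCharge
    exact adj_le hLsl (hlat X hX) (hτ.2 _ (hστ hLs) _ (hστ hX)) hc hx (hmin X hX x hx)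
  have hch : ∀ X ∈ σ, ∀ Y ∈ σ, X ≤ Y ∨ Y ≤ X := by
    intro X hX Y hY
    rcases hτ.2 _ (hστ hX) _ (hστ hY) with h | h
    · exact Or.inl h.1
    · exact Or.inr h.1
  have hadj := hτ.2 _ (hστ hLs) _ hL
  have hb := up_between hLsl hLl hadj hc hl
  have hcomp : ∀ X ∈ σ, X ≤ up n Ls L ∨ up n Ls L ≤ X := by
    intro X hX
    obtain ⟨x, hx⟩ := (hlat X hX).hasCharge
    have hX' := hτ.2 _ (hστ hLs) _ (hστ hX)
    have e : up n Ls X = X := if_pos (hbt X hX).1
    have := up_comp hLsl (hlat X hX) hLl hX' hadj (hτ.2 _ (hστ hX) _ hL) hc hx hl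
    rwa [e] at this
  have hTc : HasCharge (tr n 1 Ls) (c + n) := by
    have := hc.tr n 1
    rwa [one_mul] at this
  have hTL : HasCharge (tr n 1 L) (l + n) := by
    have := hl.tr n 1
    rwa [one_mul] at this
  rcases up_spec hLsl hLl hadj hc hl with ⟨a1, h1, h2, e⟩ | ⟨a1, h1, h2, e⟩
  · refine (gap_iff hLs hlat hbt hch (by rw [e]; exact hl) hb.1 hb.2 hcomp ?_ ?_).mpr ?_
    · rw [e]; exact hLσ
    · rw [e]
      rintro rfl
      have := hl.unique hTc
      omega
    · rw [e]; exact hprof l hl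
  · refine (gap_iff hLs hlat hbt hch (w := l + n) (by rw [e]; exact hTL) hb.1 hb.2 hcomp ?_ ?_).mpr ?_
    · rw [e]
      intro h
      have := charge_range hτ (hστ h) hTL
      omega
    · rw [e]
      intro h
      rw [h] at hTL
      have := hTL.unique hTc
      omega
    · rw [e]; exact prof_shift.mpr (hprof l hl)

end LatFacts

end Crest.Agent.R066.Lat.Lk

namespace Crest.Agent.R066.Lat

open Lk

open Classical in
theorem link_exact (n : ℕ) (hn : 1 ≤ n) : ∃ q₀ : ℕ, ∀ (F : Type) [Field F] [Fintype F],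
    q₀ ≤ Fintype.card F → ∀ σ ∈ BCx F n, σ.Nonempty → ∀ i, i + σ.card + 1 ≤ n →
      ExactAt (LinkC F n σ) i := by
  obtain ⟨R, q0, H⟩ := cone_exists n
  refine ⟨q0, fun F _ _ hq σ hσ hne i hi => ?_⟩
  -- the vertex of smallest charge
  have hlat : ∀ X ∈ σ, IsLat n X := fun X hX => (hσ.1 X hX).1
  have hch0 : ∀ X ∈ σ, ∃ c : ℤ, HasCharge X c := fun X hX => (hlat X hX).hasCharge
  choose! ch hch1 using hch0
  obtain ⟨Ls, hLs, hmin0⟩ := Finset.exists_min_image σ ch hne
  have hc := hch1 Ls hLs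
  set c := ch Ls with hcdef
  have hmin : ∀ X ∈ σ, ∀ x, HasCharge X x → c ≤ x := by
    intro X hX x hx
    rw [hx.unique (hch1 X hX)]
    exact hmin0 X hX
  have hLsl := hlat Ls hLs
  have hcr := charge_range hσ hLs hc
  have hLsT : Ls ≤ tr n 1 Ls := le_tr_one hLsl
  have hTl : IsLat n (tr n 1 Ls) := hLsl.tr 1
  have hTc : HasCharge (tr n 1 Ls) (c + n) := by
    have := hc.tr n 1
    rwa [one_mul] at this
  have hbt : ∀ X ∈ σ, Ls ≤ X ∧ X ≤ tr n 1 Ls := by
    intro X hX
    obtain ⟨x, hx⟩ := (hlat X hX).hasCharge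
    exact adj_le hLsl (hlat X hX) (hσ.2 _ hLs _ hX) hc hx (hmin X hX x hx)
  have hbt' : ∀ X, X ∈ σ ∨ X = tr n 1 Ls → Ls ≤ X ∧ X ≤ tr n 1 Ls := by
    rintro X (h | rfl)
    · exact hbt X h
    · exact ⟨hLsT, le_rfl⟩
  have hch : ∀ X ∈ σ, ∀ Y ∈ σ, X ≤ Y ∨ Y ≤ X := by
    intro X hX Y hY
    rcases hσ.2 _ hX _ hY with h | h
    · exact Or.inl h.1
    · exact Or.inr h.1
  have hfin : FiniteDimensional F (QT Ls (tr n 1 Ls)) := finite_QT hLsl hTl hLsT
  have hrank : finrank F (QT Ls (tr n 1 Ls)) = n := by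
    have h1 := finrank_qm_charge hLsl hTl hLsT le_rfl hc hTc
    rw [qm_top, finrank_top] at h1
    omega
  have hTσ : tr n 1 Ls ∉ σ := by
    intro h
    have := charge_range hσ h hTc
    omega
  have hcard : (Wls n σ Ls).card = σ.card + 1 := by
    unfold Wls
    rw [Finset.card_image_of_injOn, Finset.card_insert_of_notMem hTσ]
    intro X hX Y hY e
    have hX' : X ∈ σ ∨ X = tr n 1 Ls := by
      rw [Finset.mem_coe, Finset.mem_insert] at hX; exact hX.symm
    have hY' : Y ∈ σ ∨ Y = tr n 1 Ls := by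
      rw [Finset.mem_coe, Finset.mem_insert] at hY; exact hY.symm
    exact qm_inj (hbt' X hX').2 (hbt' Y hY').2 (hbt' X hX').1 (hbt' Y hY').1 e
  obtain ⟨κ, hκ⟩ := H F hq (QT Ls (tr n 1 Ls)) hrank (flg Ls (tr n 1 Ls)) (flg_mono _ _)
    (fun u hu => finrank_flg hLsl hTl hLsT hrank hu) (Wls n σ Ls)
    (mem_Wls.mpr ⟨Ls, Or.inl hLs, qm_bot _ _⟩) (mem_Wls.mpr ⟨_, Or.inr rfl, qm_top _ _⟩) (by
      intro A0 hA0 B0 hB0
      obtain ⟨A, hA, rfl⟩ := mem_Wls.mp hA0
      obtain ⟨B, hB, rfl⟩ := mem_Wls.mp hB0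
      have : A ≤ B ∨ B ≤ A := by
        rcases hA with hA | rfl <;> rcases hB with hB | rfl
        · exact hch A hA B hB
        · exact Or.inl (hbt A hA).2
        · exact Or.inr (hbt B hB).2
        · exact Or.inl le_rfl
      exact this.imp qm_mono qm_mono)
  have hGex : ExactAt (GenCx (flg Ls (tr n 1 Ls)) (Wls n σ Ls)) i := by
    refine exactAt_of_coneOp ?_ i κ ?_
    · intro s hs t ht
      exact ⟨fun W hW => hs.1 W (ht hW), fun W hW W' hW' => hs.2 W (ht hW) W' (ht hW')⟩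
    · intro s hs hsi
      have := hκ s hs (by rw [hcard]; omega)
      exact ⟨this.1, this.2.1⟩
  refine (exactAt_of_iso (fun L => qm Ls (tr n 1 Ls) (up n Ls L)) ?_ ?_ ?_ i).mpr hGex
  · -- injectivity
    rintro s hs t ht L hL L' hL' e
    have hsB := hs.2.1
    have htB := ht.2.1
    have hLs1 : L ∈ s ∪ σ := Finset.mem_union_left _ hL
    have hLs2 : L' ∈ t ∪ σ := Finset.mem_union_left _ hL'
    have hLl := (hsB.1 L hLs1).1
    have hLl' := (htB.1 L' hLs2).1
    obtain ⟨l, hl⟩ := hLl.hasCharge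
    obtain ⟨l', hl'⟩ := hLl'.hasCharge
    have hr := charge_range hsB hLs1 hl
    have hr' := charge_range htB hLs2 hl'
    have hadj := hsB.2 Ls (Finset.mem_union_right _ hLs) L hLs1
    have hadj' := htB.2 Ls (Finset.mem_union_right _ hLs) L' hLs2
    have hb := up_between hLsl hLl hadj hc hl
    have hb' := up_between hLsl hLl' hadj' hc hl'
    have e2 : up n Ls L = up n Ls L' := qm_inj hb.2 hb'.2 hb.1 hb'.1 e
    have hTL : HasCharge (tr n 1 L) (l + n) := by
      have := hl.tr n 1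
      rwa [one_mul] at this
    have hTL' : HasCharge (tr n 1 L') (l' + n) := by
      have := hl'.tr n 1
      rwa [one_mul] at this
    rcases up_spec hLsl hLl hadj hc hl with ⟨a1, _, _, e3⟩ | ⟨a1, _, _, e3⟩ <;>
      rcases up_spec hLsl hLl' hadj' hc hl' with ⟨a2, _, _, e4⟩ | ⟨a2, _, _, e4⟩ <;>
      rw [e3, e4] at e2
    · exact e2
    · rw [← e2] at hTL'
      have := hl.unique hTL'
      omega
    · rw [e2] at hTL
      have := hl'.unique hTL
      omega
    · exact tr_injective n 1 e2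
  · -- image
    intro s hs
    have hsB := hs.2.1
    constructor
    · intro W hW
      obtain ⟨L, hL, rfl⟩ := Finset.mem_image.mp hW
      exact mem_gen_of_link hLs hc hmin hsB Finset.subset_union_right (Finset.mem_union_left _ hL)
        (Finset.disjoint_left.mp hs.1 hL) (hs.2.2 L hL)
    · intro W hW W' hW'
      obtain ⟨L, hL, rfl⟩ := Finset.mem_image.mp hW
      obtain ⟨L', hL', rfl⟩ := Finset.mem_image.mp hW'
      have h1 : L ∈ s ∪ σ := Finset.mem_union_left _ hL
      have h2 : L' ∈ s ∪ σ := Finset.mem_union_left _ hL'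
      have h3 : Ls ∈ s ∪ σ := Finset.mem_union_right _ hLs
      obtain ⟨l, hl⟩ := (hsB.1 L h1).1.hasCharge
      obtain ⟨l', hl'⟩ := (hsB.1 L' h2).1.hasCharge
      exact (up_comp hLsl (hsB.1 L h1).1 (hsB.1 L' h2).1 (hsB.2 _ h3 _ h1) (hsB.2 _ h3 _ h2)
        (hsB.2 _ h1 _ h2) hc hl hl').imp qm_mono qm_mono
  · -- surjectivity
    intro t ht
    set ψ : Submodule F (QT Ls (tr n 1 Ls)) → Submodule F (V F) :=
      fun W => dn n (lft Ls (tr n 1 Ls) W) with hψ
    -- facts about one subspace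
    have hW1 : ∀ W ∈ t, ∃ w : ℤ, HasCharge (lft Ls (tr n 1 Ls) W) w ∧ c ≤ w ∧ w < c + n ∧
        IsLat n (lft Ls (tr n 1 Ls) W) := by
      intro W hW
      have hl1 := le_lft hLsT W
      have hl2 := lft_le Ls (tr n 1 Ls) W
      have hlW : IsLat n (lft Ls (tr n 1 Ls) W) := isLat_of_between hLsl hl1 hl2
      obtain ⟨w, hw⟩ := hlW.hasCharge
      refine ⟨w, hw, charge_mono hlW hl1 hc hw, ?_, hlW⟩
      obtain ⟨A, hA, B, hB, hAW, hWB, -, -⟩ := ht.1 W hW
      by_contra hcon
      push Not at hcon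
      have h4 := eq_of_le_of_charge hlW hTl hl2 hw hTc hcon
      have h5 : W = ⊤ := by rw [← qm_lft hLsT W, h4, qm_top]
      rw [h5] at hWB
      exact not_top_lt hWB
    have hφψ : ∀ W ∈ t, qm Ls (tr n 1 Ls) (up n Ls (ψ W)) = W := by
      intro W hW
      obtain ⟨w, hw, h1, h2, hlW⟩ := hW1 W hW
      rcases dn_spec (n := n) hw with ⟨a1, e1⟩ | ⟨a1, e1⟩
      · have : up n Ls (ψ W) = lft Ls (tr n 1 Ls) W := by
          show up n Ls (dn n _) = _
          rw [e1]
          exact if_pos (le_lft hLsT W)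
        rw [this, qm_lft hLsT]
      · have : up n Ls (ψ W) = lft Ls (tr n 1 Ls) W := by
          show up n Ls (dn n _) = _
          rw [e1]
          have h3 : ¬ Ls ≤ tr n (-1) (lft Ls (tr n 1 Ls) W) := by
            intro h3
            have := charge_mono (hlW.tr (-1)) h3 hc (hw.tr n (-1))
            omega
          unfold up
          rw [if_neg h3, tr_one_tr_neg_one]
        rw [this, qm_lft hLsT]
    have himg : (t.image ψ).image (fun L => qm Ls (tr n 1 Ls) (up n Ls L)) = t := by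
      rw [Finset.image_image]
      conv_rhs => rw [← Finset.image_id (s := t)]
      exact Finset.image_congr fun W hW => hφψ W hW
    -- membership of a wall
    have hwall : ∀ X ∈ σ, qm Ls (tr n 1 Ls) X ∉ t := by
      intro X hX h
      obtain ⟨A, hA, B, hB, hAW, hWB, hnb, -⟩ := ht.1 _ h
      rcases hnb _ (mem_Wls.mpr ⟨X, Or.inl hX, rfl⟩) with h' | h'
      · exact absurd hAW (not_lt_of_ge h')
      · exact absurd hWB (not_lt_of_ge h')
    have hcompW : ∀ W ∈ t, ∀ X, X ∈ σ ∨ X = tr n 1 Ls →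
        X ≤ lft Ls (tr n 1 Ls) W ∨ lft Ls (tr n 1 Ls) W ≤ X := by
      intro W hW X hX
      obtain ⟨A, hA, B, hB, hAW, hWB, hnb, -⟩ := ht.1 _ hW
      rcases hnb _ (mem_Wls.mpr ⟨X, hX, rfl⟩) with h' | h'
      · left
        rw [← qm_le_qm (hbt' X hX).2 (le_lft hLsT W), qm_lft hLsT]
        exact h'.trans hAW.le
      · right
        rw [← qm_le_qm (lft_le Ls (tr n 1 Ls) W) (hbt' X hX).1, qm_lft hLsT]
        exact hWB.le.trans h'
    have hdnσ : ∀ X ∈ σ, dn n X = X := by
      intro X hX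
      have := charge_range hσ hX (hch1 X hX)
      rcases dn_spec (n := n) (hch1 X hX) with ⟨_, e⟩ | ⟨h, _⟩
      · exact e
      · omega
    refine ⟨t.image ψ, ⟨?_, ⟨?_, ?_⟩, ?_⟩, himg⟩
    · -- disjoint
      rw [Finset.disjoint_left]
      intro L hL hLσ
      obtain ⟨W, hW, rfl⟩ := Finset.mem_image.mp hL
      have h1 := hφψ W hW
      have e : up n Ls (ψ W) = ψ W := if_pos (hbt _ hLσ).1
      rw [e] at h1
      apply hwall _ hLσ
      rw [h1]
      exact hW
    · intro L hL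
      rcases Finset.mem_union.mp hL with hL | hL
      · obtain ⟨W, hW, rfl⟩ := Finset.mem_image.mp hL
        obtain ⟨w, hw, h1, h2, hlW⟩ := hW1 W hW
        rcases dn_spec (n := n) hw with ⟨a1, e1⟩ | ⟨a1, e1⟩
        · show IsLat n (dn n _) ∧ ∃ c, _ ∧ _ ∧ HasCharge (dn n _) c
          rw [e1]
          exact ⟨hlW, w, by omega, a1, hw⟩
        · show IsLat n (dn n _) ∧ ∃ c, _ ∧ _ ∧ HasCharge (dn n _) c
          rw [e1]
          exact ⟨hlW.tr (-1), w + -1 * n, by omega, by omega, hw.tr n (-1)⟩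
      · exact hσ.1 L hL
    · -- adjacency
      have hall : ∀ L ∈ t.image ψ ∪ σ, ∃ X, Ls ≤ X ∧ X ≤ tr n 1 Ls ∧ IsLat n X ∧ dn n X = L ∧
          (X ∈ σ ∨ ∃ W ∈ t, X = lft Ls (tr n 1 Ls) W) := by
        intro L hL
        rcases Finset.mem_union.mp hL with hL | hL
        · obtain ⟨W, hW, rfl⟩ := Finset.mem_image.mp hL
          obtain ⟨w, hw, h1, h2, hlW⟩ := hW1 W hW
          exact ⟨_, le_lft hLsT W, lft_le _ _ W, hlW, rfl, Or.inr ⟨W, hW, rfl⟩⟩
        · exact ⟨L, (hbt L hL).1, (hbt L hL).2, hlat L hL, hdnσ L hL, Or.inl hL⟩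
      intro L hL L' hL'
      obtain ⟨X, h1, h2, h3, rfl, h4⟩ := hall L hL
      obtain ⟨Y, k1, k2, k3, rfl, k4⟩ := hall L' hL'
      have hXY : X ≤ Y ∨ Y ≤ X := by
        rcases h4 with h4 | ⟨W, hW, rfl⟩ <;> rcases k4 with k4 | ⟨W', hW', rfl⟩
        · exact hch X h4 Y k4
        · exact hcompW W' hW' X (Or.inl h4)
        · exact (hcompW W hW Y (Or.inl k4)).symm
        · exact (ht.2 W hW W' hW').imp lft_mono lft_mono
      obtain ⟨x, hx⟩ := h3.hasCharge
      obtain ⟨y, hy⟩ := k3.hasCharge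
      rcases hXY with h | h
      · exact dn_adj k3 h1 k2 h hx hy
      · exact Adj.symm (dn_adj h3 k1 h2 h hy hx)
    · -- profiles
      intro L hL l hl
      obtain ⟨W, hW, rfl⟩ := Finset.mem_image.mp hL
      obtain ⟨w, hw, h1, h2, hlW⟩ := hW1 W hW
      have hgap := (gap_iff hLs hlat hbt hch hw (le_lft hLsT W) (lft_le _ _ W)
        (fun X hX => hcompW W hW X (Or.inl hX))
        (fun h => hwall _ h (by rw [qm_lft hLsT]; exact hW))
        (fun h => by rw [h] at hw; have := hw.unique hTc; omega)).mp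
        (by rw [qm_lft hLsT]; exact ht.1 W hW)
      rcases dn_spec (n := n) hw with ⟨a1, e1⟩ | ⟨a1, e1⟩
      · have e2 : ψ W = lft Ls (tr n 1 Ls) W := e1
        rw [e2] at hl ⊢
        rw [hl.unique hw]
        exact hgap
      · have e2 : ψ W = tr n (-1) (lft Ls (tr n 1 Ls) W) := e1
        rw [e2] at hl ⊢
        rw [← prof_shift, tr_one_tr_neg_one]
        have := hl.unique (hw.tr n (-1))
        rw [show l + (n : ℤ) = w by omega]
        exact hgap

end Crest.Agent.R066.Lat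
end

-- ▼ part R066/LatMorse
section

/-! The opposite complex is highly acyclic (task A2). -/

set_option autoImplicit false
open scoped BigOperators
open Module (finrank)

namespace Crest.Agent.R066.Lat

variable {F : Type} [Field F]

theorem isCx_BCx (n : ℕ) : IsCx (BCx F n) := by
  intro s hs t ht
  exact ⟨fun L hL => hs.1 L (ht hL), fun L hL L' hL' => hs.2 L (ht hL) L' (ht hL')⟩

theorem isCx_XCx (n : ℕ) : IsCx (XCx F n) := by
  intro s hs t ht
  exact ⟨isCx_BCx n s hs.1 t ht, fun L hL => hs.2 L (ht hL)⟩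

open Classical in
/-- The critical face. -/
noncomputable def crit (n : ℕ) (τ : Finset (Submodule F (V F))) : Finset (Submodule F (V F)) :=
  τ.filter (fun L => ∃ c : ℤ, HasCharge L c ∧ Desc n τ c)

theorem mem_crit {n : ℕ} {τ : Finset (Submodule F (V F))} {L : Submodule F (V F)} :
    L ∈ crit n τ ↔ L ∈ τ ∧ ∃ c : ℤ, HasCharge L c ∧ Desc n τ c := by
  classical
  unfold crit
  rw [Finset.mem_filter]

theorem crit_subset (n : ℕ) (τ : Finset (Submodule F (V F))) : crit n τ ⊆ τ := by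
  intro L hL
  exact (mem_crit.mp hL).1

/-- The set counted by the height. -/
def badSet (n : ℕ) (τ : Finset (Submodule F (V F))) : Set (ℤ × ℤ × ℕ) :=
  {x | 0 ≤ x.1 ∧ x.1 < n ∧ PP n τ x.1 x.2.1 x.2.2 ∧ max (x.1 - x.2.1) 0 < (x.2.2 : ℤ)}

/-- The height. -/
noncomputable def ht (n : ℕ) (τ : Finset (Submodule F (V F))) : ℕ := (badSet n τ).ncard

theorem badSet_finite {n : ℕ} {τ : Finset (Submodule F (V F))} (hτ : τ ∈ BCx F n) : (badSet n τ).Finite := by
  obtain ⟨B, hB⟩ := PP_bound (n := n) (σ := τ) (fun L hL => (hτ.1 L hL).1)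
  refine Set.Finite.subset (((Set.finite_Ico (0 : ℤ) n).prod
    ((Set.finite_Icc (-(B : ℤ)) (n + B)).prod (Set.finite_Iic B)))) ?_
  rintro ⟨j, i, r⟩ ⟨h1, h2, h3, h4⟩
  obtain ⟨h5, h6⟩ := hB _ _ _ h3 h4
  simp only at h1 h2 h3 h4 h5 h6
  rw [abs_le] at h6
  refine ⟨⟨h1, h2⟩, ⟨?_, ?_⟩, ?_⟩
  · simp only; omega
  · simp only; omega
  · simp only [Set.mem_Iic]; exact_mod_cast h5

/-- All descents of `τ` come from the critical face. -/
theorem desc_crit {n : ℕ} {τ : Finset (Submodule F (V F))} {j : ℤ} (h : Desc n τ j) :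
    ∃ L ∈ crit n τ, ∃ c m : ℤ, HasCharge L c ∧ j = c + m * n := by
  obtain ⟨L, hL, c, m, hc, rfl⟩ := h.charge
  refine ⟨L, mem_crit.mpr ⟨hL, c, hc, ?_⟩, c, m, hc, rfl⟩
  have := h.period (-m)
  rwa [show c + m * (n : ℤ) + -m * n = c by ring] at this

theorem PP_congr_of_crit {n : ℕ} {τ τ' : Finset (Submodule F (V F))} (hτ : τ ∈ BCx F n)
    (h1 : crit n τ ⊆ τ') (h2 : τ' ⊆ τ) (j i : ℤ) (r : ℕ) : PP n τ' j i r ↔ PP n τ j i r := by
  refine ⟨fun h => h.mono h2, fun h => PP_of_desc hτ h2 (fun j hj => ?_) h⟩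
  obtain ⟨L, hL, c, m, hc, hj'⟩ := desc_crit hj
  exact ⟨L, h1 hL, c, m, hc, hj'⟩

theorem Desc_congr {n : ℕ} {τ τ' : Finset (Submodule F (V F))}
    (h : ∀ (j i : ℤ) (r : ℕ), PP n τ' j i r ↔ PP n τ j i r) (j : ℤ) : Desc n τ' j ↔ Desc n τ j := by
  unfold Desc
  simp only [h]

theorem ht_congr {n : ℕ} {τ τ' : Finset (Submodule F (V F))}
    (h : ∀ (j i : ℤ) (r : ℕ), PP n τ' j i r ↔ PP n τ j i r) : ht n τ' = ht n τ := by
  unfold ht badSet
  simp only [h]

theorem crit_of_xcx {n : ℕ} {τ : Finset (Submodule F (V F))} (h : τ ∈ XCx F n) : crit n τ = ∅ := by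
  rw [Finset.eq_empty_iff_forall_notMem]
  intro L hL
  obtain ⟨_, c, _, i, r, h1, h2, h3⟩ := mem_crit.mp hL
  have h2' : ¬ ((r : ℤ) ≤ max (c - 1 - i) 0) := fun h => h2 (Or.inl h)
  have h3' : ¬ (((r + 1 : ℕ) : ℤ) ≤ max (c + 1 - i) 0) := fun h => h3 (Or.inl h)
  have hstd : (r : ℤ) ≤ max (c - i) 0 := by
    rcases h1 with h1 | ⟨L', hL', c', m, hc', h4⟩
    · exact h1
    · obtain ⟨c'', _, _, h5⟩ := h.2 L' hL'
      have hlat := (h.1.1 L' hL').1
      have h6 : c'' = c' := (hasCharge_of_isCompl hlat h5).unique hc'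
      rw [D_tr', D_of_isCompl hlat h5, h6] at h4
      omega
  push_cast at h3'
  omega

theorem xcx_of_crit {n : ℕ} {τ : Finset (Submodule F (V F))} (hτ : τ ∈ BCx F n) (h : crit n τ = ∅) :
    τ ∈ XCx F n := by
  refine ⟨hτ, fun L hL => ?_⟩
  obtain ⟨hlat, c, h0, h1, hc⟩ := hτ.1 L hL
  refine ⟨c, h0, h1, isCompl_of_D hlat fun i => ?_⟩
  have h2 := PP_congr_of_crit hτ (τ' := ∅) (by rw [h]) (Finset.empty_subset _)
  have h3 : PP n τ c i (D L i) := by
    have := (PP_charge hτ hL hc 0 i (D L i)).mpr (by rw [tr_zero])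
    simpa using this
  rw [← h2] at h3
  rcases h3 with h3 | ⟨L', hL', _⟩
  · have := charge_le_D hlat hc i
    omega
  · simp at hL'

theorem charge_eq_of_period {n : ℕ} {c c' m : ℤ} (h0 : 0 ≤ c) (h1 : c < n) (h0' : 0 ≤ c') (h1' : c' < n)
    (h : c = c' + m * n) : c = c' := by
  have hm : m = 0 := by
    by_contra hm
    rcases lt_or_gt_of_ne hm with hm | hm
    · have : m * (n : ℤ) ≤ -1 * n := by
        apply mul_le_mul_of_nonneg_right (by omega); omega
      omega
    · have : 1 * (n : ℤ) ≤ m * n := by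
        apply mul_le_mul_of_nonneg_right (by omega); omega
      omega
  rw [hm] at h; linarith

/-- two members of a simplex whose charges agree modulo `n` are equal -/
theorem eq_of_charge_period {n : ℕ} {τ : Finset (Submodule F (V F))} (hτ : τ ∈ BCx F n)
    {L L' : Submodule F (V F)} (hL : L ∈ τ) (hL' : L' ∈ τ) {c c' m : ℤ} (hc : HasCharge L c)
    (hc' : HasCharge L' c') (h : c = c' + m * n) : L = L' := by
  obtain ⟨hlat, d, h0, h1, hd⟩ := hτ.1 L hL
  obtain ⟨hlat', d', h0', h1', hd'⟩ := hτ.1 L' hL'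
  rw [hd.unique hc] at h0 h1
  rw [hd'.unique hc'] at h0' h1'
  have := charge_eq_of_period h0 h1 h0' h1' h
  rw [← this] at hc'
  exact eq_of_adj_of_charge hlat hlat' (hτ.2 L hL L' hL') hc hc'

open Classical in
theorem crit_h2 {n : ℕ} {τ : Finset (Submodule F (V F))} (hτ : τ ∈ BCx F n) (hτ0 : τ ∉ XCx F n)
    (τ' : Finset (Submodule F (V F))) (h1 : crit n τ ⊆ τ') (h2 : τ' ⊆ τ) :
    τ' ∉ XCx F n ∧ crit n τ' = crit n τ ∧ ht n τ' = ht n τ := by
  have hPP := PP_congr_of_crit hτ h1 h2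
  have hcrit : crit n τ' = crit n τ := by
    ext L
    rw [mem_crit]
    constructor
    · rintro ⟨hL, c, hc, hd⟩
      exact mem_crit.mpr ⟨h2 hL, c, hc, (Desc_congr hPP c).mp hd⟩
    · intro hL
      obtain ⟨_, c, hc, hd⟩ := mem_crit.mp hL
      exact ⟨h1 hL, c, hc, (Desc_congr hPP c).mpr hd⟩
  refine ⟨fun h => hτ0 ?_, hcrit, ht_congr hPP⟩
  apply xcx_of_crit hτ
  rw [← hcrit]
  exact crit_of_xcx h

theorem crit_h3 {n : ℕ} {τ : Finset (Submodule F (V F))} (hτ : τ ∈ BCx F n)
    (τ' : Finset (Submodule F (V F))) (h1 : τ' ⊆ τ) (h2 : ¬ crit n τ ⊆ τ') : ht n τ' < ht n τ := by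
  obtain ⟨L, hL, hL'⟩ := Finset.not_subset.mp h2
  obtain ⟨hLτ, c, hc, i, r, hp1, hp2, hp3⟩ := mem_crit.mp hL
  obtain ⟨_, d, h0, hn, hd⟩ := hτ.1 L hLτ
  rw [hd.unique hc] at h0 hn
  have hnot : ¬ PP n τ' c i r := by
    intro hp
    obtain ⟨L', hL'τ', c', m', hc', he⟩ := charge_of_desc hp (fun h => hp2 (h.mono h1)) (fun h => hp3 (h.mono h1))
    have := eq_of_charge_period hτ hLτ (h1 hL'τ') hc hc' he
    rw [this] at hL'
    exact hL' hL'τ'
  apply Set.ncard_lt_ncard _ (badSet_finite hτ)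
  rw [Set.ssubset_iff_of_subset]
  · refine ⟨(c, i, r), ⟨h0, hn, hp1, ?_⟩, ?_⟩
    · by_contra hcon
      exact hnot (Or.inl (not_lt.mp hcon))
    · rintro ⟨_, _, h5, _⟩
      exact hnot h5
  · rintro ⟨j, i, r⟩ ⟨h3, h4, h5, h6⟩
    exact ⟨h3, h4, h5.mono h1, h6⟩

open Classical in
theorem link_eq {n : ℕ} {σ : Finset (Submodule F (V F))} (hσ0 : σ ∉ XCx F n) (hσ : σ ∈ BCx F n)
    (hs : crit n σ = σ) :
    {ρ | Disjoint ρ σ ∧ ρ ∪ σ ∈ BCx F n ∧ ρ ∪ σ ∉ XCx F n ∧ crit n (ρ ∪ σ) = σ} = LinkC F n σ := by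
  ext ρ
  constructor
  · rintro ⟨h1, h2, _, h4⟩
    refine ⟨h1, h2, fun L hL c hc i r => ?_⟩
    have hPP := PP_congr_of_crit h2 (τ' := σ) (by rw [h4]) Finset.subset_union_right
    rw [hPP]
    have := PP_charge h2 (Finset.mem_union_left σ hL) hc 0 i r
    rw [tr_zero, zero_mul, add_zero] at this
    exact this.symm
  · rintro ⟨h1, h2, h3⟩
    have hPP : ∀ (j i : ℤ) (r : ℕ), PP n (ρ ∪ σ) j i r ↔ PP n σ j i r := by
      intro j i r
      refine ⟨?_, fun h => h.mono Finset.subset_union_right⟩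
      rintro (h | ⟨L, hL, c, m, hc, h4⟩)
      · exact Or.inl h
      · rcases Finset.mem_union.mp hL with hL | hL
        · rw [D_tr'] at h4
          obtain ⟨R, hR⟩ := Int.eq_ofNat_of_zero_le (show 0 ≤ (r : ℤ) + max (c + m * n - j) 0 by
            have := le_max_right (c + m * n - j) 0; omega)
          rw [hR] at h4
          have h5 := (h3 L hL c hc (i - m * n) R).mp (by exact_mod_cast h4)
          have h6 := h5.period m
          rw [sub_add_cancel] at h6
          exact h6.move (le_of_eq hR)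
        · exact Or.inr ⟨L, hL, c, m, hc, h4⟩
    have hcrit : crit n (ρ ∪ σ) = σ := by
      ext L
      rw [mem_crit]
      constructor
      · rintro ⟨hL, c, hc, hd⟩
        rw [Desc_congr hPP] at hd
        obtain ⟨L', hL', c', m', hc', he⟩ := hd.charge
        have := eq_of_charge_period h2 hL (Finset.mem_union_right ρ hL') hc hc' he
        rwa [this]
      · intro hL
        refine ⟨Finset.mem_union_right ρ hL, ?_⟩
        rw [← hs] at hL
        obtain ⟨_, c, hc, hd⟩ := mem_crit.mp hL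
        exact ⟨c, hc, (Desc_congr hPP c).mpr hd⟩
    refine ⟨h1, h2, fun h => ?_, hcrit⟩
    have := crit_of_xcx h
    rw [hcrit] at this
    apply hσ0
    apply xcx_of_crit hσ
    rw [hs, this]

open Classical in
theorem xcx_exact (n : ℕ) (hn : 1 ≤ n) : ∃ q₀ : ℕ, ∀ (F : Type) [Field F] [Fintype F],
    q₀ ≤ Fintype.card F → ∀ m, m + 2 ≤ n → ExactAt (XCx F n) m := by
  obtain ⟨q₀, hq⟩ := link_exact n hn
  refine ⟨q₀, fun F _ _ hF m hm => ?_⟩
  have hpush := relative_push (K := BCx F n) (K₀ := XCx F n) (isCx_BCx n) (isCx_XCx n) (fun s hs => hs.1)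
    (crit n) (ht n) (n - 1)
    (fun τ hτ hτ0 => by
      refine ⟨?_, crit_subset n τ⟩
      rw [Finset.nonempty_iff_ne_empty]
      intro h
      exact hτ0 (xcx_of_crit hτ h))
    (fun τ hτ hτ0 τ' h1 h2 => crit_h2 hτ hτ0 τ' h1 h2)
    (fun τ hτ hτ0 τ' h1 h2 => Or.inr (crit_h3 hτ τ' h1 h2))
    (fun σ hσ hσ0 hs i hi => by
      rw [link_eq hσ0 hσ hs]
      refine hq F hF σ hσ ?_ i (by omega)
      rw [Finset.nonempty_iff_ne_empty]
      intro h
      rw [← hs] at h
      exact hσ0 (xcx_of_crit hσ h))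
  exact exactAt_down (isCx_BCx n) (fun s hs => hs.1) m (hpush (m + 1) (by omega)) (bcx_exact n hn m)

end Crest.Agent.R066.Lat
end

-- ▼ part R066/LatAct1
section

/-! Aux file for task A3 (LatAction.lean): matrices over `F[X]` act on `V F = ℤ →₀ F`. -/

set_option autoImplicit false
open scoped BigOperators
open Polynomial

namespace Crest.Agent.R066.LatA

open Crest.Agent.R066.Lat

variable {F : Type} [Field F]

/-! ### The shift and the standard subspaces -/

theorem shift_apply (a : ℤ) (x : V F) (n : ℤ) : Lat.shift F a x n = x (n - a) := by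
  simp only [Lat.shift, Finsupp.domLCongr_apply, Finsupp.domCongr_apply,
    Finsupp.equivMapDomain_apply]
  simp [sub_eq_add_neg]

theorem shift_single (a n : ℤ) (c : F) :
    Lat.shift F a (Finsupp.single n c) = Finsupp.single (n + a) c := by
  simp [Lat.shift]

theorem shift_shift (a b : ℤ) (x : V F) :
    Lat.shift F a (Lat.shift F b x) = Lat.shift F (a + b) x := by
  ext n
  rw [shift_apply, shift_apply, shift_apply]
  congr 1
  ring

theorem shift_zero (x : V F) : Lat.shift F 0 x = x := by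
  ext n; rw [shift_apply, sub_zero]

theorem mem_M {j : ℤ} {x : V F} : x ∈ M F j ↔ ∀ n, n < j → x n = 0 := by
  rw [Lat.M, Finsupp.mem_supported']
  simp [Set.mem_Ici, not_le]

theorem mem_L0 {j : ℤ} {x : V F} : x ∈ L0 F j ↔ ∀ n, j ≤ n → x n = 0 := by
  rw [Lat.L0, Finsupp.mem_supported']
  simp [Set.mem_Iio, not_lt]

theorem M_anti {i j : ℤ} (h : i ≤ j) : M F j ≤ M F i := by
  intro x hx
  rw [mem_M] at hx ⊢
  exact fun n hn => hx n (lt_of_lt_of_le hn h)

theorem L0_mono {i j : ℤ} (h : i ≤ j) : L0 F i ≤ L0 F j := by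
  intro x hx
  rw [mem_L0] at hx ⊢
  exact fun n hn => hx n (h.trans hn)

theorem single_mem_M {j n : ℤ} (h : j ≤ n) (c : F) : (Finsupp.single n c : V F) ∈ M F j := by
  rw [mem_M]; intro m hm
  rw [Finsupp.single_eq_of_ne]; omega

theorem single_mem_L0 {j n : ℤ} (h : n < j) (c : F) : (Finsupp.single n c : V F) ∈ L0 F j := by
  rw [mem_L0]; intro m hm
  rw [Finsupp.single_eq_of_ne]; omega

theorem exists_mem_M (x : V F) : ∃ j, x ∈ M F j := by
  obtain ⟨a, ha⟩ := x.support.bddBelow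
  refine ⟨a, mem_M.2 fun n hn => ?_⟩
  by_contra h
  have := ha (Finset.mem_coe.2 (Finsupp.mem_support_iff.2 h))
  omega

theorem exists_mem_L0 (x : V F) : ∃ j, x ∈ L0 F j := by
  obtain ⟨a, ha⟩ := x.support.bddAbove
  refine ⟨a + 1, mem_L0.2 fun n hn => ?_⟩
  by_contra h
  have := ha (Finset.mem_coe.2 (Finsupp.mem_support_iff.2 h))
  omega

theorem isCompl_L0_M (j : ℤ) : IsCompl (L0 F j) (M F j) := by
  constructor
  · rw [Submodule.disjoint_def]
    intro x h1 h2
    ext n
    rcases lt_or_ge n j with h | h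
    · exact mem_M.1 h2 n h
    · exact mem_L0.1 h1 n h
  · rw [codisjoint_iff, Submodule.eq_top_iff']
    intro x
    rw [Submodule.mem_sup]
    refine ⟨x.filter (· < j), ?_, x.filter (fun n => ¬ n < j), ?_,
      Finsupp.filter_add_filter_not x _⟩
    · rw [mem_L0]; intro n hn
      rw [Finsupp.filter_apply_neg]; omega
    · rw [mem_M]; intro n hn
      rw [Finsupp.filter_apply_neg]; omega

theorem shift_mem_M {a j : ℤ} {x : V F} (hx : x ∈ M F j) : Lat.shift F a x ∈ M F (j + a) := by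
  rw [mem_M] at hx ⊢
  intro n hn
  rw [shift_apply]; exact hx _ (by omega)

theorem shift_mem_L0 {a j : ℤ} {x : V F} (hx : x ∈ L0 F j) : Lat.shift F a x ∈ L0 F (j + a) := by
  rw [mem_L0] at hx ⊢
  intro n hn
  rw [shift_apply]; exact hx _ (by omega)

theorem map_shift_M (a j : ℤ) : (M F j).map (Lat.shift F a).toLinearMap = M F (j + a) := by
  apply le_antisymm
  · rintro _ ⟨x, hx, rfl⟩
    exact shift_mem_M hx
  · intro x hx
    refine ⟨Lat.shift F (-a) x, ?_, ?_⟩
    · have := shift_mem_M (a := -a) hx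
      simpa using this
    · change Lat.shift F a (Lat.shift F (-a) x) = x
      rw [shift_shift, add_neg_cancel, shift_zero]

theorem map_shift_L0 (a j : ℤ) : (L0 F j).map (Lat.shift F a).toLinearMap = L0 F (j + a) := by
  apply le_antisymm
  · rintro _ ⟨x, hx, rfl⟩
    exact shift_mem_L0 hx
  · intro x hx
    refine ⟨Lat.shift F (-a) x, ?_, ?_⟩
    · have := shift_mem_L0 (a := -a) hx
      simpa using this
    · change Lat.shift F a (Lat.shift F (-a) x) = x
      rw [shift_shift, add_neg_cancel, shift_zero]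

theorem tr_M (n : ℕ) (m j : ℤ) : tr n m (M F j) = M F (j + m * n) := map_shift_M _ _

theorem tr_L0 (n : ℕ) (m j : ℤ) : tr n m (L0 F j) = L0 F (j + m * n) := map_shift_L0 _ _

theorem tr_tr (n : ℕ) (a b : ℤ) (L : Submodule F (V F)) : tr n a (tr n b L) = tr n (a + b) L := by
  unfold Lat.tr
  rw [← Submodule.map_comp]
  congr 1
  apply LinearMap.ext
  intro x
  change Lat.shift F (a * n) (Lat.shift F (b * n) x) = Lat.shift F ((a + b) * n) x
  rw [shift_shift, add_mul]

theorem tr_zero (n : ℕ) (L : Submodule F (V F)) : tr n 0 L = L := by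
  unfold Lat.tr
  have : (Lat.shift F (0 * n)).toLinearMap = LinearMap.id := by
    apply LinearMap.ext
    intro x
    change Lat.shift F (0 * n) x = x
    rw [zero_mul, shift_zero]
  rw [this]
  exact Submodule.map_id L

theorem tr_mono (n : ℕ) (m : ℤ) {L L' : Submodule F (V F)} (h : L ≤ L') : tr n m L ≤ tr n m L' :=
  Submodule.map_mono h

/-- Two linear maps commuting with the shift by `n` which agree on a window of length `n`. -/
theorem ext_window {n : ℕ} (hn : 0 < n) {f g : V F →ₗ[F] V F}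
    (hf : ∀ x, f (Lat.shift F n x) = Lat.shift F n (f x))
    (hg : ∀ x, g (Lat.shift F n x) = Lat.shift F n (g x)) (j : ℤ)
    (h : ∀ m, j ≤ m → m < j + n → f (Finsupp.single m 1) = g (Finsupp.single m 1)) : f = g := by
  have hf' : ∀ (q : ℤ) x, f (Lat.shift F (q * n) x) = Lat.shift F (q * n) (f x) := by
    intro q
    induction q using Int.induction_on with
    | zero => intro x; rw [zero_mul, shift_zero, shift_zero]
    | succ q ih =>
      intro x
      have : ((q : ℤ) + 1) * n = n + q * n := by ring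
      rw [this, ← shift_shift, hf, ih, shift_shift]
    | pred q ih =>
      intro x
      apply (Lat.shift F (n : ℤ)).injective
      rw [← hf, shift_shift, shift_shift]
      have : (n : ℤ) + (-(q : ℤ) - 1) * n = -(q : ℤ) * n := by ring
      rw [this, ih]
  have hg' : ∀ (q : ℤ) x, g (Lat.shift F (q * n) x) = Lat.shift F (q * n) (g x) := by
    intro q
    induction q using Int.induction_on with
    | zero => intro x; rw [zero_mul, shift_zero, shift_zero]
    | succ q ih =>
      intro x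
      have : ((q : ℤ) + 1) * n = n + q * n := by ring
      rw [this, ← shift_shift, hg, ih, shift_shift]
    | pred q ih =>
      intro x
      apply (Lat.shift F (n : ℤ)).injective
      rw [← hg, shift_shift, shift_shift]
      have : (n : ℤ) + (-(q : ℤ) - 1) * n = -(q : ℤ) * n := by ring
      rw [this, ih]
  apply Finsupp.lhom_ext'
  intro m
  apply LinearMap.ext_ring
  change f (Finsupp.single m 1) = g (Finsupp.single m 1)
  have hn' : (0 : ℤ) < n := by exact_mod_cast hn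
  have hm : m = (j + (m - j) % n) + ((m - j) / n) * n := by
    have := Int.emod_add_mul_ediv (m - j) n
    linarith
  have h1 := Int.emod_nonneg (m - j) hn'.ne'
  have h2 := Int.emod_lt_of_pos (m - j) hn'
  rw [hm, ← shift_single, hf', hg', h _ (by omega) (by omega)]

end Crest.Agent.R066.LatA
end

-- ▼ part R066/LatAct2
section

/-! Aux file for task A3: the algebra map `Matrix n n F[X] → End (V F)`. -/

set_option autoImplicit false
open scoped BigOperators
open Polynomial

namespace Crest.Agent.R066.LatA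

open Crest.Agent.R066.Lat

variable {F : Type} [Field F] {n : ℕ}

/-- The shift by `n` as an endomorphism. -/
noncomputable def tau (F : Type) [Field F] (n : ℕ) : Module.End F (V F) :=
  (Lat.shift F n).toLinearMap

theorem tau_apply (x : V F) : tau F n x = Lat.shift F n x := rfl

/-- Matrix units. -/
noncomputable def E (a b : Fin n) : Module.End F (V F) :=
  Finsupp.linearCombination F (fun m : ℤ =>
    if m % n = (b : ℕ) then (Finsupp.single (m + ((a : ℕ) - (b : ℕ) : ℤ)) 1 : V F) else 0)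

theorem E_single (a b : Fin n) (m : ℤ) (c : F) :
    E a b (Finsupp.single m c) =
      if m % n = (b : ℕ) then Finsupp.single (m + ((a : ℕ) - (b : ℕ) : ℤ)) c else 0 := by
  rw [E, Finsupp.linearCombination_single]
  split_ifs
  · rw [Finsupp.smul_single, smul_eq_mul, mul_one]
  · rw [smul_zero]

theorem E_comm_tau (a b : Fin n) : Commute (E a b : Module.End F (V F)) (tau F n) := by
  apply Finsupp.lhom_ext
  intro m c
  change E a b (Lat.shift F n (Finsupp.single m c)) = Lat.shift F n (E a b (Finsupp.single m c))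
  rw [shift_single, E_single, E_single, Int.add_emod_right]
  split_ifs
  · rw [shift_single]; congr 1; ring
  · rw [map_zero]

theorem Fin_emod (a : Fin n) (m : ℤ) (b : Fin n) (h : m % n = (b : ℕ)) :
    (m + ((a : ℕ) - (b : ℕ) : ℤ)) % n = (a : ℕ) := by
  have h1 := Int.emod_add_mul_ediv m n
  have h2 : m + ((a : ℕ) - (b : ℕ) : ℤ) = (a : ℕ) + n * (m / n) := by
    rw [h] at h1; linarith
  rw [h2, Int.add_mul_emod_self_left]
  exact Int.emod_eq_of_lt (by positivity) (by exact_mod_cast a.2)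

theorem E_mul_E (a b b' c : Fin n) :
    (E a b * E b' c : Module.End F (V F)) = if b = b' then E a c else 0 := by
  apply Finsupp.lhom_ext
  intro m x
  change E a b (E b' c (Finsupp.single m x)) = _
  rw [E_single]
  by_cases hc : m % n = (c : ℕ)
  · rw [if_pos hc, E_single, Fin_emod b' m c hc]
    by_cases hb : b = b'
    · subst hb
      rw [if_pos rfl, if_pos rfl, E_single, if_pos hc]
      congr 1; ring
    · have : ¬ (((b' : ℕ) : ℤ) = ((b : ℕ) : ℤ)) := by
        intro h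
        exact hb (Fin.ext (by exact_mod_cast h.symm))
      rw [if_neg this, if_neg hb]
      rfl
  · rw [if_neg hc, map_zero]
    by_cases hb : b = b'
    · rw [if_pos hb, E_single, if_neg hc]
    · rw [if_neg hb]; rfl

theorem sum_E [NeZero n] : ∑ a : Fin n, (E a a : Module.End F (V F)) = 1 := by
  apply Finsupp.lhom_ext
  intro m x
  rw [LinearMap.sum_apply]
  have hn : (0 : ℤ) < n := by exact_mod_cast Nat.pos_of_ne_zero (NeZero.ne n)
  have h1 := Int.emod_nonneg m hn.ne'
  have h2 := Int.emod_lt_of_pos m hn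
  let a₀ : Fin n := ⟨(m % n).toNat, by omega⟩
  rw [Finset.sum_eq_single a₀]
  · rw [E_single, if_pos]
    · simp
    · change m % n = ((m % n).toNat : ℤ)
      omega
  · intro b _ hb
    rw [E_single, if_neg]
    intro h
    apply hb
    apply Fin.ext
    change (b : ℕ) = (m % n).toNat
    omega
  · intro h; exact absurd (Finset.mem_univ _) h

theorem aeval_comm {T : Module.End F (V F)} (hT : Commute T (tau F n)) (f : F[X]) :
    Commute T (aeval (tau F n) f) := by
  induction f using Polynomial.induction_on' with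
  | add p q hp hq => rw [map_add]; exact hp.add_right hq
  | monomial d c =>
    rw [aeval_monomial]
    refine Commute.mul_right ?_ (hT.pow_right d)
    exact (Algebra.commutes c T).symm

/-- The algebra map from matrices over `F[X]` to endomorphisms of `V F`. -/
noncomputable def act (A : Matrix (Fin n) (Fin n) F[X]) : Module.End F (V F) :=
  ∑ a, ∑ b, aeval (tau F n) (A a b) * E a b

theorem act_mul (A B : Matrix (Fin n) (Fin n) F[X]) : act (A * B) = act A * act B := by
  have h1 : ∀ a b b' c : Fin n,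
      (aeval (tau F n) (A a b) * E a b) * (aeval (tau F n) (B b' c) * E b' c) =
      if b = b' then aeval (tau F n) (A a b * B b c) * (E a c : Module.End F (V F)) else 0 := by
    intro a b b' c
    have h2 := (aeval_comm (E_comm_tau a b) (B b' c)).eq
    calc (aeval (tau F n) (A a b) * E a b) * (aeval (tau F n) (B b' c) * E b' c)
        = aeval (tau F n) (A a b) * (E a b * aeval (tau F n) (B b' c)) * E b' c := by
          simp only [mul_assoc]
      _ = aeval (tau F n) (A a b) * aeval (tau F n) (B b' c) * (E a b * E b' c) := by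
          rw [h2]; simp only [mul_assoc]
      _ = _ := by
          rw [E_mul_E]
          split_ifs with h
          · subst h; rw [map_mul]
          · rw [mul_zero]
  symm
  calc act A * act B
      = ∑ a, ∑ b, ∑ b', ∑ c, (aeval (tau F n) (A a b) * E a b) *
          (aeval (tau F n) (B b' c) * E b' c) := by
        unfold act
        rw [Finset.sum_mul]
        refine Finset.sum_congr rfl fun a _ => ?_
        rw [Finset.sum_mul]
        refine Finset.sum_congr rfl fun b _ => ?_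
        rw [Finset.mul_sum]
        refine Finset.sum_congr rfl fun b' _ => ?_
        rw [Finset.mul_sum]
    _ = ∑ a, ∑ b, ∑ c, aeval (tau F n) (A a b * B b c) * (E a c : Module.End F (V F)) := by
        refine Finset.sum_congr rfl fun a _ => Finset.sum_congr rfl fun b _ => ?_
        simp only [h1]
        rw [Finset.sum_eq_single b]
        · simp
        · intro b' _ hb'
          refine Finset.sum_eq_zero fun c _ => ?_
          rw [if_neg (fun h => hb' h.symm)]
        · intro h; exact absurd (Finset.mem_univ _) h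
    _ = act (A * B) := by
        unfold act
        refine Finset.sum_congr rfl fun a _ => ?_
        rw [Finset.sum_comm]
        refine Finset.sum_congr rfl fun c _ => ?_
        rw [Matrix.mul_apply, map_sum, Finset.sum_mul]

theorem act_one [NeZero n] : act (1 : Matrix (Fin n) (Fin n) F[X]) = 1 := by
  unfold act
  rw [← sum_E (F := F) (n := n)]
  refine Finset.sum_congr rfl fun a _ => ?_
  rw [Finset.sum_eq_single a]
  · rw [Matrix.one_apply_eq, map_one, one_mul]
  · intro b _ hb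
    rw [Matrix.one_apply_ne (fun h => hb h.symm), map_zero, zero_mul]
  · intro h; exact absurd (Finset.mem_univ _) h

theorem act_comm_tau (A : Matrix (Fin n) (Fin n) F[X]) : Commute (act A) (tau F n) := by
  unfold act
  refine Commute.sum_left _ _ _ fun a _ => Commute.sum_left _ _ _ fun b _ => ?_
  refine Commute.mul_left ?_ (E_comm_tau a b)
  exact (aeval_comm (Commute.refl (tau F n)) (A a b)).symm

theorem act_shift (A : Matrix (Fin n) (Fin n) F[X]) (x : V F) :
    act A (Lat.shift F n x) = Lat.shift F n (act A x) :=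
  LinearMap.congr_fun (act_comm_tau A).eq x

theorem tau_pow_single (d : ℕ) (m : ℤ) (c : F) :
    (tau F n ^ d) (Finsupp.single m c) = Finsupp.single (m + n * d) c := by
  induction d with
  | zero => simp
  | succ d ih =>
    rw [pow_succ', Module.End.mul_apply, ih, tau_apply, shift_single]
    congr 1; push_cast; ring

theorem aeval_single (f : F[X]) (m : ℤ) (c : F) :
    aeval (tau F n) f (Finsupp.single m c) =
      ∑ d ∈ Finset.range (f.natDegree + 1), (Finsupp.single (m + n * d) (f.coeff d * c) : V F) := by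
  rw [Polynomial.aeval_eq_sum_range, LinearMap.sum_apply]
  refine Finset.sum_congr rfl fun d _ => ?_
  rw [LinearMap.smul_apply, tau_pow_single, Finsupp.smul_single, smul_eq_mul]

theorem aeval_single_apply (hn : 0 < n) (f : F[X]) (m : ℤ) (c : F) (d : ℕ) :
    aeval (tau F n) f (Finsupp.single m c) (m + n * d) = f.coeff d * c := by
  rw [aeval_single, Finsupp.finsetSum_apply, Finset.sum_eq_single d]
  · rw [Finsupp.single_eq_same]
  · intro i _ hi
    rw [Finsupp.single_eq_of_ne]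
    intro h
    apply hi
    have hn' : (n : ℤ) ≠ 0 := by exact_mod_cast hn.ne'
    have h2 : (n : ℤ) * d = n * i := by linarith
    have := mul_left_cancel₀ hn' h2
    exact_mod_cast this.symm
  · intro h
    rw [Finsupp.single_eq_same]
    rw [Finset.mem_range, not_lt] at h
    rw [Polynomial.coeff_eq_zero_of_natDegree_lt (by omega), zero_mul]

theorem aeval_single_apply_ne (f : F[X]) (m : ℤ) (c : F) (l : ℤ) (h : ∀ d : ℕ, l ≠ m + n * d) :
    aeval (tau F n) f (Finsupp.single m c) l = 0 := by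
  rw [aeval_single, Finsupp.finsetSum_apply]
  refine Finset.sum_eq_zero fun d _ => ?_
  rw [Finsupp.single_eq_of_ne (h d)]

theorem aeval_mem_M (f : F[X]) {i : ℤ} {x : V F} (hx : x ∈ M F i) :
    aeval (tau F n) f x ∈ M F i := by
  induction f using Polynomial.induction_on' with
  | add p q hp hq => rw [map_add, LinearMap.add_apply]; exact add_mem hp hq
  | monomial d c =>
    rw [aeval_monomial, Module.End.mul_apply]
    have : (tau F n ^ d) x ∈ M F i := by
      induction d with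
      | zero => simpa using hx
      | succ d ih =>
        rw [pow_succ', Module.End.mul_apply, tau_apply]
        exact M_anti (by omega) (shift_mem_M ih)
    exact Submodule.smul_mem _ c this

theorem aeval_sub_mem_M (f : F[X]) {i : ℤ} {x : V F} (hx : x ∈ M F i) :
    aeval (tau F n) f x - f.coeff 0 • x ∈ M F (i + n) := by
  conv in aeval (tau F n) f => rw [← Polynomial.divX_mul_X_add f]
  rw [map_add, map_mul, aeval_X, aeval_C, LinearMap.add_apply, Module.End.mul_apply,
    Module.algebraMap_end_apply, add_sub_cancel_right]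
  exact aeval_mem_M _ (by rw [tau_apply]; exact shift_mem_M hx)

/-- The values of `act A` on the basis vectors of the window `[0, n)`. -/
theorem act_single (A : Matrix (Fin n) (Fin n) F[X]) (b : Fin n) (q : ℤ) (c : F) :
    act A (Finsupp.single ((b : ℕ) + n * q : ℤ) c) =
      ∑ a, aeval (tau F n) (A a b) (Finsupp.single ((a : ℕ) + n * q : ℤ) c) := by
  unfold act
  rw [LinearMap.sum_apply]
  refine Finset.sum_congr rfl fun a _ => ?_
  rw [LinearMap.sum_apply, Finset.sum_eq_single b]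
  · rw [Module.End.mul_apply, E_single, if_pos]
    · congr 2; ring
    · rw [Int.add_mul_emod_self_left]
      exact Int.emod_eq_of_lt (by positivity) (by exact_mod_cast b.2)
  · intro b' _ hb'
    rw [Module.End.mul_apply, E_single, if_neg, map_zero]
    rw [Int.add_mul_emod_self_left, Int.emod_eq_of_lt (by positivity) (by exact_mod_cast b.2)]
    intro h
    exact hb' (Fin.ext (by exact_mod_cast h.symm))
  · intro h; exact absurd (Finset.mem_univ _) h

theorem act_single_apply (A : Matrix (Fin n) (Fin n) F[X]) (a b : Fin n) (d : ℕ) :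
    act A (Finsupp.single ((b : ℕ) : ℤ) 1) ((a : ℕ) + n * d : ℤ) = (A a b).coeff d := by
  have hn : 0 < n := a.pos
  have h := act_single A b 0 1
  rw [mul_zero, add_zero] at h
  rw [h, Finsupp.finsetSum_apply, Finset.sum_eq_single a]
  · rw [add_zero, aeval_single_apply hn, mul_one]
  · intro a' _ ha'
    rw [add_zero]
    apply aeval_single_apply_ne
    intro d' h'
    apply ha'
    have h1 : ((a : ℕ) + n * d : ℤ) % n = (a : ℕ) := by
      rw [Int.add_mul_emod_self_left]
      exact Int.emod_eq_of_lt (by positivity) (by exact_mod_cast a.2)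
    have h2 : ((a' : ℕ) + n * d' : ℤ) % n = (a' : ℕ) := by
      rw [Int.add_mul_emod_self_left]
      exact Int.emod_eq_of_lt (by positivity) (by exact_mod_cast a'.2)
    rw [h', h2] at h1
    exact Fin.ext (by exact_mod_cast h1)
  · intro h; exact absurd (Finset.mem_univ _) h

theorem act_injective : Function.Injective (act : Matrix (Fin n) (Fin n) F[X] → Module.End F (V F)) := by
  intro A B h
  ext a b d
  rw [← act_single_apply, ← act_single_apply, h]

theorem exists_eq_add_mul (n : ℕ) [NeZero n] (m : ℤ) : ∃ (b : Fin n) (q : ℤ), m = (b : ℕ) + n * q := by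
  have hn : (0 : ℤ) < n := by exact_mod_cast Nat.pos_of_ne_zero (NeZero.ne n)
  have h1 := Int.emod_nonneg m hn.ne'
  have h2 := Int.emod_lt_of_pos m hn
  refine ⟨⟨(m % n).toNat, by omega⟩, m / n, ?_⟩
  have := Int.emod_add_mul_ediv m n
  simp only
  omega

theorem mem_M_induction {i : ℤ} (T : V F →ₗ[F] V F) (N : Submodule F (V F))
    (h : ∀ m, i ≤ m → ∀ c, T (Finsupp.single m c) ∈ N) {x : V F} (hx : x ∈ M F i) : T x ∈ N := by
  rw [← Finsupp.sum_single x, Finsupp.sum, map_sum]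
  refine Submodule.sum_mem _ fun m hm => ?_
  refine h m ?_ _
  by_contra hlt
  exact (Finsupp.mem_support_iff.1 hm) (mem_M.1 hx m (not_le.1 hlt))

theorem mem_L0_induction {i : ℤ} (T : V F →ₗ[F] V F) (N : Submodule F (V F))
    (h : ∀ m, m < i → ∀ c, T (Finsupp.single m c) ∈ N) {x : V F} (hx : x ∈ L0 F i) : T x ∈ N := by
  rw [← Finsupp.sum_single x, Finsupp.sum, map_sum]
  refine Submodule.sum_mem _ fun m hm => ?_
  refine h m ?_ _
  by_contra hlt
  exact (Finsupp.mem_support_iff.1 hm) (mem_L0.1 hx m (not_lt.1 hlt))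

/-- Unipotence of the action. -/
theorem act_sub_mem [NeZero n] (A : Matrix (Fin n) (Fin n) F[X]) (h1 : ∀ i, (A i i).coeff 0 = 1)
    (h2 : ∀ i j, i < j → (A i j).coeff 0 = 0) {i : ℤ} {x : V F} (hx : x ∈ M F i) :
    act A x - x ∈ M F (i + 1) := by
  refine mem_M_induction (act A - 1 : Module.End F (V F)) (M F (i + 1)) ?_ hx
  intro m hm c
  obtain ⟨b, q, rfl⟩ := exists_eq_add_mul n m
  refine M_anti (show i + 1 ≤ (b : ℕ) + n * q + 1 by omega) ?_
  rw [LinearMap.sub_apply, Module.End.one_apply, act_single]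
  have hb : (Finsupp.single ((b : ℕ) + n * q : ℤ) c : V F) =
      ∑ a : Fin n, if a = b then (Finsupp.single ((a : ℕ) + n * q : ℤ) c : V F) else 0 := by
    rw [Finset.sum_ite_eq' Finset.univ b, if_pos (Finset.mem_univ b)]
  have hsub : (∑ a, aeval (tau F n) (A a b) (Finsupp.single ((a : ℕ) + n * q : ℤ) c)) -
      (Finsupp.single ((b : ℕ) + n * q : ℤ) c : V F) =
      ∑ a : Fin n, (aeval (tau F n) (A a b) (Finsupp.single ((a : ℕ) + n * q : ℤ) c) -
        if a = b then (Finsupp.single ((a : ℕ) + n * q : ℤ) c : V F) else 0) := by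
    rw [Finset.sum_sub_distrib, ← hb]
  rw [hsub]
  refine Submodule.sum_mem _ fun a _ => ?_
  have h3 := aeval_sub_mem_M (n := n) (A a b)
    (single_mem_M (F := F) (le_refl ((a : ℕ) + n * q : ℤ)) c)
  have h4 := M_anti (F := F) (show ((b : ℕ) + n * q + 1 : ℤ) ≤ (a : ℕ) + n * q + n by omega) h3
  rcases lt_trichotomy a b with hab | hab | hab
  · rw [if_neg hab.ne, sub_zero]
    rw [h2 a b hab, zero_smul, sub_zero] at h4
    exact h4
  · subst hab
    rw [if_pos rfl]
    rw [h1 a, one_smul] at h4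
    exact h4
  · rw [if_neg hab.ne', sub_zero]
    have h5 : (A a b).coeff 0 • (Finsupp.single ((a : ℕ) + n * q : ℤ) c : V F) ∈
        M F ((b : ℕ) + n * q + 1) := by
      refine Submodule.smul_mem _ _ (single_mem_M ?_ c)
      have : (b : ℕ) < (a : ℕ) := hab
      omega
    have := add_mem h4 h5
    simpa using this

/-- Every endomorphism commuting with the shift and preserving `M 0` comes from a matrix. -/
theorem exists_act_eq [NeZero n] (T : V F →ₗ[F] V F)
    (hT : ∀ x, T (Lat.shift F n x) = Lat.shift F n (T x)) (h0 : ∀ x ∈ M F 0, T x ∈ M F 0) :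
    ∃ A : Matrix (Fin n) (Fin n) F[X], act A = T := by
  have hn : 0 < n := Nat.pos_of_ne_zero (NeZero.ne n)
  have hn' : (n : ℤ) ≠ 0 := by exact_mod_cast hn.ne'
  have hinj : ∀ a : Fin n, Function.Injective (fun d : ℕ => ((a : ℕ) + n * d : ℤ)) := by
    intro a d d' h
    have h2 : (n : ℤ) * d = n * d' := by simpa using h
    exact_mod_cast mul_left_cancel₀ hn' h2
  let A : Matrix (Fin n) (Fin n) F[X] := fun a b =>
    ∑ d ∈ ((T (Finsupp.single ((b : ℕ) : ℤ) 1)).support.preimage (fun d : ℕ => ((a : ℕ) + n * d : ℤ))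
      (hinj a).injOn), Polynomial.monomial d (T (Finsupp.single ((b : ℕ) : ℤ) 1) ((a : ℕ) + n * d : ℤ))
  have hA : ∀ a b d, (A a b).coeff d = T (Finsupp.single ((b : ℕ) : ℤ) 1) ((a : ℕ) + n * d : ℤ) := by
    intro a b d
    simp only [A, Polynomial.finsetSum_coeff, Polynomial.coeff_monomial]
    rw [Finset.sum_ite_eq']
    split_ifs with h
    · rfl
    · rw [Finset.mem_preimage, Finsupp.notMem_support_iff] at h
      exact h.symm
  refine ⟨A, ext_window hn (act_shift A) hT 0 ?_⟩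
  intro m hm0 hm
  obtain ⟨b, q, rfl⟩ := exists_eq_add_mul n m
  have hq : q = 0 := by
    have hb := b.2
    have hb0 : (0 : ℤ) ≤ (b : ℕ) := by positivity
    have h1 : (n : ℤ) * q < n * 1 := by
      have : ((b : ℕ) : ℤ) < n := by exact_mod_cast hb
      omega
    have h2 : (n : ℤ) * (-1) < n * q := by
      have : ((b : ℕ) : ℤ) < n := by exact_mod_cast hb
      omega
    have hnp : (0 : ℤ) < n := by exact_mod_cast hn
    have h3 := lt_of_mul_lt_mul_left h1 hnp.le
    have h4 := lt_of_mul_lt_mul_left h2 hnp.le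
    omega
  subst hq
  rw [mul_zero, add_zero]
  ext l
  rcases lt_or_ge l 0 with hl | hl
  · have h1 : T (Finsupp.single ((b : ℕ) : ℤ) 1) ∈ M F 0 := h0 _ (single_mem_M (by positivity) 1)
    rw [mem_M.1 h1 l hl]
    have h2 := act_single A b 0 1
    rw [mul_zero, add_zero] at h2
    rw [h2, Finsupp.finsetSum_apply]
    refine Finset.sum_eq_zero fun a _ => ?_
    apply aeval_single_apply_ne
    intro d hd
    have : (0 : ℤ) ≤ n * d := by positivity
    have : (0 : ℤ) ≤ (a : ℕ) := by positivity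
    omega
  · obtain ⟨a, q, rfl⟩ := exists_eq_add_mul n l
    have hq : 0 ≤ q := by
      by_contra hq
      have hnp : (0 : ℤ) < n := by exact_mod_cast hn
      have h1 : (n : ℤ) * q ≤ n * (-1) := mul_le_mul_of_nonneg_left (by omega) hnp.le
      have : ((a : ℕ) : ℤ) < n := by exact_mod_cast a.2
      omega
    obtain ⟨d, rfl⟩ := Int.eq_ofNat_of_zero_le hq
    rw [act_single_apply, hA]

end Crest.Agent.R066.LatA
end

-- ▼ part R066/LatAct3
section

/-! Aux file for task A3: Birkhoff factorisation for chains of opposite lattices. -/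

set_option autoImplicit false
open scoped BigOperators

namespace Crest.Agent.R066.LatA

open Crest.Agent.R066.Lat

variable {F : Type} [Field F] {n : ℕ}

/-- If `u i ∈ e_i + M (i+1)` for all `i`, then `x ↦ ∑ x_i u_i` is unipotent. -/
theorem lin_sub_mem (u : ℤ → V F) (hu : ∀ i, u i - Finsupp.single i 1 ∈ M F (i + 1)) {i : ℤ}
    {x : V F} (hx : x ∈ M F i) : Finsupp.linearCombination F u x - x ∈ M F (i + 1) := by
  refine mem_M_induction (Finsupp.linearCombination F u - LinearMap.id : V F →ₗ[F] V F)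
    (M F (i + 1)) ?_ hx
  intro m hm c
  rw [LinearMap.sub_apply, Finsupp.linearCombination_single, LinearMap.id_apply]
  have : c • u m - Finsupp.single m c = c • (u m - Finsupp.single m 1) := by
    rw [smul_sub, Finsupp.smul_single, smul_eq_mul, mul_one]
  rw [this]
  exact Submodule.smul_mem _ _ (M_anti (by omega) (hu m))

/-- A periodic system of opposite lattices (indexed by the periodic set `P`). -/
structure PSys (n : ℕ) (P : Set ℤ) (W : ℤ → Submodule F (V F)) : Prop where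
  nonempty : P.Nonempty
  addP : ∀ j ∈ P, j + n ∈ P
  subP : ∀ j ∈ P, j - n ∈ P
  compl : ∀ j ∈ P, IsCompl (W j) (M F j)
  mono : ∀ i ∈ P, ∀ j ∈ P, i ≤ j → W i ≤ W j
  shift : ∀ j ∈ P, W (j + n) = (W j).map (Lat.shift F n).toLinearMap
  low : ∀ j ∈ P, ∃ N : ℤ, L0 F N ≤ W j

theorem PSys.exists_gt [NeZero n] {P : Set ℤ} {W : ℤ → Submodule F (V F)} (h : PSys n P W) (m : ℤ) :
    ∃ j ∈ P, m < j ∧ ∀ i ∈ P, m < i → j ≤ i := by
  have hn : (0 : ℤ) < n := by exact_mod_cast Nat.pos_of_ne_zero (NeZero.ne n)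
  have hadd : ∀ (q : ℕ) j, j ∈ P → j + n * q ∈ P := by
    intro q
    induction q with
    | zero => intro j hj; simpa using hj
    | succ q ih =>
      intro j hj
      have := h.addP _ (ih j hj)
      push_cast
      rwa [mul_add, mul_one, ← add_assoc]
  obtain ⟨j₀, hj₀⟩ := h.nonempty
  have hex : ∃ j, j ∈ P ∧ m < j := by
    refine ⟨j₀ + n * ((m - j₀).toNat + 1 : ℕ), hadd _ _ hj₀, ?_⟩
    have h1 : (m - j₀) ≤ ((m - j₀).toNat : ℤ) := Int.self_le_toNat _
    have h2 : (((m - j₀).toNat + 1 : ℕ) : ℤ) ≤ n * ((m - j₀).toNat + 1 : ℕ) := by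
      have : (1 : ℤ) ≤ n := hn
      nlinarith [Int.natCast_nonneg ((m - j₀).toNat + 1)]
    push_cast at h2 ⊢
    linarith
  obtain ⟨j, ⟨hjP, hmj⟩, hmin⟩ := Int.exists_least_of_bdd (P := fun j => j ∈ P ∧ m < j)
    ⟨m, fun z hz => hz.2.le⟩ hex
  exact ⟨j, hjP, hmj, fun i hi hmi => hmin i ⟨hi, hmi⟩⟩

theorem PSys.exists_u [NeZero n] {P : Set ℤ} {W : ℤ → Submodule F (V F)} (h : PSys n P W) (m : ℤ) :
    ∃ u : V F, u - Finsupp.single m 1 ∈ M F (m + 1) ∧ ∀ j ∈ P, m < j → u ∈ W j := by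
  obtain ⟨j, hj, hmj, hmin⟩ := h.exists_gt m
  have htop : (Finsupp.single m 1 : V F) ∈ W j ⊔ M F j := by
    rw [(h.compl j hj).sup_eq_top]; trivial
  obtain ⟨w, hw, y, hy, hwy⟩ := Submodule.mem_sup.1 htop
  refine ⟨w, ?_, fun i hi hmi => h.mono j hj i hi (hmin i hi hmi) hw⟩
  rw [← hwy]
  have : w - (w + y) = -y := by abel
  rw [this]
  exact neg_mem (M_anti (by omega) hy)

/-- Birkhoff factorisation. -/
theorem PSys.birkhoff [NeZero n] {P : Set ℤ} {W : ℤ → Submodule F (V F)} (h : PSys n P W) :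
    ∃ T : V F →ₗ[F] V F, Function.Bijective T ∧
      (∀ x, T (Lat.shift F n x) = Lat.shift F n (T x)) ∧
      (∀ i, ∀ x ∈ M F i, T x - x ∈ M F (i + 1)) ∧ (∀ i, ∀ x, T x ∈ M F i → x ∈ M F i) ∧
      ∀ j ∈ P, (L0 F j).map T = W j := by
  have hn : (0 : ℤ) < n := by exact_mod_cast Nat.pos_of_ne_zero (NeZero.ne n)
  choose u₀ hu₀ hu₀' using h.exists_u
  -- periodic choice
  let u : ℤ → V F := fun m => Lat.shift F (n * (m / n)) (u₀ (m % n))
  have hP : ∀ (q : ℤ) j, j ∈ P → j + n * q ∈ P := by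
    intro q
    induction q using Int.induction_on with
    | zero => intro j hj; simpa using hj
    | succ q ih =>
      intro j hj
      have := h.addP _ (ih j hj)
      have e : j + n * ((q : ℤ) + 1) = j + n * q + n := by ring
      rwa [e]
    | pred q ih =>
      intro j hj
      have := h.subP _ (ih j hj)
      have e : j + n * (-(q : ℤ) - 1) = j + n * -(q : ℤ) - n := by ring
      rwa [e]
  have hWq : ∀ (q : ℤ) j, j ∈ P → ∀ x, x ∈ W j → Lat.shift F (n * q) x ∈ W (j + n * q) := by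
    intro q
    induction q using Int.induction_on with
    | zero => intro j hj x hx; simpa [shift_zero] using hx
    | succ q ih =>
      intro j hj x hx
      have e : j + n * ((q : ℤ) + 1) = j + n * q + n := by ring
      rw [e, h.shift _ (hP q j hj)]
      refine ⟨Lat.shift F (n * q) x, ih j hj x hx, ?_⟩
      change Lat.shift F n (Lat.shift F (n * q) x) = _
      rw [shift_shift]; congr 1; ring_nf
    | pred q ih =>
      intro j hj x hx
      have e : j + n * -(q : ℤ) = j + n * (-(q : ℤ) - 1) + n := by ring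
      have h1 := ih j hj x hx
      rw [e, h.shift _ (hP _ j hj)] at h1
      obtain ⟨y, hy, hyx⟩ := h1
      have : y = Lat.shift F (n * (-(q : ℤ) - 1)) x := by
        apply (Lat.shift F (n : ℤ)).injective
        change Lat.shift F n y = _ at hyx
        rw [hyx, shift_shift]
        congr 1; ring_nf
      rwa [← this]
  have hu : ∀ m, u m - Finsupp.single m 1 ∈ M F (m + 1) := by
    intro m
    have h1 := shift_mem_M (a := n * (m / n)) (hu₀ (m % n))
    rw [map_sub, shift_single] at h1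
    have e : m % n + n * (m / n) = m := Int.emod_add_mul_ediv m n
    have e' : m % n + 1 + n * (m / n) = m + 1 := by linarith
    rwa [e, e'] at h1
  have hu' : ∀ m, ∀ j ∈ P, m < j → u m ∈ W j := by
    intro m j hj hmj
    have e : m % n + n * (m / n) = m := Int.emod_add_mul_ediv m n
    have h1 := hWq (m / n) (j + n * (-(m / n))) (hP _ j hj) (u₀ (m % n))
      (hu₀' _ _ (hP _ j hj) (by linarith))
    have e2 : j + n * (-(m / n)) + n * (m / n) = j := by ring
    rwa [e2] at h1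
  have hup : ∀ m, Lat.shift F n (u m) = u (m + n) := by
    intro m
    simp only [u]
    rw [shift_shift, Int.add_emod_right, Int.add_ediv_of_dvd_right (dvd_refl _), Int.ediv_self hn.ne']
    congr 1; congr 1; ring_nf
  let T : V F →ₗ[F] V F := Finsupp.linearCombination F u
  have hT1 : ∀ x, T (Lat.shift F n x) = Lat.shift F n (T x) := by
    intro x
    induction x using Finsupp.induction_linear with
    | zero => simp
    | add x y hx hy => simp only [map_add, hx, hy]
    | single m c =>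
      rw [shift_single]
      change Finsupp.linearCombination F u _ = Lat.shift F n (Finsupp.linearCombination F u _)
      rw [Finsupp.linearCombination_single, Finsupp.linearCombination_single, map_smul, hup]
  have hT2 : ∀ i, ∀ x ∈ M F i, T x - x ∈ M F (i + 1) := fun i x hx => lin_sub_mem u hu hx
  have hTM : ∀ i, ∀ x ∈ M F i, T x ∈ M F i := by
    intro i x hx
    have := add_mem (M_anti (show i ≤ i + 1 by omega) (hT2 i x hx)) hx
    simpa using this
  have hT3 : ∀ j ∈ P, ∀ x ∈ L0 F j, T x ∈ W j := by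
    intro j hj x hx
    refine mem_L0_induction T (W j) ?_ hx
    intro m hm c
    change Finsupp.linearCombination F u _ ∈ _
    rw [Finsupp.linearCombination_single]
    exact Submodule.smul_mem _ _ (hu' m j hj hm)
  -- key surjectivity
  have hkey : ∀ j ∈ P, ∀ (d : ℕ) (i : ℤ), j ≤ i + d → ∀ x ∈ W j, x ∈ M F i →
      ∃ y ∈ L0 F j, y ∈ M F i ∧ T y = x := by
    intro j hj d
    induction d with
    | zero =>
      intro i hi x hxW hxM
      have h1 : x ∈ M F j := M_anti (by simpa using hi) hxM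
      have h2 : x = 0 := by
        have := (h.compl j hj).disjoint.le_bot ⟨hxW, h1⟩
        simpa using this
      exact ⟨0, zero_mem _, zero_mem _, by rw [h2, map_zero]⟩
    | succ d ih =>
      intro i hi x hxW hxM
      by_cases hij : j ≤ i
      · exact ih i (by omega) x hxW hxM
      · push Not at hij
        have hui := hu' i j hj hij
        have h1 : x - x i • u i ∈ W j := sub_mem hxW (Submodule.smul_mem _ _ hui)
        have h2 : x - x i • u i ∈ M F (i + 1) := by
          have e : x - x i • u i = (x - x i • Finsupp.single i 1) - x i • (u i - Finsupp.single i 1) := by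
            rw [smul_sub]; abel
          rw [e]
          refine sub_mem ?_ (Submodule.smul_mem _ _ (hu i))
          rw [mem_M]
          intro l hl
          rw [Finsupp.sub_apply, Finsupp.smul_apply]
          rcases lt_or_eq_of_le (show l ≤ i by omega) with h3 | h3
          · rw [mem_M.1 hxM l h3, Finsupp.single_eq_of_ne (by omega)]; simp
          · subst h3; rw [Finsupp.single_eq_same]; simp
        obtain ⟨y, hyL, hyM, hyT⟩ := ih (i + 1) (by push_cast at hi ⊢; omega) _ h1 h2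
        refine ⟨y + Finsupp.single i (x i), add_mem hyL (single_mem_L0 hij _),
          add_mem (M_anti (by omega) hyM) (single_mem_M le_rfl _), ?_⟩
        rw [map_add, hyT]
        change _ + Finsupp.linearCombination F u _ = _
        rw [Finsupp.linearCombination_single]
        abel
  have hinj : Function.Injective T := by
    rw [injective_iff_map_eq_zero]
    intro x hx
    by_contra hne
    have hsupp : x.support.Nonempty := Finsupp.support_nonempty_iff.2 hne
    have hmM : x ∈ M F (x.support.min' hsupp) := by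
      rw [mem_M]
      intro l hl
      by_contra h1
      have := x.support.min'_le l (Finsupp.mem_support_iff.2 h1)
      omega
    have h1 := hT2 _ x hmM
    rw [hx, zero_sub] at h1
    have h2 := mem_M.1 h1 (x.support.min' hsupp) (by omega)
    rw [Finsupp.neg_apply, neg_eq_zero] at h2
    exact (Finsupp.mem_support_iff.1 (x.support.min'_mem hsupp)) h2
  -- every x lies in W j for j large
  have hlarge : ∀ x : V F, ∃ j ∈ P, x ∈ W j := by
    intro x
    obtain ⟨j₀, hj₀⟩ := h.nonempty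
    obtain ⟨N, hN⟩ := h.low j₀ hj₀
    obtain ⟨b, hb⟩ := exists_mem_L0 x
    let q : ℤ := |b - N|
    refine ⟨j₀ + n * q, hP q j₀ hj₀, ?_⟩
    have h1 : Lat.shift F (n * (-q)) x ∈ W j₀ := by
      apply hN
      have h2 := shift_mem_L0 (a := n * (-q)) hb
      refine L0_mono ?_ h2
      have h3 : b - N ≤ q := le_abs_self _
      have h4 : 0 ≤ q := abs_nonneg _
      have h5 : q ≤ n * q := by nlinarith
      linarith
    have h2 := hWq q j₀ hj₀ _ h1
    rw [shift_shift] at h2
    have e : (n : ℤ) * q + n * (-q) = 0 := by ring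
    rwa [e, shift_zero] at h2
  have hsurj' : ∀ i, ∀ x ∈ M F i, ∃ y ∈ M F i, T y = x := by
    intro i x hx
    obtain ⟨j, hj, hxj⟩ := hlarge x
    obtain ⟨y, -, hyM, hyT⟩ := hkey j hj (j - i).toNat i (by
      have := Int.self_le_toNat (j - i)
      omega) x hxj hx
    exact ⟨y, hyM, hyT⟩
  refine ⟨T, ⟨hinj, ?_⟩, hT1, hT2, ?_, ?_⟩
  · intro x
    obtain ⟨i, hi⟩ := exists_mem_M x
    obtain ⟨y, -, hy⟩ := hsurj' i x hi
    exact ⟨y, hy⟩
  · intro i x hx
    obtain ⟨y, hyM, hyT⟩ := hsurj' i _ hx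
    rwa [← hinj hyT]
  · intro j hj
    apply le_antisymm
    · rintro _ ⟨x, hx, rfl⟩
      exact hT3 j hj x hx
    · intro x hx
      obtain ⟨i, hi⟩ := exists_mem_M x
      obtain ⟨y, hyL, -, hyT⟩ := hkey j hj (j - i).toNat i (by
        have := Int.self_le_toNat (j - i)
        omega) x hx hi
      exact ⟨y, hyL, hyT⟩

end Crest.Agent.R066.LatA
end

-- ▼ part R066/LatAct4
section

/-! Aux file for task A3: the action of `Uplus` on lattices, stabilisers. -/

set_option autoImplicit false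
open scoped BigOperators
open Polynomial
open Module (finrank)

namespace Crest.Agent.R066.LatA

open Crest.Agent.R066.Lat

variable {n p : ℕ} [NeZero n] [Fact p.Prime]

/-- The linear automorphism given by `g ∈ SL_n(F[X])`. -/
noncomputable def actE (g : SLX n p) : V (ZMod p) ≃ₗ[ZMod p] V (ZMod p) :=
  LinearEquiv.ofLinearMap (act g.1) (act (g⁻¹).1)
    (by
      have : act g.1 * act (g⁻¹).1 = (1 : Module.End (ZMod p) (V (ZMod p))) := by
        rw [← act_mul, ← Matrix.SpecialLinearGroup.coe_mul, mul_inv_cancel,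
          Matrix.SpecialLinearGroup.coe_one, act_one]
      exact this)
    (by
      have : act (g⁻¹).1 * act g.1 = (1 : Module.End (ZMod p) (V (ZMod p))) := by
        rw [← act_mul, ← Matrix.SpecialLinearGroup.coe_mul, inv_mul_cancel,
          Matrix.SpecialLinearGroup.coe_one, act_one]
      exact this)

theorem actE_apply (g : SLX n p) (x : V (ZMod p)) : actE g x = act g.1 x := rfl


theorem actE_mul (g h : SLX n p) (x : V (ZMod p)) : actE (g * h) x = actE g (actE h x) := by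
  rw [actE_apply, actE_apply, actE_apply, Matrix.SpecialLinearGroup.coe_mul, act_mul]
  rfl

theorem actE_one (x : V (ZMod p)) : actE (1 : SLX n p) x = x := by
  rw [actE_apply, Matrix.SpecialLinearGroup.coe_one, act_one]
  rfl

/-- Action on subspaces. -/
noncomputable def gmap (g : SLX n p) (L : Submodule (ZMod p) (V (ZMod p))) :
    Submodule (ZMod p) (V (ZMod p)) := L.map (actE g).toLinearMap

theorem mem_gmap {g : SLX n p} {L : Submodule (ZMod p) (V (ZMod p))} {x : V (ZMod p)} :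
    x ∈ gmap g L ↔ actE g⁻¹ x ∈ L := by
  constructor
  · rintro ⟨y, hy, rfl⟩
    change actE g⁻¹ (actE g y) ∈ L
    rwa [← actE_mul, inv_mul_cancel, actE_one]
  · intro h
    refine ⟨actE g⁻¹ x, h, ?_⟩
    change actE g (actE g⁻¹ x) = x
    rw [← actE_mul, mul_inv_cancel, actE_one]

theorem gmap_mul (g h : SLX n p) (L : Submodule (ZMod p) (V (ZMod p))) :
    gmap (g * h) L = gmap g (gmap h L) := by
  ext x
  rw [mem_gmap, mem_gmap, mem_gmap, ← actE_mul, mul_inv_rev]

theorem gmap_one (L : Submodule (ZMod p) (V (ZMod p))) : gmap (1 : SLX n p) L = L := by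
  ext x
  rw [mem_gmap, inv_one, actE_one]

theorem gmap_mono (g : SLX n p) {L L' : Submodule (ZMod p) (V (ZMod p))} (h : L ≤ L') :
    gmap g L ≤ gmap g L' := Submodule.map_mono h

theorem actE_sub_mem {g : SLX n p} (hg : g ∈ Uplus n p) {i : ℤ} {x : V (ZMod p)}
    (hx : x ∈ M (ZMod p) i) : actE g x - x ∈ M (ZMod p) (i + 1) := by
  rw [mem_Uplus] at hg
  exact act_sub_mem g.1 hg.1 hg.2 hx

theorem actE_mem_M {g : SLX n p} (hg : g ∈ Uplus n p) {i : ℤ} {x : V (ZMod p)}
    (hx : x ∈ M (ZMod p) i) : actE g x ∈ M (ZMod p) i := by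
  have := add_mem (M_anti (show i ≤ i + 1 by omega) (actE_sub_mem hg hx)) hx
  simpa using this

theorem gmap_M {g : SLX n p} (hg : g ∈ Uplus n p) (i : ℤ) :
    gmap g (M (ZMod p) i) = M (ZMod p) i := by
  apply le_antisymm
  · rintro _ ⟨x, hx, rfl⟩
    exact actE_mem_M hg hx
  · intro x hx
    rw [mem_gmap]
    exact actE_mem_M (inv_mem hg) hx

theorem actE_shift (g : SLX n p) (q : ℤ) (x : V (ZMod p)) :
    actE g (Lat.shift (ZMod p) (q * n) x) = Lat.shift (ZMod p) (q * n) (actE g x) := by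
  have h : ∀ x, actE g (Lat.shift (ZMod p) n x) = Lat.shift (ZMod p) n (actE g x) :=
    act_shift g.1
  induction q using Int.induction_on generalizing x with
  | zero => rw [zero_mul, shift_zero, shift_zero]
  | succ q ih =>
    have : ((q : ℤ) + 1) * n = n + q * n := by ring
    rw [this, ← shift_shift, h, ih, shift_shift]
  | pred q ih =>
    apply (Lat.shift (ZMod p) (n : ℤ)).injective
    rw [← h, shift_shift, shift_shift]
    have : (n : ℤ) + (-(q : ℤ) - 1) * n = -(q : ℤ) * n := by ring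
    rw [this, ih]

theorem tr_gmap (g : SLX n p) (q : ℤ) (L : Submodule (ZMod p) (V (ZMod p))) :
    tr n q (gmap g L) = gmap g (tr n q L) := by
  unfold Lat.tr gmap
  rw [← Submodule.map_comp, ← Submodule.map_comp]
  congr 1
  apply LinearMap.ext
  intro x
  exact (actE_shift g q x).symm

theorem isCompl_gmap {g : SLX n p} (hg : g ∈ Uplus n p) {L : Submodule (ZMod p) (V (ZMod p))} {i : ℤ}
    (h : IsCompl L (M (ZMod p) i)) : IsCompl (gmap g L) (M (ZMod p) i) := by
  rw [← gmap_M hg i]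
  exact (Submodule.orderIsoMapComap (actE g)).isCompl h

theorem type_unique {L : Submodule (ZMod p) (V (ZMod p))} {i j : ℤ}
    (hi : IsCompl L (M (ZMod p) i)) (hj : IsCompl L (M (ZMod p) j)) : i = j := by
  wlog hij : i ≤ j generalizing i j
  · exact (this hj hi (by omega)).symm
  by_contra hne
  have hlt : i < j := lt_of_le_of_ne hij hne
  have h1 : (Finsupp.single i 1 : V (ZMod p)) ∈ L ⊔ M (ZMod p) j := by
    rw [hj.sup_eq_top]; trivial
  obtain ⟨w, hw, y, hy, hwy⟩ := Submodule.mem_sup.1 h1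
  have h2 : w = Finsupp.single i 1 - y := by rw [← hwy]; abel
  have h3 : w ∈ M (ZMod p) i := by
    rw [h2]; exact sub_mem (single_mem_M le_rfl _) (M_anti hij hy)
  have h4 : w = 0 := by
    have := hi.disjoint.le_bot ⟨hw, h3⟩
    simpa using this
  rw [h4, zero_add] at hwy
  rw [hwy] at hy
  have h5 := mem_M.1 hy i hlt
  rw [Finsupp.single_eq_same] at h5
  exact one_ne_zero h5

/-! ### bounds -/

theorem exists_bound (A : Matrix (Fin n) (Fin n) (ZMod p)[X]) : ∃ K : ℕ, ∀ (j : ℤ),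
    ∀ x ∈ L0 (ZMod p) j, act A x ∈ L0 (ZMod p) (j + K) := by
  let D : ℕ := ∑ a, ∑ b, (A a b).natDegree
  have hD : ∀ a b, (A a b).natDegree ≤ D := by
    intro a b
    refine le_trans ?_ (Finset.single_le_sum (f := fun a => ∑ b, (A a b).natDegree)
      (fun _ _ => Nat.zero_le _) (Finset.mem_univ a))
    exact Finset.single_le_sum (f := fun b => (A a b).natDegree)
      (fun _ _ => Nat.zero_le _) (Finset.mem_univ b)
  refine ⟨n + n * D, fun j x hx => ?_⟩
  refine mem_L0_induction (act A) _ ?_ hx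
  intro m hm c
  obtain ⟨b, q, rfl⟩ := exists_eq_add_mul n m
  rw [act_single]
  refine Submodule.sum_mem _ fun a _ => ?_
  rw [aeval_single]
  refine Submodule.sum_mem _ fun d hd => ?_
  apply single_mem_L0
  rw [Finset.mem_range] at hd
  have h1 : (n : ℤ) * d ≤ n * D := by
    have := hD a b
    have : (d : ℤ) ≤ D := by exact_mod_cast (by omega : d ≤ D)
    exact mul_le_mul_of_nonneg_left this (by positivity)
  have h2 : ((a : ℕ) : ℤ) < n := by exact_mod_cast a.2
  have h3 : (0 : ℤ) ≤ (b : ℕ) := by positivity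
  push_cast
  omega

theorem isLat_gmap {g : SLX n p} {j : ℤ} : IsLat n (gmap g (L0 (ZMod p) j)) := by
  refine ⟨?_, ?_⟩
  · rw [tr_gmap, tr_L0]
    exact gmap_mono g (L0_mono (by
      have : (0 : ℤ) ≤ n := by positivity
      linarith))
  · obtain ⟨K, hK⟩ := exists_bound g.1
    obtain ⟨K', hK'⟩ := exists_bound (g⁻¹).1
    refine ⟨(K + K' + j.natAbs), ?_, ?_⟩
    · intro x hx
      rw [mem_gmap]
      refine L0_mono ?_ (hK' _ x hx)
      push_cast
      have := Int.natCast_natAbs j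
      have := neg_abs_le j
      omega
    · rintro _ ⟨x, hx, rfl⟩
      refine L0_mono ?_ (hK _ x hx)
      push_cast
      have := Int.natCast_natAbs j
      have := le_abs_self j
      omega

theorem finrank_L0_inf_M (i j : ℤ) : finrank (ZMod p) ↥(L0 (ZMod p) j ⊓ M (ZMod p) i) =
    (j - i).toNat := by
  have h : L0 (ZMod p) j ⊓ M (ZMod p) i = Finsupp.supported (ZMod p) (ZMod p) (Set.Ico i j) := by
    unfold Lat.L0 Lat.M
    rw [← Finsupp.supported_inter]
    congr 1
    ext l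
    simp [Set.mem_Ico, and_comm]
  rw [h]
  have e := Finsupp.supportedEquivFinsupp (M := ZMod p) (R := ZMod p) (Set.Ico i j)
  rw [e.finrank_eq, Module.finrank_finsupp_self, ← Set.toFinset_card, Set.toFinset_Ico, Int.card_Ico]

theorem hasCharge_gmap {g : SLX n p} (hg : g ∈ Uplus n p) (j : ℤ) :
    HasCharge (gmap g (L0 (ZMod p) j)) j := by
  refine ⟨j, fun i hi => ?_⟩
  unfold Lat.D
  have h1 : gmap g (L0 (ZMod p) j) ⊓ M (ZMod p) i = gmap g (L0 (ZMod p) j ⊓ M (ZMod p) i) := by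
    conv_lhs => rw [← gmap_M hg i]
    exact (Submodule.map_inf _ (actE g).injective).symm
  rw [h1]
  have h2 : finrank (ZMod p) ↥(gmap g (L0 (ZMod p) j ⊓ M (ZMod p) i)) =
      finrank (ZMod p) ↥(L0 (ZMod p) j ⊓ M (ZMod p) i) :=
    LinearEquiv.finrank_map_eq (actE g) _
  rw [h2, finrank_L0_inf_M]
  omega

/-! ### stabilisers -/

omit [NeZero n] in
theorem act_coeff (A : Matrix (Fin n) (Fin n) (ZMod p)[X]) (a b : Fin n) (q : ℤ) (d : ℕ) :
    act A (Finsupp.single ((b : ℕ) + n * q : ℤ) 1) ((a : ℕ) + n * q + n * d : ℤ) =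
      (A a b).coeff d := by
  have hn : 0 < n := a.pos
  rw [act_single, Finsupp.finsetSum_apply, Finset.sum_eq_single a]
  · rw [aeval_single_apply hn, mul_one]
  · intro a' _ ha'
    apply aeval_single_apply_ne
    intro d' h'
    apply ha'
    have h1 : ((a : ℕ) + n * q + n * d : ℤ) % n = (a : ℕ) := by
      rw [Int.add_mul_emod_self_left, Int.add_mul_emod_self_left]
      exact Int.emod_eq_of_lt (by positivity) (by exact_mod_cast a.2)
    have h2 : ((a' : ℕ) + n * q + n * d' : ℤ) % n = (a' : ℕ) := by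
      rw [Int.add_mul_emod_self_left, Int.add_mul_emod_self_left]
      exact Int.emod_eq_of_lt (by positivity) (by exact_mod_cast a'.2)
    rw [h', h2] at h1
    exact Fin.ext (by exact_mod_cast h1)
  · intro h; exact absurd (Finset.mem_univ _) h

theorem Hsub_preserves (hp : p.Prime) {j : Fin n} {g : SLX n p} (hg : g ∈ Hsub n p j) :
    gmap g (L0 (ZMod p) (j : ℕ)) ≤ L0 (ZMod p) (j : ℕ) := by
  obtain ⟨r, hr, -, h2⟩ := (mem_Hsub hp j g).1 hg
  rintro _ ⟨x, hx, rfl⟩
  change act g.1 x ∈ _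
  refine mem_L0_induction (act g.1) _ ?_ hx
  intro m hm c
  obtain ⟨b, q, rfl⟩ := exists_eq_add_mul n m
  rw [act_single, hr]
  refine Submodule.sum_mem _ fun a _ => ?_
  unfold nf
  rw [map_mul, aeval_C, Module.End.mul_apply, map_pow, aeval_X, tau_pow_single,
    Module.algebraMap_end_apply]
  have hnn : (0 : ℤ) < n := by exact_mod_cast Nat.pos_of_ne_zero (NeZero.ne n)
  have ha := a.2
  have hb := b.2
  have hj := j.2
  have hq : q ≤ 0 := by
    by_contra hq
    have : (n : ℤ) * 1 ≤ n * q := mul_le_mul_of_nonneg_left (by omega) hnn.le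
    omega
  by_cases hlt : a - j < b - j
  · rw [h2 a b hlt, zero_smul]; exact zero_mem _
  · refine Submodule.smul_mem _ _ (single_mem_L0 ?_ c)
    rw [fin_sub_lt] at hlt
    simp only [Fin.lt_def, Fin.le_def] at hlt
    push Not at hlt
    simp only [Fin.lt_def]
    rcases (show q = 0 ∨ q = -1 ∨ q ≤ -2 by omega) with h | h | h
    · subst h
      rw [mul_zero, add_zero] at hm ⊢
      split_ifs with h3 <;> push_cast <;> omega
    · subst h
      split_ifs with h3 <;> push_cast <;> omega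
    · have : (n : ℤ) * q ≤ n * (-2) := mul_le_mul_of_nonneg_left (by omega) hnn.le
      split_ifs with h3 <;> push_cast <;> omega

theorem gmap_Hsub (hp : p.Prime) {j : Fin n} {g : SLX n p} (hg : g ∈ Hsub n p j) :
    gmap g (L0 (ZMod p) (j : ℕ)) = L0 (ZMod p) (j : ℕ) := by
  apply le_antisymm (Hsub_preserves hp hg)
  have h := gmap_mono g (Hsub_preserves hp (inv_mem hg))
  rwa [← gmap_mul, mul_inv_cancel, gmap_one] at h

theorem mem_Hsub_of_preserves (hp : p.Prime) {j : Fin n} {g : SLX n p} (hU : g ∈ Uplus n p)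
    (hg : gmap g (L0 (ZMod p) (j : ℕ)) ≤ L0 (ZMod p) (j : ℕ)) : g ∈ Hsub n p j := by
  have hnn : (0 : ℤ) < n := by exact_mod_cast Nat.pos_of_ne_zero (NeZero.ne n)
  -- vanishing of coefficients
  have key : ∀ (a b : Fin n) (q : ℤ) (d : ℕ), ((b : ℕ) + n * q : ℤ) < (j : ℕ) →
      (g.1 a b).coeff d ≠ 0 → ((b : ℕ) + n * q : ℤ) ≤ (a : ℕ) + n * q + n * d ∧
        ((a : ℕ) + n * q + n * d : ℤ) < (j : ℕ) := by
    intro a b q d hbj hne
    rw [← act_coeff (p := p) g.1 a b q d] at hne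
    constructor
    · by_contra hlt
      apply hne
      exact mem_M.1 (actE_mem_M hU (single_mem_M (le_refl ((b : ℕ) + n * q : ℤ)) (1 : ZMod p))) _
        (not_le.1 hlt)
    · by_contra hlt
      apply hne
      have h1 : actE g (Finsupp.single ((b : ℕ) + n * q : ℤ) (1 : ZMod p)) ∈ L0 (ZMod p) (j : ℕ) :=
        hg ⟨_, single_mem_L0 hbj 1, rfl⟩
      exact mem_L0.1 h1 _ (not_lt.1 hlt)
  have key2 : ∀ (a b : Fin n) (d : ℕ), (g.1 a b).coeff d ≠ 0 →
      ((b : ℕ) < (j : ℕ) ∧ d = 0 ∧ (b : ℕ) ≤ a ∧ (a : ℕ) < j) ∨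
      ((j : ℕ) ≤ (b : ℕ) ∧ d = 0 ∧ (b : ℕ) ≤ a) ∨ ((j : ℕ) ≤ (b : ℕ) ∧ d = 1 ∧ (a : ℕ) < j) := by
    intro a b d hne
    have ha := a.2
    have hb := b.2
    rcases lt_or_ge (b : ℕ) (j : ℕ) with hbj | hbj
    · obtain ⟨h3, h4⟩ := key a b 0 d (by rw [mul_zero, add_zero]; exact_mod_cast hbj) hne
      rw [mul_zero, add_zero, add_zero] at h3
      rw [mul_zero, add_zero] at h4
      have hj := j.2
      have h5 : (n : ℤ) * d < n * 1 := by omega
      have h6 := lt_of_mul_lt_mul_left h5 hnn.le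
      have h7 : d = 0 := by omega
      subst h7
      simp only [Nat.cast_zero, mul_zero, add_zero] at h3 h4
      left
      refine ⟨hbj, rfl, ?_, ?_⟩ <;> omega
    · have hj := j.2
      obtain ⟨h3, h4⟩ := key a b (-1) d (by omega) hne
      have h5 : (n : ℤ) * d < n * 2 := by omega
      have h6 := lt_of_mul_lt_mul_left h5 hnn.le
      have h7 : d = 0 ∨ d = 1 := by omega
      rcases h7 with h7 | h7
      · subst h7
        simp only [Nat.cast_zero, mul_zero, add_zero] at h3 h4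
        right; left
        refine ⟨hbj, rfl, ?_⟩; omega
      · subst h7
        simp only [Nat.cast_one, mul_one] at h3 h4
        right; right
        refine ⟨hbj, rfl, ?_⟩; omega
  rw [mem_Hsub hp]
  refine ⟨fun a b => (g.1 a b).coeff (if a < b then 1 else 0), ?_, ?_, ?_⟩
  · ext a b d
    unfold nf
    rw [Polynomial.coeff_C_mul, Polynomial.coeff_X_pow]
    by_cases hd : d = if a < b then 1 else 0
    · rw [if_pos hd, mul_one, hd]
    · rw [if_neg hd, mul_zero]
      by_contra hne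
      have h := key2 a b d hne
      apply hd
      simp only [Fin.lt_def]
      split_ifs <;> omega
  · intro a
    have := ((mem_Uplus g).1 hU).1 a
    simpa using this
  · intro a b hab
    rw [fin_sub_lt] at hab
    simp only [Fin.lt_def, Fin.le_def] at hab
    by_contra hne
    have h := key2 a b _ hne
    simp only [Fin.lt_def] at h
    split_ifs at h <;> omega

/-- From a unipotent automorphism to a matrix. -/
theorem exists_Uplus (T : V (ZMod p) →ₗ[ZMod p] V (ZMod p)) (hbij : Function.Bijective T)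
    (hsh : ∀ x, T (Lat.shift (ZMod p) n x) = Lat.shift (ZMod p) n (T x))
    (hT : ∀ i, ∀ x ∈ M (ZMod p) i, T x - x ∈ M (ZMod p) (i + 1))
    (hT' : ∀ i, ∀ x, T x ∈ M (ZMod p) i → x ∈ M (ZMod p) i) :
    ∃ g ∈ Uplus n p, ∀ x, actE g x = T x := by
  let e : V (ZMod p) ≃ₗ[ZMod p] V (ZMod p) := LinearEquiv.ofBijective T hbij
  have hTM : ∀ i, ∀ x ∈ M (ZMod p) i, T x ∈ M (ZMod p) i := by
    intro i x hx
    have := add_mem (M_anti (show i ≤ i + 1 by omega) (hT i x hx)) hx
    simpa using this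
  obtain ⟨A, hA⟩ := exists_act_eq T hsh (hTM 0)
  obtain ⟨B, hB⟩ := exists_act_eq (n := n) (e.symm : V (ZMod p) →ₗ[ZMod p] V (ZMod p))
    (by
      intro x
      change e.symm _ = Lat.shift (ZMod p) n (e.symm x)
      apply e.injective
      rw [LinearEquiv.apply_symm_apply]
      change _ = T _
      rw [hsh]
      change _ = Lat.shift (ZMod p) n (e (e.symm x))
      rw [LinearEquiv.apply_symm_apply])
    (by
      intro x hx
      apply hT' 0
      change e (e.symm x) ∈ _
      rwa [LinearEquiv.apply_symm_apply])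
  have hAB : A * B = 1 := by
    apply act_injective (F := ZMod p)
    rw [act_mul, hA, hB, act_one]
    apply LinearMap.ext
    intro x
    exact e.apply_symm_apply x
  have hcoef : ∀ a b, (A a b).coeff 0 = T (Finsupp.single ((b : ℕ) : ℤ) 1) ((a : ℕ) : ℤ) := by
    intro a b
    rw [← act_single_apply A a b 0, hA]
    simp
  have h1 : ∀ b : Fin n, ∀ l : ℤ, l ≤ (b : ℕ) → T (Finsupp.single ((b : ℕ) : ℤ) 1) l =
      (Finsupp.single ((b : ℕ) : ℤ) 1 : V (ZMod p)) l := by
    intro b l hl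
    have := mem_M.1 (hT _ _ (single_mem_M (le_refl ((b : ℕ) : ℤ)) (1 : ZMod p))) l (by omega)
    rw [Finsupp.sub_apply, sub_eq_zero] at this
    exact this
  have hdiag : ∀ i, (A i i).coeff 0 = 1 := by
    intro i
    rw [hcoef, h1 i _ le_rfl, Finsupp.single_eq_same]
  have hup : ∀ i j, i < j → (A i j).coeff 0 = 0 := by
    intro i j hij
    have hij' : ((i : ℕ) : ℤ) < (j : ℕ) := by exact_mod_cast hij
    rw [hcoef, h1 j _ hij'.le, Finsupp.single_eq_of_ne (by omega)]
  have hdet0 : A.det.coeff 0 = 1 := by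
    have h2 : A.det.coeff 0 = (A.map (Polynomial.constantCoeff)).det := by
      have := RingHom.map_det (Polynomial.constantCoeff : (ZMod p)[X] →+* ZMod p) A
      rw [Polynomial.constantCoeff_apply] at this
      rw [this]; rfl
    rw [h2, Matrix.det_of_isLowerTriangular _ (fun i j h => by
      change (A i j).coeff 0 = 0
      exact hup i j h)]
    refine Finset.prod_eq_one fun i _ => ?_
    exact hdiag i
  have hdet : A.det = 1 := by
    have h2 : IsUnit A.det := by
      rw [← Matrix.isUnit_iff_isUnit_det]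
      exact ⟨⟨A, B, hAB, mul_eq_one_comm.1 hAB⟩, rfl⟩
    obtain ⟨c, -, hc⟩ := Polynomial.isUnit_iff.1 h2
    rw [← hc] at hdet0 ⊢
    rw [Polynomial.coeff_C_zero] at hdet0
    rw [hdet0, map_one]
  refine ⟨⟨A, hdet⟩, ?_, ?_⟩
  · exact (mem_Uplus (⟨A, hdet⟩ : SLX n p)).2 ⟨hdiag, hup⟩
  · intro x
    change act A x = T x
    rw [hA]

end Crest.Agent.R066.LatA
end

-- ▼ part R066/LatAction

/-! `Uplus` acts on the opposite complex, transitively on simplices of each type (task A3):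
`XCx` is the coset complex of `(Uplus, HsubU)`. -/

set_option autoImplicit false
open scoped BigOperators

namespace Crest.Agent.R066

namespace LatA

open Crest.Agent.R066.Lat

variable {n p : ℕ} [NeZero n] [Fact p.Prime]

/-- The vertex map from cosets to lattices. -/
noncomputable def vmap (v : CosetVert (HsubU n p)) : Submodule (ZMod p) (V (ZMod p)) :=
  gmap (v.2.out : ↥(Uplus n p)).1 (L0 (ZMod p) (v.1 : ℕ))

omit [Fact p.Prime] in
theorem mem_HsubU {j : Fin n} {g : ↥(Uplus n p)} : g ∈ HsubU n p j ↔ g.1 ∈ Hsub n p j := by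
  unfold HsubU
  exact Subgroup.mem_subgroupOf

theorem vmap_mk (j : Fin n) (g : ↥(Uplus n p)) :
    vmap (⟨j, (g : ↥(Uplus n p) ⧸ HsubU n p j)⟩ : CosetVert (HsubU n p)) =
      gmap g.1 (L0 (ZMod p) (j : ℕ)) := by
  have hp : p.Prime := Fact.out
  unfold vmap
  obtain ⟨h, hh⟩ := QuotientGroup.mk_out_eq_mul (HsubU n p j) g
  simp only [hh]
  rw [Subgroup.coe_mul, gmap_mul, gmap_Hsub hp (mem_HsubU.1 h.2)]

theorem vmap_inj {v w : CosetVert (HsubU n p)} (h : vmap v = vmap w) : v = w := by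
  have hp : p.Prime := Fact.out
  obtain ⟨i, x⟩ := v
  obtain ⟨j, y⟩ := w
  obtain ⟨g, rfl⟩ := QuotientGroup.mk_surjective x
  obtain ⟨g', rfl⟩ := QuotientGroup.mk_surjective y
  rw [vmap_mk, vmap_mk] at h
  have h1 := isCompl_gmap g.2 (isCompl_L0_M (F := ZMod p) (i : ℕ))
  have h2 := isCompl_gmap g'.2 (isCompl_L0_M (F := ZMod p) (j : ℕ))
  rw [h] at h1
  have hij := type_unique h1 h2
  have hij' : i = j := Fin.ext (by exact_mod_cast hij)
  subst hij'
  congr 1
  rw [QuotientGroup.eq, mem_HsubU]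
  apply mem_Hsub_of_preserves hp (g⁻¹ * g').2
  have h3 := congrArg (gmap (g⁻¹).1) h
  rw [← gmap_mul, ← gmap_mul] at h3
  have e1 : (g⁻¹).1 * g.1 = (1 : SLX n p) := by
    rw [← Subgroup.coe_mul, inv_mul_cancel, Subgroup.coe_one]
  rw [e1, gmap_one] at h3
  rw [Subgroup.coe_mul, ← h3]

theorem adj_std {g : SLX n p} {i j : ℤ} (hij : i ≤ j) (hjn : j ≤ i + n) :
    Adj n (gmap g (L0 (ZMod p) i)) (gmap g (L0 (ZMod p) j)) := by
  left
  refine ⟨gmap_mono g (L0_mono hij), ?_⟩
  rw [tr_gmap, tr_L0]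
  exact gmap_mono g (L0_mono (by linarith))

open Classical in
theorem image_mem_XCx (s : Finset (CosetVert (HsubU n p))) (hs : s ∈ cosetCx (HsubU n p)) :
    s.image vmap ∈ XCx (ZMod p) n := by
  obtain ⟨g, hg⟩ := hs
  have h : ∀ v ∈ s, vmap v = gmap g.1 (L0 (ZMod p) (v.1 : ℕ)) := by
    intro v hv
    obtain ⟨j, x⟩ := v
    have := hg _ hv
    simp only at this
    subst this
    exact vmap_mk j g
  refine ⟨⟨?_, ?_⟩, ?_⟩
  · intro L hL
    obtain ⟨v, hv, rfl⟩ := Finset.mem_image.1 hL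
    rw [h v hv]
    refine ⟨isLat_gmap, (v.1 : ℕ), by positivity, by exact_mod_cast v.1.2, hasCharge_gmap g.2 _⟩
  · intro L hL L' hL'
    obtain ⟨v, hv, rfl⟩ := Finset.mem_image.1 hL
    obtain ⟨w, hw, rfl⟩ := Finset.mem_image.1 hL'
    rw [h v hv, h w hw]
    have hvn := v.1.2
    have hwn := w.1.2
    rcases le_total ((v.1 : ℕ) : ℤ) (w.1 : ℕ) with hle | hle
    · exact adj_std hle (by omega)
    · exact Or.symm (adj_std hle (by omega))
  · intro L hL
    obtain ⟨v, hv, rfl⟩ := Finset.mem_image.1 hL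
    rw [h v hv]
    exact ⟨(v.1 : ℕ), by positivity, by exact_mod_cast v.1.2,
      isCompl_gmap g.2 (isCompl_L0_M _)⟩

theorem eq_of_compl {L L' : Submodule (ZMod p) (V (ZMod p))} {c c' : ℤ} (hle : L' ≤ L)
    (hc : c ≤ c') (h : IsCompl L (M (ZMod p) c)) (h' : IsCompl L' (M (ZMod p) c')) : L = L' := by
  apply le_antisymm _ hle
  intro x hx
  have h1 : x ∈ L' ⊔ M (ZMod p) c' := by rw [h'.sup_eq_top]; trivial
  obtain ⟨w, hw, y, hy, rfl⟩ := Submodule.mem_sup.1 h1
  have h2 : y ∈ L := by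
    have := sub_mem hx (hle hw)
    simpa using this
  have h3 : y = 0 := by
    have := h.disjoint.le_bot ⟨h2, M_anti hc hy⟩
    simpa using this
  rw [h3, add_zero]; exact hw

open Classical in
theorem exists_coset (t : Finset (Submodule (ZMod p) (V (ZMod p)))) (ht : t ∈ XCx (ZMod p) n) :
    ∃ s ∈ cosetCx (HsubU n p), s.image vmap = t := by
  obtain ⟨⟨hlat, hadj⟩, hopp⟩ := ht
  rcases t.eq_empty_or_nonempty with rfl | hne
  · exact ⟨∅, ⟨1, by simp⟩, by simp⟩
  have hnn : (0 : ℤ) < n := by exact_mod_cast Nat.pos_of_ne_zero (NeZero.ne n)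
  choose! c hc0 hcn hc using hopp
  -- the lattice of a given type
  have hmono : ∀ L ∈ t, ∀ L' ∈ t, c L ≤ c L' → L ≤ L' := by
    intro L hL L' hL' hcc
    rcases hadj L hL L' hL' with h | h
    · exact h.1
    · exact (eq_of_compl h.1 hcc (hc L hL) (hc L' hL')).le
  have hup : ∀ L ∈ t, ∀ L' ∈ t, L ≤ tr n 1 L' := by
    intro L hL L' hL'
    rcases hadj L hL L' hL' with h | h
    · have h1 := tr_mono n 1 (hlat L' hL').1.1
      rw [tr_tr, add_neg_cancel, tr_zero] at h1
      exact h.1.trans h1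
    · exact h.2
  let S : Set ℤ := {r | ∃ L ∈ t, c L = r}
  have hSex : ∀ r ∈ S, ∃ L ∈ t, c L = r := fun r hr => hr
  choose! W₀ hW₀t hW₀c using hSex
  have hW₀ : ∀ L ∈ t, W₀ (c L) = L := by
    intro L hL
    have hr : c L ∈ S := ⟨L, hL, rfl⟩
    apply le_antisymm
    · exact hmono _ (hW₀t _ hr) _ hL (hW₀c _ hr).le
    · exact hmono _ hL _ (hW₀t _ hr) (hW₀c _ hr).ge
  have hSb : ∀ r ∈ S, 0 ≤ r ∧ r < n := by
    rintro r ⟨L, hL, rfl⟩
    exact ⟨hc0 L hL, hcn L hL⟩
  let Pset : Set ℤ := {m | m % n ∈ S}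
  let W : ℤ → Submodule (ZMod p) (V (ZMod p)) := fun m => tr n (m / n) (W₀ (m % n))
  have hPS : PSys n Pset W := by
    refine ⟨?_, ?_, ?_, ?_, ?_, ?_, ?_⟩
    · obtain ⟨L, hL⟩ := hne
      refine ⟨c L, ?_⟩
      change c L % n ∈ S
      rw [Int.emod_eq_of_lt (hc0 L hL) (hcn L hL)]
      exact ⟨L, hL, rfl⟩
    · intro j hj
      change (j + n) % n ∈ S
      rw [Int.add_emod_right]; exact hj
    · intro j hj
      change (j - n) % n ∈ S
      rw [Int.sub_emod_right]; exact hj
    · intro j hj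
      have h1 : IsCompl (W₀ (j % n)) (M (ZMod p) (j % n)) := by
        have := hc _ (hW₀t _ hj)
        rwa [hW₀c _ hj] at this
      have h2 : M (ZMod p) j = tr n (j / n) (M (ZMod p) (j % n)) := by
        rw [tr_M]; congr 1
        have := Int.emod_add_mul_ediv j n
        rw [mul_comm]; omega
      rw [h2]
      exact (Submodule.orderIsoMapComap (Lat.shift (ZMod p) (j / n * n))).isCompl h1
    · intro i hi j hj hij
      change tr n (i / n) (W₀ (i % n)) ≤ tr n (j / n) (W₀ (j % n))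
      have hi' := hSb _ hi
      have hj' := hSb _ hj
      have e1 := Int.emod_add_mul_ediv i n
      have e2 := Int.emod_add_mul_ediv j n
      have hq : i / n ≤ j / n := Int.ediv_le_ediv hnn hij
      rcases hq.eq_or_lt with h | h
      · rw [h]
        apply tr_mono
        apply hmono _ (hW₀t _ hi) _ (hW₀t _ hj)
        rw [hW₀c _ hi, hW₀c _ hj]
        rw [h] at e1
        omega
      · have h3 : ∀ d : ℕ, W₀ (i % n) ≤ tr n (1 + d) (W₀ (j % n)) := by
          intro d
          induction d with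
          | zero =>
            rw [Nat.cast_zero, add_zero]
            exact hup _ (hW₀t _ hi) _ (hW₀t _ hj)
          | succ d ih =>
            refine ih.trans ?_
            have h4 := tr_mono n (1 + d) (hup _ (hW₀t _ hj) _ (hW₀t _ hj))
            rw [tr_tr] at h4
            push_cast
            rwa [show (1 : ℤ) + (d + 1) = 1 + d + 1 by ring]
        have h5 := tr_mono n (i / n) (h3 (j / n - i / n - 1).toNat)
        rw [tr_tr] at h5
        have e3 : i / n + (1 + ((j / n - i / n - 1).toNat : ℤ)) = j / n := by omega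
        rwa [e3] at h5
    · intro j _
      change tr n ((j + n) / n) (W₀ ((j + n) % n)) = _
      rw [Int.add_emod_right, Int.add_ediv_of_dvd_right (dvd_refl _), Int.ediv_self hnn.ne']
      have : (tr n (j / n) (W₀ (j % n))).map (Lat.shift (ZMod p) n).toLinearMap =
          tr n 1 (tr n (j / n) (W₀ (j % n))) := by
        unfold Lat.tr
        rw [one_mul]
      rw [this, tr_tr, add_comm]
    · intro j hj
      obtain ⟨N, hN, -⟩ := (hlat _ (hW₀t _ hj)).1.2
      refine ⟨-(N : ℤ) + (j / n) * n, ?_⟩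
      rw [← tr_L0]
      exact tr_mono n _ hN
  obtain ⟨T, hbij, hsh, hT, hT', hTP⟩ := hPS.birkhoff
  obtain ⟨g, hg, hgT⟩ := exists_Uplus T hbij hsh hT hT'
  have hgT' : (actE g).toLinearMap = T := LinearMap.ext hgT
  have hgL : ∀ L ∈ t, gmap g (L0 (ZMod p) (c L)) = L := by
    intro L hL
    have h1 : c L ∈ Pset := by
      change c L % n ∈ S
      rw [Int.emod_eq_of_lt (hc0 L hL) (hcn L hL)]
      exact ⟨L, hL, rfl⟩
    have h2 := hTP _ h1
    unfold gmap
    rw [hgT', h2]
    change tr n (c L / n) (W₀ (c L % n)) = L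
    rw [Int.emod_eq_of_lt (hc0 L hL) (hcn L hL), Int.ediv_eq_zero_of_lt (hc0 L hL) (hcn L hL),
      tr_zero, hW₀ L hL]
  let vt : Submodule (ZMod p) (V (ZMod p)) → CosetVert (HsubU n p) := fun L =>
    ⟨Fin.ofNat n (c L).toNat, ((⟨g, hg⟩ : ↥(Uplus n p)) : ↥(Uplus n p) ⧸ HsubU n p _)⟩
  refine ⟨t.image vt, ⟨⟨g, hg⟩, ?_⟩, ?_⟩
  · intro v hv
    obtain ⟨L, hL, rfl⟩ := Finset.mem_image.1 hv
    rfl
  · rw [Finset.image_image]
    conv_rhs => rw [← Finset.image_id (s := t)]
    refine Finset.image_congr fun L hL => ?_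
    change vmap (vt L) = L
    rw [vmap_mk]
    have h1 : ((Fin.ofNat n (c L).toNat : ℕ) : ℤ) = c L := by
      have h2 : (c L).toNat < n := by
        have := hcn L hL; have := hc0 L hL; omega
      rw [Fin.ofNat_eq_cast, Fin.val_natCast, Nat.mod_eq_of_lt h2]
      exact Int.toNat_of_nonneg (hc0 L hL)
    rw [h1]
    exact hgL L hL

end LatA

open Classical in
theorem coset_exact_of_xcx (n p : ℕ) [NeZero n] (hp : p.Prime) (m : ℕ)
    (h : haveI := Fact.mk hp; ExactAt (Lat.XCx (ZMod p) n) m) : ExactAt (cosetCx (HsubU n p)) m := by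
  have := Fact.mk hp
  refine (exactAt_of_iso (K := cosetCx (HsubU n p)) (K' := Lat.XCx (ZMod p) n) LatA.vmap
    (fun s _ t _ v _ w _ hvw => LatA.vmap_inj hvw) ?_ ?_ m).2 h
  · intro s hs
    convert LatA.image_mem_XCx s hs
  · intro t ht
    obtain ⟨s, hs, hst⟩ := LatA.exists_coset t ht
    refine ⟨s, hs, ?_⟩
    convert hst

end Crest.Agent.R066
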