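import Mathlib
import Crest.Agent.R066.LGSmallSet
import Crest.Agent.R066.Basic
import Crest.Agent.R066.LGCosystolic
import Crest.Agent.R066.Chain

-- ▼ part R066/LGTrickle
section

/-!
# Row 66: trickling down, in an abstract Hilbert space
-/

set_option autoImplicit false
set_option linter.unusedSectionVars false

open Finset

namespace Crest.Agent.R066.LG

section Hilbert

variable {I : Type*} [Fintype I] [DecidableEq I]
variable {H : Type*} [NormedAddCommGroup H] [InnerProductSpace ℝ H] [FiniteDimensional ℝ H]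

local notation "⟪" x ", " y "⟫" => @inner ℝ _ _ x y

/-- Spectral gap between types `a` and `b` in the link of `κ`. -/
def Gap (V : Finset I → Submodule ℝ H) (κ : Finset I) (a b : I) (lam : ℝ) : Prop :=
  ∀ u ∈ V (insert a κ), ∀ v ∈ V (insert b κ), u ∈ (V κ)ᗮ → v ∈ (V κ)ᗮ →
    ⟪u, v⟫ ≤ lam * ‖u‖ * ‖v‖

theorem exists_max_pair (W₁ W₂ : Submodule ℝ H) :
    ∃ u ∈ W₁, ∃ v ∈ W₂, ‖u‖ ≤ 1 ∧ ‖v‖ ≤ 1 ∧ 0 ≤ ⟪u, v⟫ ∧
      ∀ x ∈ W₁, ∀ y ∈ W₂, ⟪x, y⟫ ≤ ⟪u, v⟫ * ‖x‖ * ‖y‖ := by
  have hfd1 : IsClosed (W₁ : Set H) := W₁.closed_of_finiteDimensional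
  have hfd2 : IsClosed (W₂ : Set H) := W₂.closed_of_finiteDimensional
  have c1 : IsCompact ((W₁ : Set H) ∩ Metric.closedBall 0 1) :=
    (isCompact_closedBall (0 : H) 1).inter_left hfd1
  have c2 : IsCompact ((W₂ : Set H) ∩ Metric.closedBall 0 1) :=
    (isCompact_closedBall (0 : H) 1).inter_left hfd2
  obtain ⟨⟨u, v⟩, huv, hmax⟩ := (c1.prod c2).exists_isMaxOn
    ⟨(0, 0), by simp⟩ (f := fun p : H × H => ⟪p.1, p.2⟫)
    (Continuous.continuousOn (by fun_prop))
  obtain ⟨⟨hu1, hu2⟩, hv1, hv2⟩ := huv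
  simp only [Metric.mem_closedBall, dist_zero_right] at hu2 hv2
  have hmax' : ∀ x ∈ W₁, ∀ y ∈ W₂, ‖x‖ ≤ 1 → ‖y‖ ≤ 1 → ⟪x, y⟫ ≤ ⟪u, v⟫ := by
    intro x hx y hy h1 h2
    have := hmax (a := (x, y)) ⟨⟨hx, by simpa using h1⟩, hy, by simpa using h2⟩
    simpa using this
  have h0 : 0 ≤ ⟪u, v⟫ := by
    have := hmax' 0 W₁.zero_mem 0 W₂.zero_mem (by simp) (by simp)
    simpa using this
  refine ⟨u, hu1, v, hv1, hu2, hv2, h0, ?_⟩
  intro x hx y hy
  by_cases hx0 : x = 0
  · simp [hx0]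
  by_cases hy0 : y = 0
  · simp [hy0]
  have hxn : 0 < ‖x‖ := norm_pos_iff.mpr hx0
  have hyn : 0 < ‖y‖ := norm_pos_iff.mpr hy0
  have := hmax' (‖x‖⁻¹ • x) (W₁.smul_mem _ hx) (‖y‖⁻¹ • y) (W₂.smul_mem _ hy)
    (by rw [norm_smul, norm_inv, norm_norm, inv_mul_cancel₀ hxn.ne'])
    (by rw [norm_smul, norm_inv, norm_norm, inv_mul_cancel₀ hyn.ne'])
  rw [real_inner_smul_left, real_inner_smul_right] at this
  have h2 : ⟪x, y⟫ = ‖x‖ * ‖y‖ * (‖x‖⁻¹ * (‖y‖⁻¹ * ⟪x, y⟫)) := by
    field_simp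
  rw [h2]
  calc ‖x‖ * ‖y‖ * (‖x‖⁻¹ * (‖y‖⁻¹ * ⟪x, y⟫)) ≤ ‖x‖ * ‖y‖ * ⟪u, v⟫ := by gcongr
    _ = ⟪u, v⟫ * ‖x‖ * ‖y‖ := by ring

theorem trickle_step (V : Finset I → Submodule ℝ H)
    (hmono : ∀ S T : Finset I, S ⊆ T → V S ≤ V T)
    (κ : Finset I)
    (hinf : ∀ a b : I, a ≠ b → a ∉ κ → b ∉ κ → V (insert a κ) ⊓ V (insert b κ) ≤ V κ)
    (lam : ℝ) (hlam0 : 0 ≤ lam) (hlam1 : lam < 1)
    (hgap : ∀ c, c ∉ κ → ∀ a b : I, a ≠ b → a ∉ insert c κ → b ∉ insert c κ →
      Gap V (insert c κ) a b lam)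
    (h3 : ∀ a b : I, ∃ c, c ∉ κ ∧ c ≠ a ∧ c ≠ b) :
    ∀ a b : I, a ≠ b → a ∉ κ → b ∉ κ → Gap V κ a b (lam / (1 - lam)) := by
  classical
  -- the maximal pair
  let W : I → Submodule ℝ H := fun a => V (insert a κ) ⊓ (V κ)ᗮ
  choose u hu v hv hu1 hv1 h0 hmax using fun p : I × I => exists_max_pair (W p.1) (W p.2)
  let PP : Finset (I × I) := univ.filter (fun p => p.1 ≠ p.2 ∧ p.1 ∉ κ ∧ p.2 ∉ κ)
  intro a₀ b₀ hab₀ ha₀ hb₀
  obtain ⟨⟨a, b⟩, hp, hpmax⟩ := Finset.exists_max_image PP (fun p => ⟪u p, v p⟫)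
    ⟨(a₀, b₀), by simp [PP, hab₀, ha₀, hb₀]⟩
  simp only [PP, mem_filter, mem_univ, true_and] at hp hpmax
  obtain ⟨hab, ha, hb⟩ := hp
  set s := ⟪u (a, b), v (a, b)⟫ with hs
  have hs0 : 0 ≤ s := h0 (a, b)
  have hall : ∀ a' b' : I, a' ≠ b' → a' ∉ κ → b' ∉ κ → ∀ x ∈ W a', ∀ y ∈ W b',
      ⟪x, y⟫ ≤ s * ‖x‖ * ‖y‖ := by
    intro a' b' h1 h2 h3' x hx y hy
    have h := hmax (a', b') x hx y hy
    have h' := hpmax (a', b') ⟨h1, h2, h3'⟩
    calc ⟪x, y⟫ ≤ ⟪u (a', b'), v (a', b')⟫ * ‖x‖ * ‖y‖ := h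
      _ ≤ s * ‖x‖ * ‖y‖ := by gcongr
  -- it suffices to bound `s`
  suffices hsl : s ≤ lam / (1 - lam) by
    intro x hx y hy hx' hy'
    calc ⟪x, y⟫ ≤ s * ‖x‖ * ‖y‖ := hall a₀ b₀ hab₀ ha₀ hb₀ x ⟨hx, hx'⟩ y ⟨hy, hy'⟩
      _ ≤ lam / (1 - lam) * ‖x‖ * ‖y‖ := by gcongr
  set U := u (a, b) with hU
  set Y := v (a, b) with hY
  have hUm : U ∈ W a := hu (a, b)
  have hYm : Y ∈ W b := hv (a, b)
  have hUn : ‖U‖ ≤ 1 := hu1 (a, b)
  have hYn : ‖Y‖ ≤ 1 := hv1 (a, b)
  -- `s < 1`
  have hs1 : s < 1 := by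
    by_contra hcon
    push Not at hcon
    have hle : s ≤ ‖U‖ * ‖Y‖ := real_inner_le_norm U Y
    have hUeq : ‖U‖ = 1 := by
      nlinarith [norm_nonneg U, norm_nonneg Y]
    have hYeq : ‖Y‖ = 1 := by
      nlinarith [norm_nonneg U, norm_nonneg Y]
    have hUY : U = Y := by
      have : ⟪U, Y⟫ = 1 := le_antisymm (by rw [← hs]; nlinarith) hcon
      exact (inner_eq_one_iff_of_norm_eq_one hUeq hYeq).mp this
    have hUin : U ∈ V κ := hinf a b hab ha hb ⟨hUm.1, hUY ▸ hYm.1⟩
    have : ⟪U, U⟫ = 0 := hUm.2 U hUin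
    rw [real_inner_self_eq_norm_sq, hUeq] at this
    norm_num at this
  -- third type
  obtain ⟨c, hcκ, hca, hcb⟩ := h3 a b
  set P := (V (insert c κ)).starProjection with hP
  have hκc : V κ ≤ V (insert c κ) := hmono _ _ (Finset.subset_insert _ _)
  -- facts about a vector in `W a'`
  have facts : ∀ a' : I, a' ≠ c → a' ∉ κ → ∀ x ∈ W a', ‖x‖ ≤ 1 →
      (‖P x‖ ≤ s ∧ x - P x ∈ V (insert a' (insert c κ)) ∧ x - P x ∈ (V (insert c κ))ᗮ ∧
        ‖x - P x‖ ^ 2 = ‖x‖ ^ 2 - ‖P x‖ ^ 2) := by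
    intro a' ha'c ha'κ x hx hxn
    have hPx : P x ∈ V (insert c κ) := Submodule.starProjection_apply_mem _ _
    have horth : x - P x ∈ (V (insert c κ))ᗮ := Submodule.sub_starProjection_mem_orthogonal x
    have hinner : ⟪x, P x⟫ = ‖P x‖ ^ 2 := by
      have h1 : ⟪P x, x - P x⟫ = 0 := horth (P x) hPx
      rw [inner_sub_right, sub_eq_zero] at h1
      rw [real_inner_comm, h1, real_inner_self_eq_norm_sq]
    have hPW : P x ∈ W c := by
      refine ⟨hPx, ?_⟩
      intro w hw
      have h1 : ⟪w, x - P x⟫ = 0 := horth w (hκc hw)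
      have h2 : ⟪w, x⟫ = 0 := hx.2 w hw
      rw [inner_sub_right, h2, zero_sub, neg_eq_zero] at h1
      exact h1
    refine ⟨?_, ?_, horth, ?_⟩
    · have h1 := hall a' c ha'c ha'κ hcκ x hx (P x) hPW
      rw [hinner] at h1
      by_cases hz : ‖P x‖ = 0
      · rw [hz]; exact hs0
      · have hpos : 0 < ‖P x‖ := lt_of_le_of_ne (norm_nonneg _) (Ne.symm hz)
        have h2 : ‖P x‖ ≤ s * ‖x‖ := by
          have : ‖P x‖ * ‖P x‖ ≤ (s * ‖x‖) * ‖P x‖ := by nlinarith
          exact le_of_mul_le_mul_right this hpos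
        nlinarith
    · refine Submodule.sub_mem _ ?_ ?_
      · exact hmono _ _ (Finset.insert_subset_insert _ (Finset.subset_insert _ _)) hx.1
      · exact hmono _ _ (Finset.subset_insert _ _) hPx
    · rw [norm_sub_sq_real, hinner]; ring
  obtain ⟨hU1, hU2, hU3, hU4⟩ := facts a hca.symm ha U hUm hUn
  obtain ⟨hY1, hY2, hY3, hY4⟩ := facts b hcb.symm hb Y hYm hYn
  have hsplit : s = ⟪P U, P Y⟫ + ⟪U - P U, Y - P Y⟫ := by
    have hPU : P U ∈ V (insert c κ) := Submodule.starProjection_apply_mem _ _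
    have hPY : P Y ∈ V (insert c κ) := Submodule.starProjection_apply_mem _ _
    have h1 : ⟪P U, Y - P Y⟫ = 0 := hY3 (P U) hPU
    have h2 : ⟪U - P U, P Y⟫ = 0 := by rw [real_inner_comm]; exact hU3 (P Y) hPY
    have : U = P U + (U - P U) := by abel
    have hY' : Y = P Y + (Y - P Y) := by abel
    rw [hs]
    conv_lhs => rw [this, hY']
    rw [inner_add_left, inner_add_right, inner_add_right, h1, h2]; ring
  have hg := hgap c hcκ a b hab
    (by rw [Finset.mem_insert]; push Not; exact ⟨hca.symm, ha⟩)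
    (by rw [Finset.mem_insert]; push Not; exact ⟨hcb.symm, hb⟩)
    (U - P U) hU2 (Y - P Y) hY2 hU3 hY3
  have hcs : ⟪P U, P Y⟫ ≤ ‖P U‖ * ‖P Y‖ := real_inner_le_norm _ _
  have hUs : ‖U‖ ^ 2 ≤ 1 := by nlinarith [norm_nonneg U]
  have hYs : ‖Y‖ ^ 2 ≤ 1 := by nlinarith [norm_nonneg Y]
  have hPU2 : ‖P U‖ ^ 2 ≤ s ^ 2 := by nlinarith [norm_nonneg (P U)]
  have hPY2 : ‖P Y‖ ^ 2 ≤ s ^ 2 := by nlinarith [norm_nonneg (P Y)]
  have hkey : s ≤ lam + (1 - lam) * s ^ 2 := by
    have h1 : ‖P U‖ * ‖P Y‖ ≤ (‖P U‖ ^ 2 + ‖P Y‖ ^ 2) / 2 := by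
      nlinarith [sq_nonneg (‖P U‖ - ‖P Y‖)]
    have h2 : ‖U - P U‖ * ‖Y - P Y‖ ≤ (‖U - P U‖ ^ 2 + ‖Y - P Y‖ ^ 2) / 2 := by
      nlinarith [sq_nonneg (‖U - P U‖ - ‖Y - P Y‖)]
    have h3' : lam * ‖U - P U‖ * ‖Y - P Y‖ ≤ lam * ((‖U - P U‖ ^ 2 + ‖Y - P Y‖ ^ 2) / 2) := by
      rw [mul_assoc]; exact mul_le_mul_of_nonneg_left h2 hlam0
    rw [hU4, hY4] at h3'
    have h4 : lam * ((‖U‖ ^ 2 - ‖P U‖ ^ 2 + (‖Y‖ ^ 2 - ‖P Y‖ ^ 2)) / 2) ≤
        lam * ((1 - ‖P U‖ ^ 2 + (1 - ‖P Y‖ ^ 2)) / 2) := by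
      gcongr
    have h5 : (1 - lam) * ((‖P U‖ ^ 2 + ‖P Y‖ ^ 2) / 2) ≤ (1 - lam) * s ^ 2 := by
      refine mul_le_mul_of_nonneg_left ?_ (by linarith)
      linarith
    nlinarith
  have hfac : 0 ≤ (1 - s) * (lam - (1 - lam) * s) := by nlinarith
  have : 0 ≤ lam - (1 - lam) * s := by
    by_contra hcon
    push Not at hcon
    nlinarith
  rw [le_div_iff₀ (by linarith)]
  linarith

theorem Gap.mono {V : Finset I → Submodule ℝ H} {κ : Finset I} {a b : I} {l₁ l₂ : ℝ}
    (h : Gap V κ a b l₁) (hl : l₁ ≤ l₂) : Gap V κ a b l₂ := by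
  intro u hu v hv hu' hv'
  refine (h u hu v hv hu' hv').trans ?_
  gcongr

theorem gap_all (V : Finset I → Submodule ℝ H)
    (hmono : ∀ S T : Finset I, S ⊆ T → V S ≤ V T)
    (hinf : ∀ (κ : Finset I) (a b : I), a ≠ b → a ∉ κ → b ∉ κ →
      V (insert a κ) ⊓ V (insert b κ) ≤ V κ)
    (lam0 : ℝ) (h0 : 0 ≤ lam0) (h1 : Fintype.card I * lam0 < 1)
    (hbase : ∀ (κ : Finset I) (a b : I), a ≠ b → a ∉ κ → b ∉ κ → κᶜ.card = 2 →
      Gap V κ a b lam0) :
    ∀ (κ : Finset I) (a b : I), a ≠ b → a ∉ κ → b ∉ κ →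
      Gap V κ a b (lam0 / (1 - Fintype.card I * lam0)) := by
  have key : ∀ j : ℕ, ∀ κ : Finset I, κᶜ.card = j + 2 → ∀ a b : I, a ≠ b → a ∉ κ → b ∉ κ →
      Gap V κ a b (lam0 / (1 - j * lam0)) := by
    intro j
    induction j with
    | zero =>
      intro κ hκ a b hab ha hb
      simpa using hbase κ a b hab ha hb hκ
    | succ j ih =>
      intro κ hκ a b hab ha hb
      have hcardI : κᶜ.card ≤ Fintype.card I := Finset.card_le_univ _
      have hj : ((j : ℝ) + 1) * lam0 < 1 := by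
        have : ((j : ℝ) + 1) ≤ Fintype.card I := by
          have : j + 1 ≤ Fintype.card I := by omega
          exact_mod_cast this
        nlinarith
      have hden : 0 < 1 - (j : ℝ) * lam0 := by nlinarith
      have hden' : 0 < 1 - ((j : ℝ) + 1) * lam0 := by linarith
      have hstep := trickle_step V hmono κ (hinf κ) (lam0 / (1 - j * lam0))
        (div_nonneg h0 hden.le) (by rw [div_lt_one hden]; linarith)
        (by
          intro c hc a' b' hab' ha' hb'
          refine ih (insert c κ) ?_ a' b' hab' ha' hb'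
          rw [Finset.compl_insert, Finset.card_erase_of_mem (by simpa using hc), hκ]
          rfl)
        (by
          intro a' b'
          have : ({a', b'} : Finset I).card < κᶜ.card := by
            rw [hκ]
            exact lt_of_le_of_lt (Finset.card_le_two) (by omega)
          obtain ⟨c, hc, hc'⟩ := Finset.exists_mem_notMem_of_card_lt_card this
          rw [Finset.mem_compl] at hc
          simp only [Finset.mem_insert, Finset.mem_singleton, not_or] at hc'
          exact ⟨c, hc, hc'.1, hc'.2⟩)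
        a b hab ha hb
      have heq : lam0 / (1 - j * lam0) / (1 - lam0 / (1 - j * lam0)) =
          lam0 / (1 - ((j + 1 : ℕ) : ℝ) * lam0) := by
        push_cast
        have e1 : 1 - lam0 / (1 - j * lam0) = (1 - ((j : ℝ) + 1) * lam0) / (1 - j * lam0) := by
          rw [eq_div_iff hden.ne', sub_mul, div_mul_cancel₀ _ hden.ne']; ring
        rw [e1, div_div_div_cancel_right₀ hden.ne']
      rw [heq] at hstep
      exact hstep
  intro κ a b hab ha hb
  have hc2 : 2 ≤ κᶜ.card := by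
    have : ({a, b} : Finset I) ⊆ κᶜ := by
      intro x hx
      simp only [Finset.mem_insert, Finset.mem_singleton] at hx
      rcases hx with rfl | rfl <;> simpa
    calc 2 = ({a, b} : Finset I).card := (Finset.card_pair hab).symm
      _ ≤ _ := Finset.card_le_card this
  obtain ⟨j, hj⟩ := Nat.exists_eq_add_of_le hc2
  have hcardI : κᶜ.card ≤ Fintype.card I := Finset.card_le_univ _
  refine (key j κ (by omega) a b hab ha hb).mono ?_
  have hjI : (j : ℝ) ≤ Fintype.card I := by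
    have : j ≤ Fintype.card I := by omega
    exact_mod_cast this
  have hden : 0 < 1 - (Fintype.card I : ℝ) * lam0 := by linarith
  gcongr

/-- Swap walk bound: vertex versus face. -/
theorem swap_bound (V : Finset I → Submodule ℝ H)
    (hmono : ∀ S T : Finset I, S ⊆ T → V S ≤ V T) (lam : ℝ) (hlam : 0 ≤ lam)
    (hgap : ∀ (κ : Finset I) (a b : I), a ≠ b → a ∉ κ → b ∉ κ → Gap V κ a b lam) (w : I) :
    ∀ S κ : Finset I, w ∉ κ → Disjoint (insert w κ) S → ∀ u ∈ V (insert w κ), u ∈ (V κ)ᗮ →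
      ‖(V (κ ∪ S)).starProjection u‖ ≤ S.card * lam * ‖u‖ := by
  intro S
  induction S using Finset.induction_on with
  | empty =>
    intro κ hw _ u hu hu'
    rw [Finset.union_empty]
    have : (V κ).starProjection u = 0 := by
      rwa [Submodule.starProjection_apply_eq_zero_iff]
    rw [this]; simp
  | insert s S' hs ih =>
    intro κ hw hd u hu hu'
    rw [Finset.disjoint_insert_right] at hd
    obtain ⟨hs', hd'⟩ := hd
    rw [Finset.mem_insert, not_or] at hs'
    set κ' := insert s κ with hκ'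
    set u0 := (V κ').starProjection u with hu0
    have hu0m : u0 ∈ V κ' := Submodule.starProjection_apply_mem _ _
    have horth : u - u0 ∈ (V κ')ᗮ := Submodule.sub_starProjection_mem_orthogonal u
    have hu0orth : u0 ∈ (V κ)ᗮ := by
      intro x hx
      have h1 : ⟪x, u - u0⟫ = 0 := horth x (hmono _ _ (Finset.subset_insert _ _) hx)
      have h2 : ⟪x, u⟫ = 0 := hu' x hx
      rw [inner_sub_right, h2, zero_sub, neg_eq_zero] at h1
      exact h1
    have hinner : ⟪u, u0⟫ = ‖u0‖ ^ 2 := by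
      have h1 : ⟪u0, u - u0⟫ = 0 := horth u0 hu0m
      rw [inner_sub_right, sub_eq_zero] at h1
      rw [real_inner_comm, h1, real_inner_self_eq_norm_sq]
    have hb0 : ‖u0‖ ≤ lam * ‖u‖ := by
      have h1 := hgap κ w s (Ne.symm hs'.1) hw hs'.2 u hu u0 hu0m hu' hu0orth
      rw [hinner] at h1
      by_cases hz : ‖u0‖ = 0
      · rw [hz]; positivity
      · have hpos : 0 < ‖u0‖ := lt_of_le_of_ne (norm_nonneg _) (Ne.symm hz)
        have : ‖u0‖ * ‖u0‖ ≤ (lam * ‖u‖) * ‖u0‖ := by nlinarith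
        exact le_of_mul_le_mul_right this hpos
    have hsub : ‖u - u0‖ ≤ ‖u‖ := by
      have : ‖u - u0‖ ^ 2 = ‖u‖ ^ 2 - ‖u0‖ ^ 2 := by rw [norm_sub_sq_real, hinner]; ring
      nlinarith [norm_nonneg (u - u0), norm_nonneg u, sq_nonneg ‖u0‖]
    have hih := ih κ' (by
        rw [hκ', Finset.mem_insert, not_or]; exact ⟨Ne.symm hs'.1, hw⟩) (by
        rw [hκ', Finset.insert_comm, Finset.disjoint_insert_left]
        exact ⟨hs, hd'⟩) (u - u0) (by
        refine Submodule.sub_mem _ (hmono _ _ ?_ hu) (hmono _ _ (Finset.subset_insert _ _) hu0m)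
        exact Finset.insert_subset_insert _ (Finset.subset_insert _ _)) horth
    have heq : κ ∪ insert s S' = κ' ∪ S' := by
      rw [hκ', Finset.insert_union, Finset.union_insert]
    rw [heq]
    have hP0 : (V (κ' ∪ S')).starProjection u0 = u0 := by
      rw [Submodule.starProjection_eq_self_iff]
      exact hmono _ _ Finset.subset_union_left hu0m
    have hdecomp : (V (κ' ∪ S')).starProjection u =
        u0 + (V (κ' ∪ S')).starProjection (u - u0) := by
      rw [map_sub, hP0]; abel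
    rw [hdecomp, Finset.card_insert_of_notMem hs]
    push_cast
    calc ‖u0 + (V (κ' ∪ S')).starProjection (u - u0)‖
        ≤ ‖u0‖ + ‖(V (κ' ∪ S')).starProjection (u - u0)‖ := norm_add_le _ _
      _ ≤ lam * ‖u‖ + S'.card * lam * ‖u - u0‖ := add_le_add hb0 hih
      _ ≤ lam * ‖u‖ + S'.card * lam * ‖u‖ := by gcongr
      _ = _ := by ring

end Hilbert

end Crest.Agent.R066.LG
end

-- ▼ part R066/LGMix
section

/-!
# Row 66: from rank-two spectral gaps to the mixing property of a coset system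
-/

set_option autoImplicit false
set_option linter.unusedSectionVars false

open Finset

namespace Crest.Agent.R066.LG

variable {G : Type*} [Group G] [Fintype G] {I : Type*} [Fintype I] [DecidableEq I]

/-- Spectral gap between the types `a`, `b` in the link of `κ`, for functions on `G`. -/
def PairGap (X : CosetSystem G I) (κ : Finset I) (a b : I) (lam : ℝ) : Prop :=
  ∀ u v : G → ℝ, (∀ g, ∀ k ∈ X.K (insert a κ), u (g * k) = u g) →
    (∀ g, ∀ k ∈ X.K (insert b κ), v (g * k) = v g) →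
    (∀ g, avg (X.K κ) u g = 0) → (∀ g, avg (X.K κ) v g = 0) →
    ∑ g, u g * v g ≤ lam * Real.sqrt (∑ g, u g ^ 2) * Real.sqrt (∑ g, v g ^ 2)

open Classical in
/-- The same on a finite group `H` with two subgroups. -/
def LocalGap (H : Subgroup G) (A B : Subgroup G) (lam : ℝ) : Prop :=
  ∀ u v : H → ℝ, (∀ g k : H, (k : G) ∈ A → u (g * k) = u g) →
    (∀ g k : H, (k : G) ∈ B → v (g * k) = v g) → ∑ g, u g = 0 → ∑ g, v g = 0 →
    ∑ g, u g * v g ≤ lam * Real.sqrt (∑ g, u g ^ 2) * Real.sqrt (∑ g, v g ^ 2)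

open Classical in
theorem sum_sum_mul (H : Subgroup G) (w : G → ℝ) :
    ∑ g : G, ∑ k : H, w (g * (k : G)) = Fintype.card H * ∑ g, w g := by
  rw [Finset.sum_comm]
  have : ∀ k : H, ∑ g : G, w (g * (k : G)) = ∑ g, w g := fun k =>
    Fintype.sum_equiv (Equiv.mulRight (k : G)) _ _ (fun g => by simp)
  rw [Finset.sum_congr rfl (fun k _ => this k)]
  simp

open Classical in
theorem pairGap_of_local (X : CosetSystem G I) (κ : Finset I) (a b : I) (lam : ℝ) (hlam : 0 ≤ lam)
    (h : LocalGap (X.K κ) (X.K (insert a κ)) (X.K (insert b κ)) lam) : PairGap X κ a b lam := by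
  intro u v hu hv hu0 hv0
  have hpos : (0 : ℝ) < Fintype.card (X.K κ) := by exact_mod_cast Fintype.card_pos
  have hz : ∀ w : G → ℝ, (∀ g, avg (X.K κ) w g = 0) → ∀ g, ∑ k : X.K κ, w (g * (k : G)) = 0 := by
    intro w hw g
    have := hw g
    unfold avg at this
    rcases div_eq_zero_iff.mp this with h1 | h1
    · exact h1
    · exact absurd h1 hpos.ne'
  have hloc : ∀ g : G, ∑ k : X.K κ, u (g * (k : G)) * v (g * (k : G)) ≤
      lam * (Real.sqrt (∑ k : X.K κ, u (g * (k : G)) ^ 2) *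
        Real.sqrt (∑ k : X.K κ, v (g * (k : G)) ^ 2)) := by
    intro g
    have := h (fun k => u (g * (k : G))) (fun k => v (g * (k : G)))
      (fun x k hk => by simp only [Subgroup.coe_mul, ← mul_assoc]; exact hu _ _ hk)
      (fun x k hk => by simp only [Subgroup.coe_mul, ← mul_assoc]; exact hv _ _ hk)
      (hz u hu0 g) (hz v hv0 g)
    rw [mul_assoc] at this
    exact this
  have h1 : (Fintype.card (X.K κ) : ℝ) * ∑ g, u g * v g ≤
      lam * ∑ g : G, (Real.sqrt (∑ k : X.K κ, u (g * (k : G)) ^ 2) *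
        Real.sqrt (∑ k : X.K κ, v (g * (k : G)) ^ 2)) := by
    rw [← sum_sum_mul (X.K κ) (fun g => u g * v g), Finset.mul_sum]
    exact Finset.sum_le_sum fun g _ => hloc g
  have h2 : ∑ g : G, (Real.sqrt (∑ k : X.K κ, u (g * (k : G)) ^ 2) *
        Real.sqrt (∑ k : X.K κ, v (g * (k : G)) ^ 2)) ≤
      Real.sqrt (∑ g : G, ∑ k : X.K κ, u (g * (k : G)) ^ 2) *
        Real.sqrt (∑ g : G, ∑ k : X.K κ, v (g * (k : G)) ^ 2) := by
    refine (Real.sum_mul_le_sqrt_mul_sqrt _ _ _).trans (le_of_eq ?_)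
    congr 2
    · refine Finset.sum_congr rfl fun g _ => Real.sq_sqrt (by positivity)
    · refine Finset.sum_congr rfl fun g _ => Real.sq_sqrt (by positivity)
  rw [sum_sum_mul (X.K κ) (fun g => u g ^ 2), sum_sum_mul (X.K κ) (fun g => v g ^ 2),
    Real.sqrt_mul hpos.le, Real.sqrt_mul hpos.le] at h2
  have h3 : Real.sqrt (Fintype.card (X.K κ) : ℝ) * Real.sqrt (∑ g, u g ^ 2) *
      (Real.sqrt (Fintype.card (X.K κ) : ℝ) * Real.sqrt (∑ g, v g ^ 2)) =
      Fintype.card (X.K κ) * (Real.sqrt (∑ g, u g ^ 2) * Real.sqrt (∑ g, v g ^ 2)) := by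
    have := Real.mul_self_sqrt hpos.le
    linear_combination (Real.sqrt (∑ g, u g ^ 2) * Real.sqrt (∑ g, v g ^ 2)) * this
  rw [h3] at h2
  have h4 : (Fintype.card (X.K κ) : ℝ) * ∑ g, u g * v g ≤
      Fintype.card (X.K κ) * (lam * Real.sqrt (∑ g, u g ^ 2) * Real.sqrt (∑ g, v g ^ 2)) := by
    calc (Fintype.card (X.K κ) : ℝ) * ∑ g, u g * v g ≤ _ := h1
      _ ≤ lam * (Fintype.card (X.K κ) *
          (Real.sqrt (∑ g, u g ^ 2) * Real.sqrt (∑ g, v g ^ 2))) := by gcongr
      _ = _ := by ring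
  exact le_of_mul_le_mul_left h4 hpos

/-- Right `K_T`-invariant functions. -/
def invSub (X : CosetSystem G I) (T : Finset I) : Submodule ℝ (EuclideanSpace ℝ G) where
  carrier := {u | ∀ g, ∀ k ∈ X.K T, u (g * k) = u g}
  add_mem' := by
    intro u v hu hv g k hk
    simp only [PiLp.add_apply]
    rw [hu g k hk, hv g k hk]
  zero_mem' := by intro g k _; simp
  smul_mem' := by
    intro c u hu g k hk
    simp only [PiLp.smul_apply]
    rw [hu g k hk]


theorem inner_eq_sum (u v : EuclideanSpace ℝ G) : @inner ℝ _ _ u v = ∑ g, u g * v g := by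
  rw [PiLp.inner_apply]
  refine Finset.sum_congr rfl fun g _ => ?_
  simp [mul_comm]

theorem norm_eq_sqrt (u : EuclideanSpace ℝ G) : ‖u‖ = Real.sqrt (∑ g, u g ^ 2) := by
  rw [EuclideanSpace.norm_eq]
  congr 1
  refine Finset.sum_congr rfl fun g _ => ?_
  rw [Real.norm_eq_abs, sq_abs]

open Classical in
/-- averaging as an element of `EuclideanSpace`. -/
noncomputable def avgE (X : CosetSystem G I) (T : Finset I) (u : EuclideanSpace ℝ G) :
    EuclideanSpace ℝ G := WithLp.toLp 2 (fun g => avg (X.K T) (fun x => u x) g)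

open Classical in
theorem avgE_mem (X : CosetSystem G I) (T : Finset I) (u : EuclideanSpace ℝ G) :
    avgE X T u ∈ invSub X T := by
  intro g k hk
  simp only [avgE, avg]
  congr 1
  refine Fintype.sum_equiv (Equiv.mulLeft (⟨k, hk⟩ : X.K T)) _ _ (fun x => ?_)
  simp [mul_assoc]

open Classical in
theorem inner_avgE (X : CosetSystem G I) (T : Finset I) (u w : EuclideanSpace ℝ G)
    (hw : w ∈ invSub X T) : @inner ℝ _ _ w (avgE X T u) = @inner ℝ _ _ w u := by
  rw [inner_eq_sum, inner_eq_sum]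
  have hpos : (0 : ℝ) < Fintype.card (X.K T) := by exact_mod_cast Fintype.card_pos
  have h1 : ∀ g, w g * (avgE X T u) g =
      (∑ k : X.K T, (w (g * (k : G)) * u (g * (k : G)))) / Fintype.card (X.K T) := by
    intro g
    simp only [avgE, avg]
    rw [mul_div_assoc', Finset.mul_sum]
    congr 1
    refine Finset.sum_congr rfl fun k _ => ?_
    rw [hw g k k.2]
  rw [Finset.sum_congr rfl (fun g _ => h1 g), ← Finset.sum_div,
    sum_sum_mul (X.K T) (fun g => w g * u g)]
  field_simp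

theorem avgE_eq_zero_of_orth (X : CosetSystem G I) (T : Finset I) (u : EuclideanSpace ℝ G)
    (hu : u ∈ (invSub X T)ᗮ) : avgE X T u = 0 := by
  have h1 : @inner ℝ _ _ (avgE X T u) (avgE X T u) = (0 : ℝ) := by
    rw [inner_avgE X T u _ (avgE_mem X T u)]
    exact hu _ (avgE_mem X T u)
  exact inner_self_eq_zero.mp h1

theorem starProjection_eq_avgE (X : CosetSystem G I) (T : Finset I) (u : EuclideanSpace ℝ G) :
    (invSub X T).starProjection u = avgE X T u := by
  refine Submodule.eq_starProjection_of_mem_orthogonal (avgE_mem X T u) ?_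
  intro w hw
  rw [inner_sub_right, inner_avgE X T u w hw, sub_self]

theorem gap_of_pairGap (X : CosetSystem G I) (κ : Finset I) (a b : I) (lam : ℝ)
    (h : PairGap X κ a b lam) : Gap (invSub X) κ a b lam := by
  intro u hu v hv hu' hv'
  rw [inner_eq_sum, norm_eq_sqrt, norm_eq_sqrt]
  refine h (fun g => u g) (fun g => v g) hu hv ?_ ?_
  · intro g
    have := congrArg (fun w : EuclideanSpace ℝ G => w g) (avgE_eq_zero_of_orth X κ u hu')
    simpa [avgE] using this
  · intro g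
    have := congrArg (fun w : EuclideanSpace ℝ G => w g) (avgE_eq_zero_of_orth X κ v hv')
    simpa [avgE] using this

theorem invSub_mono (X : CosetSystem G I) (S T : Finset I) (h : S ⊆ T) :
    invSub X S ≤ invSub X T := by
  intro u hu g k hk
  exact hu g k (X.K_mono h hk)


/-- **Mixing from gaps in all links.** -/
theorem mix_of_gaps (X : CosetSystem G I) (lam : ℝ) (hlam0 : 0 ≤ lam)
    (hall : ∀ (κ : Finset I) (a b : I), a ≠ b → a ∉ κ → b ∉ κ → Gap (invSub X) κ a b lam) :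
    Mix X (Fintype.card I * lam) := by
  classical
  intro κ w hw S hS u v hu hv
  set U : EuclideanSpace ℝ G := WithLp.toLp 2 u with hU
  set Y : EuclideanSpace ℝ G := WithLp.toLp 2 v with hY
  have hUm : U ∈ invSub X (insert w κ) := hu
  have hYm : Y ∈ invSub X (κ ∪ S) := hv
  set P := (invSub X κ).starProjection with hP
  have hPU : P U ∈ invSub X κ := Submodule.starProjection_apply_mem _ _
  have hPY : P Y ∈ invSub X κ := Submodule.starProjection_apply_mem _ _
  have hUo : U - P U ∈ (invSub X κ)ᗮ := Submodule.sub_starProjection_mem_orthogonal U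
  have hYo : Y - P Y ∈ (invSub X κ)ᗮ := Submodule.sub_starProjection_mem_orthogonal Y
  have hUm' : U - P U ∈ invSub X (insert w κ) :=
    Submodule.sub_mem _ hUm (invSub_mono X _ _ (Finset.subset_insert _ _) hPU)
  have hYm' : Y - P Y ∈ invSub X (κ ∪ S) :=
    Submodule.sub_mem _ hYm (invSub_mono X _ _ Finset.subset_union_left hPY)
  have hsw := swap_bound (invSub X) (invSub_mono X) lam hlam0 hall w S κ hw hS (U - P U) hUm' hUo
  have hsplit : @inner ℝ _ _ U Y = @inner ℝ _ _ (P U) (P Y) +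
      @inner ℝ _ _ (U - P U) (Y - P Y) := by
    have e1 : @inner ℝ _ _ (P U) (Y - P Y) = (0 : ℝ) := hYo (P U) hPU
    have e2 : @inner ℝ _ _ (U - P U) (P Y) = (0 : ℝ) := by
      rw [real_inner_comm]; exact hUo (P Y) hPY
    have e3 : U = P U + (U - P U) := by abel
    have e4 : Y = P Y + (Y - P Y) := by abel
    conv_lhs => rw [e3, e4]
    rw [inner_add_left, inner_add_right, inner_add_right, e1, e2]; ring
  have hin : @inner ℝ _ _ (U - P U) (Y - P Y) ≤
      (Fintype.card I * lam) * ‖U‖ * ‖Y‖ := by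
    have e1 : @inner ℝ _ _ (U - P U) (Y - P Y) =
        @inner ℝ _ _ ((invSub X (κ ∪ S)).starProjection (U - P U)) (Y - P Y) := by
      have := (Submodule.sub_starProjection_mem_orthogonal
        (K := invSub X (κ ∪ S)) (U - P U)) (Y - P Y) hYm'
      rw [inner_sub_right, sub_eq_zero] at this
      rw [real_inner_comm, this, real_inner_comm]
    rw [e1]
    have n1 : ‖U - P U‖ ≤ ‖U‖ := by
      have e0 : @inner ℝ _ _ U (P U) = ‖P U‖ ^ 2 := by
        have h1 : @inner ℝ _ _ (P U) (U - P U) = (0 : ℝ) := hUo (P U) hPU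
        rw [inner_sub_right, sub_eq_zero] at h1
        rw [real_inner_comm, h1, real_inner_self_eq_norm_sq]
      have : ‖U - P U‖ ^ 2 = ‖U‖ ^ 2 - ‖P U‖ ^ 2 := by rw [norm_sub_sq_real, e0]; ring
      nlinarith [norm_nonneg (U - P U), norm_nonneg U, sq_nonneg ‖P U‖]
    have n2 : ‖Y - P Y‖ ≤ ‖Y‖ := by
      have e0 : @inner ℝ _ _ Y (P Y) = ‖P Y‖ ^ 2 := by
        have h1 : @inner ℝ _ _ (P Y) (Y - P Y) = (0 : ℝ) := hYo (P Y) hPY
        rw [inner_sub_right, sub_eq_zero] at h1
        rw [real_inner_comm, h1, real_inner_self_eq_norm_sq]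
      have : ‖Y - P Y‖ ^ 2 = ‖Y‖ ^ 2 - ‖P Y‖ ^ 2 := by rw [norm_sub_sq_real, e0]; ring
      nlinarith [norm_nonneg (Y - P Y), norm_nonneg Y, sq_nonneg ‖P Y‖]
    have hSc : (S.card : ℝ) ≤ Fintype.card I := by exact_mod_cast Finset.card_le_univ S
    calc @inner ℝ _ _ ((invSub X (κ ∪ S)).starProjection (U - P U)) (Y - P Y)
        ≤ ‖(invSub X (κ ∪ S)).starProjection (U - P U)‖ * ‖Y - P Y‖ := real_inner_le_norm _ _
      _ ≤ (S.card * lam * ‖U - P U‖) * ‖Y - P Y‖ := by gcongr
      _ ≤ (Fintype.card I * lam * ‖U‖) * ‖Y‖ := by gcongr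
      _ = _ := by ring
  rw [inner_eq_sum] at hsplit
  have hfin : ∑ g, u g * v g ≤ @inner ℝ _ _ (P U) (P Y) + (Fintype.card I * lam) * ‖U‖ * ‖Y‖ := by
    have : ∑ g, u g * v g = ∑ g, U g * Y g := rfl
    rw [this, hsplit]; linarith
  have e5 : @inner ℝ _ _ (P U) (P Y) = ∑ g, avg (X.K κ) u g * avg (X.K κ) v g := by
    rw [hP, starProjection_eq_avgE, starProjection_eq_avgE, inner_eq_sum]
    rfl
  rw [e5, norm_eq_sqrt, norm_eq_sqrt] at hfin
  exact hfin

end Crest.Agent.R066.LG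
end

-- ▼ part R066/LocalGlobal
section

/-! Local-to-global (helper741). -/

set_option autoImplicit false
open scoped BigOperators

namespace Crest.Agent.R066

namespace LG

section bridge

variable {I : Type*} [DecidableEq I] {G : Type*} [Group G]

/-- The coset system of a family of subgroups. -/
def sys (P : I → Subgroup G) : CosetSystem G I where
  K := PJ P
  K_empty := by simp [PJ]
  K_union S T := by
    unfold PJ
    rw [Finset.iInf_union]

theorem isCoch_iff (P : I → Subgroup G) (T : Finset I) (m : ℕ) (f : Finset I → G → ZMod 2) :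
    IsCoch P T m f ↔ IsCochain (sys P) T m f := by
  unfold IsCoch IsCochain
  constructor
  · intro h S hS hd g hg k hk
    refine h S hS hd.symm g hg k ?_
    rw [Finset.union_comm]
    exact hk
  · intro h S hS hd g hg k hk
    refine h S hS hd.symm g hg k ?_
    rw [Finset.union_comm]
    exact hk

theorem wt_eq [Fintype I] [Fintype G] (P : I → Subgroup G) (T : Finset I) (m : ℕ)
    (f : Finset I → G → ZMod 2) : wt P T m f = cnt (sys P) T m f := by
  classical
  unfold wt cnt faces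
  refine Finset.sum_congr (Finset.ext fun J => by simp [disjoint_comm]) fun S _ => ?_
  unfold supp
  congr 1

variable [Fintype I] [Fintype G]

theorem linkExp_of (P : I → Subgroup G) (T : Finset I) (m : ℕ) (β β' : ℝ) (hβ : β' ≤ β)
    (h : R066.LinkExp P T m β) : LG.LinkExp (sys P) T m β' := by
  intro f hf
  obtain ⟨b, hb, hle⟩ := h f ((isCoch_iff P T m f).mpr hf)
  refine ⟨b, (isCoch_iff P T (m - 1) b).mp hb, ?_⟩
  rw [← wt_eq, ← wt_eq]
  refine (mul_le_mul_of_nonneg_right hβ (by positivity)).trans hle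

/-- Link expansion on the empty face. -/
theorem linkExp_zero (X : CosetSystem G I) (T : Finset I) (hT : T.card < Fintype.card I)
    (β : ℝ) (hβ1 : β ≤ 1) : LG.LinkExp X T 0 β := by
  classical
  intro f _
  refine ⟨0, ?_, ?_⟩
  · intro S _ _ g _ k _; rfl
  · rw [cob_zero, add_zero]
    have h0 : cnt X T 0 f = supp (X.K T) (f ∅) := by
      unfold cnt; rw [faces_zero, Finset.sum_singleton]
    obtain ⟨s, hs⟩ : ∃ s, s ∉ T := by
      by_contra hcon
      push Not at hcon
      have : T = Finset.univ := Finset.eq_univ_iff_forall.mpr hcon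
      rw [this, Finset.card_univ] at hT
      exact lt_irrefl _ hT
    have h1 : supp (X.K T) (f ∅) ≤ cnt X T (0 + 1) (cob f) := by
      have hc : supp (X.K T) (f ∅) = supp (X.K T) (cob f {s}) := by
        congr 1
        funext g
        simp [cob]
      rw [hc]
      unfold cnt
      refine Finset.single_le_sum (f := fun S => supp (X.K T) (cob f S))
        (fun _ _ => Nat.zero_le _) ?_
      simp [faces, hs]
    rw [h0]
    have h1' : (supp (X.K T) (f ∅) : ℝ) ≤ (cnt X T (0 + 1) (cob f) : ℝ) := by exact_mod_cast h1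
    have h2 : (0 : ℝ) ≤ (supp (X.K T) (f ∅) : ℝ) := by positivity
    nlinarith

open Classical in
theorem sum_filter_mem (H : Subgroup G) (F : G → ℝ) :
    ∑ g ∈ Finset.univ.filter (fun g : G => g ∈ H), F g = ∑ k : H, F (k : G) :=
  Finset.sum_subtype _ (by simp) F

open Classical in
theorem pairGap_of_mix (P : I → Subgroup G) (κ : Finset I) (a b : I) (lam : ℝ) (hlam : 0 ≤ lam)
    (h : R066.Mix P κ a b lam) : PairGap (sys P) κ a b lam := by
  refine pairGap_of_local (sys P) κ a b lam hlam ?_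
  intro u v hu hv hu0 _
  let φ : G → ℝ := fun g => if hg : g ∈ (sys P).K κ then u ⟨g, hg⟩ else 0
  let ψ : G → ℝ := fun g => if hg : g ∈ (sys P).K κ then v ⟨g, hg⟩ else 0
  have eφ : ∀ k : (sys P).K κ, φ (k : G) = u k := fun k => by
    simp only [φ]; rw [dif_pos k.2]
  have eψ : ∀ k : (sys P).K κ, ψ (k : G) = v k := fun k => by
    simp only [ψ]; rw [dif_pos k.2]
  have hle : ∀ c : I, (sys P).K (insert c κ) ≤ (sys P).K κ := fun c =>
    (sys P).K_mono (Finset.subset_insert _ _)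
  have key := h φ ψ (by
      intro g hg k hk
      have hk' : k ∈ (sys P).K κ := hle a hk
      have hgk : g * k ∈ (sys P).K κ := mul_mem hg hk'
      have := hu ⟨g, hg⟩ ⟨k, hk'⟩ hk
      rw [← eφ, ← eφ] at this
      exact this) (by
      intro g hg k hk
      have hk' : k ∈ (sys P).K κ := hle b hk
      have := hv ⟨g, hg⟩ ⟨k, hk'⟩ hk
      rw [← eψ, ← eψ] at this
      exact this) (by
      have := sum_filter_mem ((sys P).K κ) φ
      rw [Finset.sum_congr rfl (fun k _ => eφ k), hu0] at this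
      exact this)
  have e1 := sum_filter_mem ((sys P).K κ) (fun g => φ g * ψ g)
  have e2 := sum_filter_mem ((sys P).K κ) (fun g => φ g ^ 2)
  have e3 := sum_filter_mem ((sys P).K κ) (fun g => ψ g ^ 2)
  simp only [eφ, eψ] at e1 e2 e3
  have key' : (∑ k : (sys P).K κ, u k * v k) ^ 2 ≤
      lam ^ 2 * (∑ k : (sys P).K κ, u k ^ 2) * (∑ k : (sys P).K κ, v k ^ 2) := by
    rw [← e1, ← e2, ← e3]; exact key
  have hA : (0 : ℝ) ≤ ∑ k : (sys P).K κ, u k ^ 2 := Finset.sum_nonneg fun _ _ => sq_nonneg _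
  have hB : (0 : ℝ) ≤ ∑ k : (sys P).K κ, v k ^ 2 := Finset.sum_nonneg fun _ _ => sq_nonneg _
  refine le_trans (le_abs_self _) (abs_le_of_sq_le_sq ?_ (by positivity)) |>.trans (le_refl _)
  rw [mul_pow, mul_pow, Real.sq_sqrt hA, Real.sq_sqrt hB]
  exact key'

open Classical in
theorem mix_of_gap (P : I → Subgroup G) (κ : Finset I) (a b : I) (lam : ℝ) (hlam : 0 ≤ lam)
    (h : Gap (invSub (sys P)) κ a b lam) : R066.Mix P κ a b lam := by
  intro φ ψ hφ hψ hφ0
  set X := sys P with hX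
  let u : EuclideanSpace ℝ G := WithLp.toLp 2 (fun g => if g ∈ X.K κ then φ g else 0)
  let v : EuclideanSpace ℝ G := WithLp.toLp 2 (fun g => if g ∈ X.K κ then ψ g else 0)
  have hle : ∀ c : I, X.K (insert c κ) ≤ X.K κ := fun c => X.K_mono (Finset.subset_insert _ _)
  have hum : u ∈ invSub X (insert a κ) := by
    intro g k hk
    have hk' := hle a hk
    show (if g * k ∈ X.K κ then φ (g * k) else 0) = (if g ∈ X.K κ then φ g else 0)
    by_cases hg : g ∈ X.K κ
    · rw [if_pos hg, if_pos (mul_mem hg hk')]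
      exact hφ g hg k hk
    · rw [if_neg hg, if_neg (fun hh => hg ((Subgroup.mul_mem_cancel_right _ hk').mp hh))]
  have hvm : v ∈ invSub X (insert b κ) := by
    intro g k hk
    have hk' := hle b hk
    show (if g * k ∈ X.K κ then ψ (g * k) else 0) = (if g ∈ X.K κ then ψ g else 0)
    by_cases hg : g ∈ X.K κ
    · rw [if_pos hg, if_pos (mul_mem hg hk')]
      exact hψ g hg k hk
    · rw [if_neg hg, if_neg (fun hh => hg ((Subgroup.mul_mem_cancel_right _ hk').mp hh))]
  have huo : u ∈ (invSub X κ)ᗮ := by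
    intro w hw
    rw [inner_eq_sum]
    have h1 : ∀ g, w g * u g = if g ∈ X.K κ then w 1 * φ g else 0 := by
      intro g
      show w g * (if g ∈ X.K κ then φ g else 0) = _
      by_cases hg : g ∈ X.K κ
      · rw [if_pos hg, if_pos hg]
        have := hw 1 g hg
        rw [one_mul] at this
        rw [this]
      · rw [if_neg hg, if_neg hg, mul_zero]
    rw [Finset.sum_congr rfl (fun g _ => h1 g), ← Finset.sum_filter, ← Finset.mul_sum]
    have : (∑ g ∈ Finset.univ.filter (fun g : G => g ∈ X.K κ), φ g) = 0 := hφ0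
    rw [this, mul_zero]
  have s1 : @inner ℝ _ _ u v = ∑ g ∈ Finset.univ.filter (fun g : G => g ∈ X.K κ), φ g * ψ g := by
    rw [inner_eq_sum, Finset.sum_filter]
    refine Finset.sum_congr rfl fun g _ => ?_
    show (if g ∈ X.K κ then φ g else 0) * (if g ∈ X.K κ then ψ g else 0) = _
    by_cases hg : g ∈ X.K κ
    · simp [hg]
    · simp [hg]
  have s2 : ‖u‖ ^ 2 = ∑ g ∈ Finset.univ.filter (fun g : G => g ∈ X.K κ), φ g ^ 2 := by
    rw [norm_eq_sqrt, Real.sq_sqrt (Finset.sum_nonneg fun _ _ => sq_nonneg _), Finset.sum_filter]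
    refine Finset.sum_congr rfl fun g _ => ?_
    show (if g ∈ X.K κ then φ g else 0) ^ 2 = _
    by_cases hg : g ∈ X.K κ
    · simp [hg]
    · simp [hg]
  have s3 : ‖v‖ ^ 2 = ∑ g ∈ Finset.univ.filter (fun g : G => g ∈ X.K κ), ψ g ^ 2 := by
    rw [norm_eq_sqrt, Real.sq_sqrt (Finset.sum_nonneg fun _ _ => sq_nonneg _), Finset.sum_filter]
    refine Finset.sum_congr rfl fun g _ => ?_
    show (if g ∈ X.K κ then ψ g else 0) ^ 2 = _
    by_cases hg : g ∈ X.K κ
    · simp [hg]
    · simp [hg]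
  -- project `v`
  set Q := (invSub X κ).starProjection with hQ
  have hQv : Q v ∈ invSub X κ := Submodule.starProjection_apply_mem _ _
  have hvo : v - Q v ∈ (invSub X κ)ᗮ := Submodule.sub_starProjection_mem_orthogonal v
  have hvm' : v - Q v ∈ invSub X (insert b κ) :=
    Submodule.sub_mem _ hvm (invSub_mono X _ _ (Finset.subset_insert _ _) hQv)
  have hvn : ‖v - Q v‖ ≤ ‖v‖ := by
    have e0 : @inner ℝ _ _ v (Q v) = ‖Q v‖ ^ 2 := by
      have h1 : @inner ℝ _ _ (Q v) (v - Q v) = (0 : ℝ) := hvo (Q v) hQv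
      rw [inner_sub_right, sub_eq_zero] at h1
      rw [real_inner_comm, h1, real_inner_self_eq_norm_sq]
    have : ‖v - Q v‖ ^ 2 = ‖v‖ ^ 2 - ‖Q v‖ ^ 2 := by rw [norm_sub_sq_real, e0]; ring
    nlinarith [norm_nonneg (v - Q v), norm_nonneg v, sq_nonneg ‖Q v‖]
  have huQ : @inner ℝ _ _ u (v - Q v) = @inner ℝ _ _ u v := by
    have : @inner ℝ _ _ u (Q v) = (0 : ℝ) := by rw [real_inner_comm]; exact huo (Q v) hQv
    rw [inner_sub_right, this, sub_zero]
  have g1 := h u hum (v - Q v) hvm' huo hvo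
  have g2 := h (-u) (Submodule.neg_mem _ hum) (v - Q v) hvm' (Submodule.neg_mem _ huo) hvo
  rw [huQ] at g1
  rw [inner_neg_left, norm_neg, huQ] at g2
  have g3 : lam * ‖u‖ * ‖v - Q v‖ ≤ lam * ‖u‖ * ‖v‖ := by gcongr
  have habs : |@inner ℝ _ _ u v| ≤ lam * ‖u‖ * ‖v‖ := by
    rw [abs_le]; constructor <;> linarith
  have hsq : (@inner ℝ _ _ u v) ^ 2 ≤ (lam * ‖u‖ * ‖v‖) ^ 2 := by
    rw [← sq_abs (@inner ℝ _ _ u v)]
    exact pow_le_pow_left₀ (abs_nonneg _) habs 2
  rw [mul_pow, mul_pow, s1, s2, s3] at hsq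
  exact hsq

/-- Generation, in function form. -/
theorem inf_of_gen (P : I → Subgroup G)
    (hgen : ∀ J₀ : Finset I, J₀.card + 2 ≤ Fintype.card I → ∀ φ : G → ℝ,
        (∀ i ∉ J₀, ∀ g ∈ PJ P J₀, ∀ h ∈ PJ P (insert i J₀), φ (g * h) = φ g) →
          ∀ g ∈ PJ P J₀, φ g = φ 1) :
    ∀ (j : ℕ) (κ : Finset I), κᶜ.card = j → ∀ a b : I, a ≠ b → a ∉ κ → b ∉ κ →
      invSub (sys P) (insert a κ) ⊓ invSub (sys P) (insert b κ) ≤ invSub (sys P) κ := by
  intro j
  induction j with
  | zero =>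
    intro κ hκ a b _ ha _
    rw [Finset.card_eq_zero, Finset.compl_eq_empty_iff] at hκ
    rw [hκ] at ha
    exact absurd (Finset.mem_univ a) ha
  | succ j ih =>
    intro κ hκ a b hab ha hb u hu
    have hcard : κ.card + 2 ≤ Fintype.card I := by
      have h1 : ({a, b} : Finset I) ⊆ κᶜ := by
        intro x hx
        simp only [Finset.mem_insert, Finset.mem_singleton] at hx
        rcases hx with rfl | rfl <;> simpa
      have h2 := Finset.card_le_card h1
      rw [Finset.card_pair hab, Finset.card_compl] at h2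
      omega
    intro g k hk
    have h := hgen κ hcard (fun x => u (g * x)) ?_ k hk
    · simpa using h
    · intro i hi x _ y hy
      have hinv : u ∈ invSub (sys P) (insert i κ) := by
        by_cases hia : i = a
        · rw [hia]; exact hu.1
        by_cases hib : i = b
        · rw [hib]; exact hu.2
        refine ih (insert i κ) ?_ a b hab ?_ ?_ ⟨?_, ?_⟩
        · rw [Finset.compl_insert, Finset.card_erase_of_mem (by simpa using hi), hκ]; rfl
        · rw [Finset.mem_insert, not_or]; exact ⟨fun h => hia h.symm, ha⟩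
        · rw [Finset.mem_insert, not_or]; exact ⟨fun h => hib h.symm, hb⟩
        · exact invSub_mono _ _ _ (Finset.insert_subset_insert _ (Finset.subset_insert _ _)) hu.1
        · exact invSub_mono _ _ _ (Finset.insert_subset_insert _ (Finset.subset_insert _ _)) hu.2
      have := hinv (g * x) y hy
      simp only
      rw [← mul_assoc]
      exact this

end bridge

end LG

/-- Trickle-down: rank two mixing + vanishing in cardinality one for all links gives mixing everywhere. -/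
theorem trickle (n : ℕ) (lam : ℝ) (hlam : 0 < lam) : ∃ ε : ℝ, 0 < ε ∧
    ∀ (I : Type) [DecidableEq I] [Fintype I], Fintype.card I = n →
    ∀ (G : Type) [Group G] [Fintype G] (P : I → Subgroup G),
      (∀ J₀ : Finset I, J₀.card + 2 ≤ n → ∀ φ : G → ℝ,
        (∀ i ∉ J₀, ∀ g ∈ PJ P J₀, ∀ h ∈ PJ P (insert i J₀), φ (g * h) = φ g) → ∀ g ∈ PJ P J₀, φ g = φ 1) →
      (∀ J₀ : Finset I, J₀.card + 2 = n → ∀ a ∉ J₀, ∀ b ∉ J₀, a ≠ b → Mix P J₀ a b ε) →
      ∀ J₀ : Finset I, J₀.card + 2 ≤ n → ∀ a ∉ J₀, ∀ b ∉ J₀, a ≠ b → Mix P J₀ a b lam := by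
  set ε : ℝ := min (1 / (2 * ((n : ℝ) + 1))) (lam / 2) with hε
  have hε0 : 0 < ε := lt_min (by positivity) (by positivity)
  have hnε : (n : ℝ) * ε ≤ 1 / 2 := by
    have h1 : ε ≤ 1 / (2 * ((n : ℝ) + 1)) := min_le_left _ _
    have h2 : (n : ℝ) * ε ≤ n * (1 / (2 * ((n : ℝ) + 1))) := by gcongr
    refine h2.trans ?_
    rw [mul_one_div, div_le_div_iff₀ (by positivity) (by norm_num)]
    linarith
  refine ⟨ε, hε0, ?_⟩
  intro I _ _ hI G _ _ P hgen hbase J₀ hJ₀ a ha b hb hab
  refine LG.mix_of_gap P J₀ a b lam hlam.le ?_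
  have hinf := fun (κ : Finset I) (a b : I) (hab : a ≠ b) (ha : a ∉ κ) (hb : b ∉ κ) =>
    LG.inf_of_gen P (by rw [hI]; exact hgen) _ κ rfl a b hab ha hb
  have hgap := LG.gap_all (LG.invSub (LG.sys P)) (LG.invSub_mono (LG.sys P)) hinf ε hε0.le
    (by rw [hI]; linarith)
    (fun κ a b hab ha hb hc => LG.gap_of_pairGap (LG.sys P) κ a b ε
      (LG.pairGap_of_mix P κ a b ε hε0.le (hbase κ (by
        rw [Finset.card_compl, hI] at hc
        have := Finset.card_le_univ κ
        rw [hI] at this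
        omega) a ha b hb hab))) J₀ a b hab ha hb
  refine hgap.mono ?_
  rw [hI]
  have hd : (0 : ℝ) < 1 - n * ε := by linarith
  rw [div_le_iff₀ hd]
  have h1 : ε ≤ lam / 2 := min_le_right _ _
  nlinarith

/-- Local-to-global theorem for cosystolic/coboundary expansion. -/
theorem local_to_global (n d : ℕ) (hn : d + 2 ≤ n) (β : ℝ) (hβ : 0 < β) : ∃ lam : ℝ, 0 < lam ∧
    ∀ D₀ : ℕ, ∃ C₁ : ℝ, 0 < C₁ ∧
    ∀ (I : Type) [DecidableEq I] [Fintype I], Fintype.card I = n →
    ∀ (G : Type) [Group G] [Fintype G] (P : I → Subgroup G),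
      (∀ i, Nat.card (P i) ≤ D₀) →
      (∀ J₀ : Finset I, J₀.Nonempty → ∀ m : ℕ, 1 ≤ m → m + J₀.card ≤ d + 1 → LinkExp P J₀ m β) →
      (∀ J₀ : Finset I, J₀.card + 2 ≤ n → ∀ a ∉ J₀, ∀ b ∉ J₀, a ≠ b → Mix P J₀ a b lam) →
      (∀ m : ℕ, 1 ≤ m → m ≤ d → Van P m) →
      ∀ m : ℕ, 1 ≤ m → m ≤ d → ∀ f : Finset I → G → ZMod 2, IsCoch P ∅ m f →
        ∃ b : Finset I → G → ZMod 2, IsCoch P ∅ (m - 1) b ∧
          (wt P ∅ m (f + cob b) : ℝ) ≤ C₁ * (wt P ∅ (m + 1) (cob f) : ℝ) := by
  classical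
  set β' : ℝ := min β 1 with hβ'
  have hβ'0 : 0 < β' := lt_min hβ one_pos
  have hn0 : (0 : ℝ) < n := by
    have : 0 < n := by omega
    exact_mod_cast this
  set ε : ℝ := β' / (2 * (n * 4 ^ n)) with hε
  have hε0 : 0 < ε := by positivity
  set ρ : ℝ := min (ε / 2) 1 with hρ
  have hρ0 : 0 < ρ := lt_min (by positivity) one_pos
  have hρ1 : ρ ≤ 1 := min_le_right _ _
  have hρε : ρ ≤ ε / 2 := min_le_left _ _
  set lam : ℝ := ε / 2 * Real.sqrt (ρ ^ n) / n with hlam
  have hsq : 0 < Real.sqrt (ρ ^ n) := Real.sqrt_pos.mpr (by positivity)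
  have hlam0 : 0 < lam := by positivity
  refine ⟨lam, hlam0, ?_⟩
  intro D₀
  refine ⟨2 ^ n * D₀ + 2 ^ n / ρ ^ n, by positivity, ?_⟩
  intro I _ _ hI G _ _ P hD₀ hLE hMix hVan m hm1 hmd f hf
  set X := LG.sys P with hX
  have hgap : ∀ (κ : Finset I) (a b : I), a ≠ b → a ∉ κ → b ∉ κ →
      LG.Gap (LG.invSub X) κ a b lam := by
    intro κ a b hab ha hb
    refine LG.gap_of_pairGap X κ a b lam (LG.pairGap_of_mix P κ a b lam hlam0.le
      (hMix κ ?_ a ha b hb hab))
    have h1 : ({a, b} : Finset I) ⊆ κᶜ := by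
      intro x hx
      simp only [Finset.mem_insert, Finset.mem_singleton] at hx
      rcases hx with rfl | rfl <;> simpa
    have h2 := Finset.card_le_card h1
    rw [Finset.card_pair hab, Finset.card_compl, hI] at h2
    omega
  have hMix' := LG.mix_of_gaps X lam hlam0.le hgap
  rw [hI] at hMix'
  have hnlam : (n : ℝ) * lam = ε / 2 * Real.sqrt (ρ ^ n) := by
    rw [hlam]; field_simp
  let η : ℕ → ℝ := fun r => ρ ^ (n - r)
  have hk : ∀ T : Finset I, T.Nonempty → Fintype.card (X.K T) ≤ D₀ := by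
    rintro T ⟨i, hi⟩
    have hle : X.K T ≤ P i := by
      show PJ P T ≤ P i
      unfold PJ
      exact iInf₂_le i hi
    have h1 : Nat.card (X.K T) ≤ Nat.card (P i) := by
      exact Nat.card_le_card_of_injective (Subgroup.inclusion hle)
        (Subgroup.inclusion_injective hle)
    rw [Nat.card_eq_fintype_card] at h1
    exact h1.trans (hD₀ i)
  have hcos := LG.cosystolic X m D₀ β' (n * lam) ε η hk hβ'0 (by positivity)
    (fun r => by simp only [η]; positivity)
    (by simp only [η]; exact pow_le_one₀ hρ0.le hρ1)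
    hε0.le
    (by
      intro T hT hTm
      by_cases h0 : m + 1 - T.card = 0
      · rw [h0]
        exact LG.linkExp_zero X T (by rw [hI]; omega) β' (min_le_right _ _)
      · exact LG.linkExp_of P T _ β β' (min_le_left _ _) (hLE T hT _ (by omega) (by omega)))
    hMix'
    (by
      intro r hr
      simp only [η]
      have hr' : n - r = (n - (r + 1)) + 1 := by omega
      have hp : 0 < ρ ^ (n - (r + 1)) := by positivity
      have e1 : ρ ^ (n - r) / ρ ^ (n - (r + 1)) = ρ := by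
        rw [hr', pow_succ, mul_comm, mul_div_assoc, div_self hp.ne', mul_one]
      have e2 : Real.sqrt (ρ ^ n) ≤ Real.sqrt (ρ ^ (n - (r + 1))) :=
        Real.sqrt_le_sqrt (pow_le_pow_of_le_one hρ0.le hρ1 (by omega))
      have hs : 0 < Real.sqrt (ρ ^ (n - (r + 1))) := Real.sqrt_pos.mpr hp
      have e3 : (n : ℝ) * lam / Real.sqrt (ρ ^ (n - (r + 1))) ≤ ε / 2 := by
        rw [div_le_iff₀ hs, hnlam]
        gcongr
      rw [e1]; linarith)
    (by
      rw [hI, hε]
      have : (0 : ℝ) < n * 4 ^ n := by positivity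
      apply le_of_eq
      field_simp)
    f ((LG.isCoch_iff P ∅ m f).mp hf)
  obtain ⟨z, hz1, hz2, hz3⟩ := hcos
  obtain ⟨b, hb1, hb2⟩ := hVan m hm1 hmd z ((LG.isCoch_iff P ∅ m z).mpr hz1) hz2
  refine ⟨b, hb1, ?_⟩
  have e1 : wt P ∅ m (f + cob b) = LG.cnt X ∅ m (f + z) := by
    rw [LG.wt_eq]
    unfold LG.cnt
    refine Finset.sum_congr rfl fun S hS => ?_
    simp only [LG.faces, Finset.mem_filter, Finset.mem_univ, true_and] at hS
    congr 1
    funext g
    simp only [Pi.add_apply]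
    rw [hb2 S hS.1 g]
  rw [e1]
  have e2 : wt P ∅ (m + 1) (cob f) = LG.cnt X ∅ (m + 1) (LG.cob f) := LG.wt_eq P ∅ (m + 1) (cob f)
  rw [e2]
  have e3 : η 0 = ρ ^ n := by simp [η]
  rw [hI, e3] at hz3
  exact hz3

end Crest.Agent.R066
end

-- ▼ part R066/ConeExp
section

/-! From cone operators + transitivity to coboundary expansion (task M3, averaging argument). -/

set_option autoImplicit false
set_option linter.unusedSectionVars false
open scoped BigOperators

namespace Crest.Agent.R066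

namespace ConeExp

theorem mem_PJ' {I G : Type*} [Group G] {P : I → Subgroup G} {J : Finset I} {g : G} :
    g ∈ PJ P J ↔ ∀ i ∈ J, g ∈ P i := by
  simp [PJ, Subgroup.mem_iInf]

section

variable {I : Type} [DecidableEq I] {G : Type} [Group G] {P : I → Subgroup G} {J₀ : Finset I}
  {V : Type} [DecidableEq V] {act : G → V → V} {v₀ : I → V}

/-- hypotheses on the action -/
structure Hyp (P : I → Subgroup G) (J₀ : Finset I) (act : G → V → V) (v₀ : I → V) : Prop where
  one : ∀ v, act 1 v = v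
  mul : ∀ g h v, act (g * h) v = act g (act h v)
  stab : ∀ i ∉ J₀, ∀ g ∈ PJ P J₀, act g (v₀ i) = v₀ i ↔ g ∈ P i
  inj : ∀ i ∉ J₀, ∀ j ∉ J₀, ∀ g ∈ PJ P J₀, act g (v₀ i) = v₀ j → i = j

/-- the face `g • v₀(J)` -/
def face (act : G → V → V) (v₀ : I → V) (J : Finset I) (g : G) : Finset V :=
  (J.image v₀).image (act g)

theorem Hyp.act_inj (H : Hyp P J₀ act v₀) (g : G) : Function.Injective (act g) := by
  intro x y hxy
  have := congrArg (act g⁻¹) hxy
  rwa [← H.mul, ← H.mul, inv_mul_cancel, H.one, H.one] at this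

theorem Hyp.v0_inj (H : Hyp P J₀ act v₀) {i j : I} (hi : i ∉ J₀) (hj : j ∉ J₀)
    (h : v₀ i = v₀ j) : i = j :=
  H.inj i hi j hj 1 (one_mem _) (by rw [H.one, h])

theorem Hyp.face_mul (H : Hyp P J₀ act v₀) (J : Finset I) (h k : G) :
    (face act v₀ J k).image (act h) = face act v₀ J (h * k) := by
  unfold face
  rw [Finset.image_image]
  congr 1
  funext v
  exact (H.mul h k v).symm

theorem face_eq_image (J : Finset I) (g : G) :
    face act v₀ J g = J.image (fun i => act g (v₀ i)) := by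
  unfold face
  rw [Finset.image_image]; rfl

theorem notMem_of_disjoint {J J₀ : Finset I} (hJ : Disjoint J J₀) {i : I} (hi : i ∈ J) : i ∉ J₀ :=
  Finset.disjoint_left.1 hJ hi

theorem Hyp.injOn (H : Hyp P J₀ act v₀) {J : Finset I} (hJ : Disjoint J J₀) (g : G) :
    Set.InjOn (fun i => act g (v₀ i)) (J : Set I) := by
  intro i hi j hj hij
  exact H.v0_inj (notMem_of_disjoint hJ hi) (notMem_of_disjoint hJ hj) (H.act_inj g hij)

theorem Hyp.card_face (H : Hyp P J₀ act v₀) {J : Finset I} (hJ : Disjoint J J₀) (g : G) :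
    (face act v₀ J g).card = J.card := by
  rw [face_eq_image, Finset.card_image_of_injOn (H.injOn hJ g)]

theorem Hyp.face_erase (H : Hyp P J₀ act v₀) {J : Finset I} (hJ : Disjoint J J₀) (g : G)
    {i : I} (hi : i ∈ J) :
    (face act v₀ J g).erase (act g (v₀ i)) = face act v₀ (J.erase i) g := by
  rw [face_eq_image, face_eq_image]
  ext v
  simp only [Finset.mem_erase, Finset.mem_image]
  constructor
  · rintro ⟨hne, j, hj, rfl⟩
    exact ⟨j, ⟨fun h => hne (by rw [h]), hj⟩, rfl⟩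
  · rintro ⟨j, ⟨hne, hj⟩, rfl⟩
    exact ⟨fun h => hne (H.injOn hJ g hj hi h), j, hj, rfl⟩

theorem Hyp.sum_face (H : Hyp P J₀ act v₀) {J : Finset I} (hJ : Disjoint J J₀) (g : G)
    (φ : V → ZMod 2) : ∑ v ∈ face act v₀ J g, φ v = ∑ i ∈ J, φ (act g (v₀ i)) := by
  rw [face_eq_image, Finset.sum_image (H.injOn hJ g)]

theorem Hyp.face_sub (H : Hyp P J₀ act v₀) {J J' : Finset I} (hJ : Disjoint J J₀)
    (hJ' : Disjoint J' J₀) {g g' : G} (hg : g ∈ PJ P J₀) (hg' : g' ∈ PJ P J₀)
    (h : face act v₀ J g = face act v₀ J' g') {i : I} (hi : i ∈ J) :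
    i ∈ J' ∧ g'⁻¹ * g ∈ P i := by
  have h1 : act g (v₀ i) ∈ face act v₀ J' g' := by
    rw [← h, face_eq_image]; exact Finset.mem_image_of_mem _ hi
  rw [face_eq_image, Finset.mem_image] at h1
  obtain ⟨j, hj, hji⟩ := h1
  have hk : g'⁻¹ * g ∈ PJ P J₀ := mul_mem (inv_mem hg') hg
  have h2 : act (g'⁻¹ * g) (v₀ i) = v₀ j := by
    rw [H.mul, ← hji, ← H.mul, inv_mul_cancel, H.one]
  have hiJ := notMem_of_disjoint hJ hi
  have hjJ := notMem_of_disjoint hJ' hj
  have hij := H.inj i hiJ j hjJ _ hk h2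
  subst hij
  exact ⟨hj, (H.stab i hiJ _ hk).1 h2⟩

theorem Hyp.face_eq (H : Hyp P J₀ act v₀) {J J' : Finset I} (hJ : Disjoint J J₀)
    (hJ' : Disjoint J' J₀) {g g' : G} (hg : g ∈ PJ P J₀) (hg' : g' ∈ PJ P J₀)
    (h : face act v₀ J g = face act v₀ J' g') : J = J' ∧ g'⁻¹ * g ∈ PJ P (J ∪ J₀) := by
  refine ⟨?_, ?_⟩
  · apply Finset.Subset.antisymm
    · exact fun i hi => (H.face_sub hJ hJ' hg hg' h hi).1
    · exact fun i hi => (H.face_sub hJ' hJ hg' hg h.symm hi).1
  · rw [mem_PJ']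
    intro i hi
    rcases Finset.mem_union.1 hi with hi | hi
    · exact (H.face_sub hJ hJ' hg hg' h hi).2
    · exact mem_PJ'.1 (mul_mem (inv_mem hg') hg) i hi

theorem Hyp.face_mul_right (H : Hyp P J₀ act v₀) {J : Finset I} (hJ : Disjoint J J₀)
    (g : G) {h : G} (hh : h ∈ PJ P (J ∪ J₀)) :
    face act v₀ J (g * h) = face act v₀ J g := by
  rw [face_eq_image, face_eq_image]
  apply Finset.image_congr
  intro i hi
  have hi' : i ∈ J := hi
  have h0 : h ∈ PJ P J₀ := mem_PJ'.2 fun j hj => mem_PJ'.1 hh j (Finset.mem_union_right _ hj)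
  have h1 : h ∈ P i := mem_PJ'.1 hh i (Finset.mem_union_left _ hi')
  show act (g * h) (v₀ i) = act g (v₀ i)
  rw [H.mul, (H.stab i (notMem_of_disjoint hJ hi') h h0).2 h1]

open Classical in
/-- the untyped function attached to a typed cochain -/
noncomputable def unt (P : I → Subgroup G) (J₀ : Finset I) (act : G → V → V) (v₀ : I → V)
    (f : Finset I → G → ZMod 2) (s : Finset V) : ZMod 2 :=
  if h : ∃ p : Finset I × G, p.2 ∈ PJ P J₀ ∧ Disjoint p.1 J₀ ∧ s = face act v₀ p.1 p.2 then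
    f h.choose.1 h.choose.2 else 0

theorem Hyp.unt_face (H : Hyp P J₀ act v₀) {f : Finset I → G → ZMod 2} {J : Finset I}
    (hf : IsCoch P J₀ J.card f) (hJ : Disjoint J J₀) {g : G} (hg : g ∈ PJ P J₀) :
    unt P J₀ act v₀ f (face act v₀ J g) = f J g := by
  have h : ∃ p : Finset I × G, p.2 ∈ PJ P J₀ ∧ Disjoint p.1 J₀ ∧
      face act v₀ J g = face act v₀ p.1 p.2 := ⟨(J, g), hg, hJ, rfl⟩
  unfold unt
  rw [dif_pos h]
  obtain ⟨h1, h2, h3⟩ := h.choose_spec
  set p := h.choose
  obtain ⟨e, h4⟩ := H.face_eq hJ h2 hg h1 h3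
  rw [← e]
  have h5 := hf J rfl hJ p.2 h1 _ h4
  rw [← h5, mul_inv_cancel_left]

/-- pairing of a function on finite sets with a chain -/
noncomputable def pr (F : Finset V → ZMod 2) : Ch V →ₗ[ZMod 2] ZMod 2 :=
  Finsupp.linearCombination (ZMod 2) F

theorem pr_single (F : Finset V → ZMod 2) (s : Finset V) (c : ZMod 2) :
    pr F (Finsupp.single s c) = c * F s := by
  simp [pr]

/-- coboundary of an untyped function -/
def dl (F : Finset V → ZMod 2) (s : Finset V) : ZMod 2 := ∑ v ∈ s, F (s.erase v)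

theorem bd_single' (s : Finset V) (c : ZMod 2) :
    bd (Finsupp.single s c) = ∑ v ∈ s, Finsupp.single (s.erase v) c := by
  simp [bd]

theorem pr_bd (F : Finset V → ZMod 2) (z : Ch V) : pr F (bd z) = pr (dl F) z := by
  have : (pr F).comp bd = pr (dl F) := by
    apply Finsupp.lhom_ext
    intro s c
    rw [LinearMap.comp_apply, bd_single', map_sum, pr_single, dl, Finset.mul_sum]
    exact Finset.sum_congr rfl fun v _ => pr_single _ _ _
  exact LinearMap.congr_fun this z

theorem exists_of_pr_ne {F : Finset V → ZMod 2} {z : Ch V} (h : pr F z ≠ 0) :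
    ∃ t ∈ z.support, F t ≠ 0 := by
  by_contra hc
  push Not at hc
  apply h
  unfold pr
  rw [Finsupp.linearCombination_apply, Finsupp.sum]
  apply Finset.sum_eq_zero
  intro t ht
  rw [hc t ht, smul_zero]

/-- push forward of chains -/
noncomputable def push (act : G → V → V) (h : G) : Ch V →ₗ[ZMod 2] Ch V :=
  Finsupp.lmapDomain (ZMod 2) (ZMod 2) (fun s => s.image (act h))

theorem push_single (h : G) (s : Finset V) (c : ZMod 2) :
    push act h (Finsupp.single s c) = Finsupp.single (s.image (act h)) c := by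
  simp [push, Finsupp.mapDomain_single]

theorem pr_push (F : Finset V → ZMod 2) (h : G) (z : Ch V) :
    pr F (push act h z) = pr (fun s => F (s.image (act h))) z := by
  have : (pr F).comp (push act h) = pr (fun s => F (s.image (act h))) := by
    apply Finsupp.lhom_ext
    intro s c
    rw [LinearMap.comp_apply, push_single, pr_single, pr_single]
  exact LinearMap.congr_fun this z

theorem image_erase' {g : G} (hg : Function.Injective (act g)) (s : Finset V) (v : V) :
    (s.image (act g)).erase (act g v) = (s.erase v).image (act g) := by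
  ext w
  simp only [Finset.mem_erase, Finset.mem_image]
  constructor
  · rintro ⟨hne, x, hx, rfl⟩
    exact ⟨x, ⟨fun h => hne (by rw [h]), hx⟩, rfl⟩
  · rintro ⟨x, ⟨hne, hx⟩, rfl⟩
    exact ⟨fun h => hne (hg h), x, hx, rfl⟩

theorem push_bd {g : G} (hg : Function.Injective (act g)) (z : Ch V) :
    push act g (bd z) = bd (push act g z) := by
  have : (push act g).comp bd = bd.comp (push act g) := by
    apply Finsupp.lhom_ext
    intro s c
    rw [LinearMap.comp_apply, LinearMap.comp_apply, bd_single', push_single, bd_single', map_sum,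
      Finset.sum_image (hg.injOn)]
    apply Finset.sum_congr rfl
    intro v _
    rw [push_single, image_erase' hg]
  exact LinearMap.congr_fun this z


theorem Hyp.dl_unt (H : Hyp P J₀ act v₀) {m : ℕ} {f : Finset I → G → ZMod 2}
    (hf : IsCoch P J₀ m f) {J : Finset I} (hJc : J.card = m + 1) (hJ : Disjoint J J₀) {g : G}
    (hg : g ∈ PJ P J₀) :
    dl (unt P J₀ act v₀ f) (face act v₀ J g) = cob f J g := by
  unfold dl cob
  rw [H.sum_face hJ g (fun v => unt P J₀ act v₀ f ((face act v₀ J g).erase v))]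
  apply Finset.sum_congr rfl
  intro i hi
  have hc : (J.erase i).card = m := by rw [Finset.card_erase_of_mem hi, hJc]; rfl
  rw [H.face_erase hJ g hi]
  exact H.unt_face (by rw [hc]; exact hf) (hJ.mono_left (Finset.erase_subset _ _)) hg

/-- the correcting cochain -/
noncomputable def bh (P : I → Subgroup G) (J₀ : Finset I) (act : G → V → V) (v₀ : I → V)
    (κ : Finset V → Ch V) (f : Finset I → G → ZMod 2) (h : G) : Finset I → G → ZMod 2 :=
  fun J g => pr (unt P J₀ act v₀ f) (push act h (κ ((face act v₀ J g).image (act h⁻¹))))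

theorem Hyp.isCoch_bh (H : Hyp P J₀ act v₀) (κ : Finset V → Ch V) (f : Finset I → G → ZMod 2)
    (h : G) (m : ℕ) : IsCoch P J₀ m (bh P J₀ act v₀ κ f h) := by
  intro J _ hJ g _ k hk
  unfold bh
  rw [H.face_mul_right hJ g hk]

theorem Hyp.face_mem (H : Hyp P J₀ act v₀) {K : Set (Finset V)}
    (hK : ∀ g ∈ PJ P J₀, ∀ s ∈ K, s.image (act g) ∈ K)
    (hv : ∀ J : Finset I, Disjoint J J₀ → J.image v₀ ∈ K) {J : Finset I} (hJ : Disjoint J J₀)
    {g : G} (hg : g ∈ PJ P J₀) : face act v₀ J g ∈ K := hK g hg _ (hv J hJ)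

theorem Hyp.main_eq (H : Hyp P J₀ act v₀) {K : Set (Finset V)}
    (hK : ∀ g ∈ PJ P J₀, ∀ s ∈ K, s.image (act g) ∈ K)
    (hv : ∀ J : Finset I, Disjoint J J₀ → J.image v₀ ∈ K) {m R : ℕ} {κ : Finset V → Ch V}
    (hκ : ∀ s ∈ K, s.card ≤ m → κ s ∈ chains K (s.card + 1) ∧
        bd (κ s) + ∑ v ∈ s, κ (s.erase v) = Finsupp.single s 1 ∧ (κ s).support.card ≤ R)
    {f : Finset I → G → ZMod 2} (hf : IsCoch P J₀ m f) {h : G} (hh : h ∈ PJ P J₀)
    {J : Finset I} (hJc : J.card = m) (hJ : Disjoint J J₀) {g : G} (hg : g ∈ PJ P J₀) :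
    (f + cob (bh P J₀ act v₀ κ f h)) J g =
      pr (dl (unt P J₀ act v₀ f)) (push act h (κ (face act v₀ J (h⁻¹ * g)))) := by
  set F := unt P J₀ act v₀ f with hF
  have hg' : h⁻¹ * g ∈ PJ P J₀ := mul_mem (inv_mem hh) hg
  have hs' := H.face_mem hK hv hJ hg'
  have hcard : (face act v₀ J (h⁻¹ * g)).card = m := by rw [H.card_face hJ, hJc]
  have h1 := (hκ _ hs' hcard.le).2.1
  have h2 := congrArg (push act h) h1
  rw [map_add, push_bd (H.act_inj h), push_single, H.face_mul, mul_inv_cancel_left, map_sum] at h2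
  have h3 := congrArg (pr F) h2
  rw [map_add, pr_bd, pr_single, one_mul, map_sum] at h3
  have h4 : F (face act v₀ J g) = f J g := H.unt_face (by rw [hJc]; exact hf) hJ hg
  rw [h4] at h3
  have h5 : ∑ v ∈ face act v₀ J (h⁻¹ * g),
      pr F (push act h (κ ((face act v₀ J (h⁻¹ * g)).erase v)))
      = cob (bh P J₀ act v₀ κ f h) J g := by
    rw [H.sum_face hJ (h⁻¹ * g)
      (fun v => pr F (push act h (κ ((face act v₀ J (h⁻¹ * g)).erase v))))]
    unfold cob bh
    apply Finset.sum_congr rfl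
    intro i hi
    rw [H.face_erase hJ _ hi, H.face_mul]
  rw [h5] at h3
  show f J g + cob (bh P J₀ act v₀ κ f h) J g = _
  rw [← h3, add_assoc, CharTwo.add_self_eq_zero, add_zero]

open Classical in
/-- number of translates on which the coboundary does not vanish -/
theorem Hyp.count_le [Fintype I] [Fintype G] (H : Hyp P J₀ act v₀) {K : Set (Finset V)}
    (htr : ∀ s ∈ K, ∃ g ∈ PJ P J₀, ∃ J : Finset I, Disjoint J J₀ ∧
      s = (J.image v₀).image (act g)) {m : ℕ}
    {f : Finset I → G → ZMod 2} (hf : IsCoch P J₀ m f) {t : Finset V} (ht : t ∈ K)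
    (htc : t.card = m + 1) :
    (∑ h ∈ Finset.univ.filter (fun h : G => h ∈ PJ P J₀),
      if dl (unt P J₀ act v₀ f) (t.image (act h)) ≠ 0 then 1 else 0) ≤
      wt P J₀ (m + 1) (cob f) := by
  obtain ⟨g₀, hg₀, J, hJ, rfl⟩ := htr t ht
  change (face act v₀ J g₀).card = m + 1 at htc
  rw [H.card_face hJ] at htc
  have hle : ((Finset.univ : Finset G).filter (fun g => g ∈ PJ P J₀ ∧ cob f J g ≠ 0)).card ≤
      wt P J₀ (m + 1) (cob f) := by
    unfold wt
    apply Finset.single_le_sum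
      (f := fun J => ((Finset.univ : Finset G).filter (fun g => g ∈ PJ P J₀ ∧ cob f J g ≠ 0)).card)
      (fun _ _ => Nat.zero_le _)
    simp [htc, hJ]
  refine le_trans (le_of_eq ?_) hle
  rw [← Finset.sum_filter, Finset.filter_filter, Finset.sum_const, smul_eq_mul, mul_one]
  apply Finset.card_bij (fun h _ => h * g₀)
  · intro h hh
    simp only [Finset.mem_filter, Finset.mem_univ, true_and] at hh ⊢
    refine ⟨mul_mem hh.1 hg₀, ?_⟩
    have h1 := hh.2
    change dl (unt P J₀ act v₀ f) ((face act v₀ J g₀).image (act h)) ≠ 0 at h1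
    rw [H.face_mul, H.dl_unt hf htc hJ (mul_mem hh.1 hg₀)] at h1
    exact h1
  · intro a _ b _ hab
    exact mul_right_cancel hab
  · intro b hb
    simp only [Finset.mem_filter, Finset.mem_univ, true_and] at hb
    refine ⟨b * g₀⁻¹, ?_, by group⟩
    simp only [Finset.mem_filter, Finset.mem_univ, true_and]
    have h0 : b * g₀⁻¹ ∈ PJ P J₀ := mul_mem hb.1 (inv_mem hg₀)
    refine ⟨h0, ?_⟩
    show dl (unt P J₀ act v₀ f) ((face act v₀ J g₀).image (act (b * g₀⁻¹))) ≠ 0
    have h1 : b * g₀⁻¹ * g₀ = b := by group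
    rw [H.face_mul, h1, H.dl_unt hf htc hJ hb.1]
    exact hb.2

open Classical in
theorem wt_eq [Fintype I] [Fintype G] (P : I → Subgroup G) (J₀ : Finset I) (n : ℕ)
    (f : Finset I → G → ZMod 2) :
    wt P J₀ n f = ∑ J ∈ (Finset.univ : Finset (Finset I)).filter
      (fun J => J.card = n ∧ Disjoint J J₀),
      ∑ g ∈ (Finset.univ : Finset G).filter (fun g => g ∈ PJ P J₀),
        if f J g ≠ 0 then 1 else 0 := by
  unfold wt
  refine Finset.sum_congr (by ext J; simp) fun J _ => ?_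
  rw [← Finset.sum_filter, Finset.filter_filter, Finset.sum_const, smul_eq_mul, mul_one]

open Classical in
theorem Hyp.exists_good [Fintype I] [Fintype G] (H : Hyp P J₀ act v₀) {K : Set (Finset V)}
    (hK : ∀ g ∈ PJ P J₀, ∀ s ∈ K, s.image (act g) ∈ K)
    (hv : ∀ J : Finset I, Disjoint J J₀ → J.image v₀ ∈ K)
    (htr : ∀ s ∈ K, ∃ g ∈ PJ P J₀, ∃ J : Finset I, Disjoint J J₀ ∧
      s = (J.image v₀).image (act g)) {m R : ℕ} {κ : Finset V → Ch V}
    (hκ : ∀ s ∈ K, s.card ≤ m → κ s ∈ chains K (s.card + 1) ∧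
        bd (κ s) + ∑ v ∈ s, κ (s.erase v) = Finsupp.single s 1 ∧ (κ s).support.card ≤ R)
    {f : Finset I → G → ZMod 2} (hf : IsCoch P J₀ m f) :
    ∃ h ∈ PJ P J₀, wt P J₀ m (f + cob (bh P J₀ act v₀ κ f h)) ≤
      2 ^ (Fintype.card I) * R * wt P J₀ (m + 1) (cob f) := by
  set Hs : Finset G := Finset.univ.filter (fun h : G => h ∈ PJ P J₀) with hHs
  set JJ : Finset (Finset I) :=
    (Finset.univ : Finset (Finset I)).filter (fun J => J.card = m ∧ Disjoint J J₀) with hJJ
  set F := unt P J₀ act v₀ f with hF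
  set W := wt P J₀ (m + 1) (cob f) with hW
  have hmem : ∀ {h : G}, h ∈ Hs ↔ h ∈ PJ P J₀ := by intro h; simp [hHs]
  have hne : Hs.Nonempty := ⟨1, hmem.2 (one_mem _)⟩
  -- indicator
  let χ : G → Finset V → ℕ := fun h t => if dl F (t.image (act h)) ≠ 0 then 1 else 0
  have hB : ∀ h ∈ Hs, wt P J₀ m (f + cob (bh P J₀ act v₀ κ f h)) ≤
      ∑ J ∈ JJ, ∑ k ∈ Hs, ∑ t ∈ (κ (face act v₀ J k)).support, χ h t := by
    intro h hh
    have hh' := hmem.1 hh
    rw [wt_eq, ← hJJ, ← hHs]
    apply Finset.sum_le_sum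
    intro J hJ
    rw [hJJ, Finset.mem_filter] at hJ
    replace hJ := hJ.2
    have e2 : ∑ k ∈ Hs, ∑ t ∈ (κ (face act v₀ J k)).support, χ h t
        = ∑ g ∈ Hs, ∑ t ∈ (κ (face act v₀ J (h⁻¹ * g))).support, χ h t := by
      symm
      apply Finset.sum_bij (fun g _ => h⁻¹ * g)
      · intro g hg
        exact hmem.2 (mul_mem (inv_mem hh') (hmem.1 hg))
      · intro a _ b _ hab
        exact mul_left_cancel hab
      · intro b hb
        exact ⟨h * b, hmem.2 (mul_mem hh' (hmem.1 hb)), by group⟩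
      · intro g _
        rfl
    rw [e2]
    apply Finset.sum_le_sum
    intro g hg
    split_ifs with hne0
    · rw [H.main_eq hK hv hκ hf hh' hJ.1 hJ.2 (hmem.1 hg), pr_push] at hne0
      obtain ⟨t, ht, ht0⟩ := exists_of_pr_ne hne0
      calc 1 = χ h t := by simp only [χ]; rw [if_pos ht0]
        _ ≤ _ := Finset.single_le_sum (f := fun t => χ h t) (fun _ _ => Nat.zero_le _) ht
    · exact Nat.zero_le _
  have hsum : ∑ h ∈ Hs, wt P J₀ m (f + cob (bh P J₀ act v₀ κ f h)) ≤
      ∑ _h ∈ Hs, 2 ^ (Fintype.card I) * R * W := by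
    calc ∑ h ∈ Hs, wt P J₀ m (f + cob (bh P J₀ act v₀ κ f h))
        ≤ ∑ h ∈ Hs, ∑ J ∈ JJ, ∑ k ∈ Hs, ∑ t ∈ (κ (face act v₀ J k)).support, χ h t :=
          Finset.sum_le_sum hB
      _ = ∑ J ∈ JJ, ∑ k ∈ Hs, ∑ t ∈ (κ (face act v₀ J k)).support, ∑ h ∈ Hs, χ h t := by
          rw [Finset.sum_comm]
          apply Finset.sum_congr rfl
          intro J _
          rw [Finset.sum_comm]
          apply Finset.sum_congr rfl
          intro k _
          rw [Finset.sum_comm]
      _ ≤ ∑ J ∈ JJ, ∑ k ∈ Hs, ∑ t ∈ (κ (face act v₀ J k)).support, W := by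
          apply Finset.sum_le_sum
          intro J hJ
          rw [hJJ, Finset.mem_filter] at hJ
          apply Finset.sum_le_sum
          intro k hk
          apply Finset.sum_le_sum
          intro t ht
          have hfk := H.face_mem hK hv hJ.2.2 (hmem.1 hk)
          have hc : (face act v₀ J k).card = m := by rw [H.card_face hJ.2.2, hJ.2.1]
          have h1 := (hκ _ hfk hc.le).1
          unfold chains at h1
          rw [Finsupp.mem_supported] at h1
          have h2 := h1 (Finset.mem_coe.2 ht)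
          have h3 : t ∈ K ∧ t.card = (face act v₀ J k).card + 1 := h2
          rw [hc] at h3
          exact H.count_le htr hf h3.1 h3.2
      _ ≤ ∑ J ∈ JJ, ∑ k ∈ Hs, R * W := by
          apply Finset.sum_le_sum
          intro J hJ
          rw [hJJ, Finset.mem_filter] at hJ
          apply Finset.sum_le_sum
          intro k hk
          have hfk := H.face_mem hK hv hJ.2.2 (hmem.1 hk)
          have hc : (face act v₀ J k).card = m := by rw [H.card_face hJ.2.2, hJ.2.1]
          rw [Finset.sum_const, smul_eq_mul]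
          exact Nat.mul_le_mul_right _ (hκ _ hfk hc.le).2.2
      _ = JJ.card * (Hs.card * (R * W)) := by
          rw [Finset.sum_const, Finset.sum_const, smul_eq_mul, smul_eq_mul]
      _ ≤ 2 ^ (Fintype.card I) * (Hs.card * (R * W)) := by
          apply Nat.mul_le_mul_right
          calc JJ.card ≤ (Finset.univ : Finset (Finset I)).card := Finset.card_filter_le _ _
            _ = 2 ^ Fintype.card I := by simp
      _ = ∑ _h ∈ Hs, 2 ^ (Fintype.card I) * R * W := by
          rw [Finset.sum_const, smul_eq_mul]; ring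
  obtain ⟨h, hh, hle⟩ := Finset.exists_le_of_sum_le hne hsum
  exact ⟨h, hmem.1 hh, hle⟩

end

end ConeExp

open ConeExp

theorem linkExp_of_cone (nI m R : ℕ) (hm : 1 ≤ m) : ∃ β : ℝ, 0 < β ∧
    ∀ (I : Type) [DecidableEq I] [Fintype I], Fintype.card I ≤ nI →
    ∀ (G : Type) [Group G] [Fintype G] (P : I → Subgroup G) (J₀ : Finset I)
      (V : Type) [DecidableEq V] (K : Set (Finset V)) (act : G → V → V) (v₀ : I → V),
      (∀ v, act 1 v = v) → (∀ g h v, act (g * h) v = act g (act h v)) →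
      (∀ g ∈ PJ P J₀, ∀ s ∈ K, s.image (act g) ∈ K) →
      (∀ J : Finset I, Disjoint J J₀ → J.image v₀ ∈ K) →
      (∀ i ∉ J₀, ∀ g ∈ PJ P J₀, act g (v₀ i) = v₀ i ↔ g ∈ P i) →
      (∀ i ∉ J₀, ∀ j ∉ J₀, ∀ g ∈ PJ P J₀, act g (v₀ i) = v₀ j → i = j) →
      (∀ s ∈ K, ∃ g ∈ PJ P J₀, ∃ J : Finset I, Disjoint J J₀ ∧ s = (J.image v₀).image (act g)) →
      (∃ κ : Finset V → Ch V, ∀ s ∈ K, s.card ≤ m → κ s ∈ chains K (s.card + 1) ∧
        bd (κ s) + ∑ v ∈ s, κ (s.erase v) = Finsupp.single s 1 ∧ (κ s).support.card ≤ R) →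
      LinkExp P J₀ m β := by
  refine ⟨1 / ((2 : ℝ) ^ nI * R + 1), by positivity, ?_⟩
  intro I _ _ hI G _ _ P J₀ V _ K act v₀ h1 hmul hK hv hstab hinj htr hκ f hf
  obtain ⟨κ, hκ⟩ := hκ
  have H : Hyp P J₀ act v₀ := ⟨h1, hmul, hstab, hinj⟩
  obtain ⟨h, hh, hle⟩ := H.exists_good hK hv htr hκ hf
  refine ⟨bh P J₀ act v₀ κ f h, H.isCoch_bh κ f h _, ?_⟩
  have hpow : (2 : ℝ) ^ Fintype.card I ≤ 2 ^ nI := pow_le_pow_right₀ (by norm_num) hI
  have hle' : (wt P J₀ m (f + cob (bh P J₀ act v₀ κ f h)) : ℝ) ≤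
      2 ^ (Fintype.card I) * R * (wt P J₀ (m + 1) (cob f) : ℝ) := by exact_mod_cast hle
  have hW : (0 : ℝ) ≤ (wt P J₀ (m + 1) (cob f) : ℝ) := Nat.cast_nonneg _
  have hR : (0 : ℝ) ≤ R := Nat.cast_nonneg _
  have h3 : (2 : ℝ) ^ (Fintype.card I) * R * (wt P J₀ (m + 1) (cob f) : ℝ) ≤
      (2 ^ nI * R + 1) * (wt P J₀ (m + 1) (cob f) : ℝ) := by
    apply mul_le_mul_of_nonneg_right _ hW
    have := mul_le_mul_of_nonneg_right hpow hR
    linarith
  rw [div_mul_eq_mul_div, one_mul, div_le_iff₀ (by positivity)]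
  linarith [hle'.trans h3]

end Crest.Agent.R066
end

-- ▼ part R066/UnipMix
section

/-! Rank two mixing in the unitriangular local model (task T4). -/

set_option autoImplicit false
set_option linter.unusedSectionVars false
set_option linter.unusedSimpArgs false
open scoped BigOperators

namespace Crest.Agent.R066

namespace UnipMixAux

/-! ### Affine plane incidence bound -/

section Plane

variable {F : Type*} [Field F] [Fintype F] [DecidableEq F]

theorem sum_shift (h : F → ℝ) (c : F) : ∑ w : F, h (w + c) = ∑ w : F, h w :=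
  Fintype.sum_equiv (Equiv.addRight c) _ _ (fun _ => rfl)

theorem sum_pair (g1 g2 : F → ℝ) {x x' : F} (hx : x ≠ x') :
    ∑ y : F, ∑ w : F, g1 (w + y * x) * g2 (w + y * x') = (∑ u : F, g1 u) * ∑ v : F, g2 v := by
  have hne : x - x' ≠ 0 := sub_ne_zero.2 hx
  rw [Finset.sum_mul_sum, ← Fintype.sum_prod_type', ← Fintype.sum_prod_type']
  refine Fintype.sum_equiv
    { toFun := fun q : F × F => (q.2 + q.1 * x, q.2 + q.1 * x')
      invFun := fun q : F × F => ((q.1 - q.2) / (x - x'), q.1 - (q.1 - q.2) / (x - x') * x)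
      left_inv := ?_
      right_inv := ?_ } _ _ ?_
  · rintro ⟨y, w⟩
    have : (w + y * x - (w + y * x')) / (x - x') = y := by field_simp; ring
    simp only [this, Prod.mk.injEq, true_and]
    ring
  · rintro ⟨u, v⟩
    simp only [Prod.mk.injEq]
    constructor
    · ring
    · field_simp
      ring
  · rintro ⟨y, w⟩
    rfl

theorem plane_lines (f : F → F → ℝ) (hf : ∑ x : F, ∑ z : F, f x z = 0) :
    ∑ y : F, ∑ w : F, (∑ x : F, f x (w + y * x)) ^ 2 ≤
      (Fintype.card F : ℝ) * ∑ x : F, ∑ z : F, f x z ^ 2 := by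
  have h1 : ∑ y : F, ∑ w : F, (∑ x : F, f x (w + y * x)) ^ 2 =
      ∑ x : F, ∑ x' : F, ∑ y : F, ∑ w : F, f x (w + y * x) * f x' (w + y * x') := by
    simp_rw [sq, Finset.sum_mul_sum]
    rw [Finset.sum_congr rfl (fun y _ => Finset.sum_comm)]
    rw [Finset.sum_comm]
    refine Finset.sum_congr rfl fun x _ => ?_
    rw [Finset.sum_congr rfl (fun y _ => Finset.sum_comm)]
    rw [Finset.sum_comm]
  have h2 : ∀ x x' : F, ∑ y : F, ∑ w : F, f x (w + y * x) * f x' (w + y * x') =
      (∑ z : F, f x z) * (∑ z : F, f x' z) +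
        (if x = x' then (Fintype.card F : ℝ) * (∑ z : F, f x z ^ 2) - (∑ z : F, f x z) ^ 2 else 0) := by
    intro x x'
    by_cases h : x = x'
    · subst h
      rw [if_pos rfl]
      have : ∀ y : F, ∑ w : F, f x (w + y * x) * f x (w + y * x) = ∑ z : F, f x z ^ 2 := by
        intro y
        rw [sum_shift (fun w => f x w * f x w) (y * x)]
        exact Finset.sum_congr rfl fun z _ => (sq _).symm
      rw [Finset.sum_congr rfl (fun y _ => this y)]
      rw [Finset.sum_const, Finset.card_univ, nsmul_eq_mul]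
      ring
    · rw [if_neg h, add_zero]
      exact sum_pair (f x) (f x') h
  rw [h1]
  simp_rw [h2, Finset.sum_add_distrib]
  rw [← Finset.sum_mul_sum, hf, zero_mul, zero_add]
  simp only [Finset.sum_ite_eq, Finset.mem_univ, if_true]
  rw [Finset.sum_sub_distrib, ← Finset.mul_sum]
  have : 0 ≤ ∑ x : F, (∑ z : F, f x z) ^ 2 := Finset.sum_nonneg fun x _ => sq_nonneg _
  linarith

/-- The bound used for the Heisenberg group. -/
theorem plane_bound (f k : F → F → ℝ) (hf : ∑ x : F, ∑ z : F, f x z = 0) :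
    (∑ x : F, ∑ y : F, ∑ z : F, f x z * k y (z - y * x)) ^ 2 ≤
      (Fintype.card F : ℝ) * (∑ x : F, ∑ z : F, f x z ^ 2) * (∑ y : F, ∑ w : F, k y w ^ 2) := by
  have h1 : ∑ x : F, ∑ y : F, ∑ z : F, f x z * k y (z - y * x) =
      ∑ y : F, ∑ w : F, k y w * ∑ x : F, f x (w + y * x) := by
    rw [Finset.sum_comm]
    refine Finset.sum_congr rfl fun y _ => ?_
    simp_rw [Finset.mul_sum]
    rw [Finset.sum_comm]
    conv_rhs => rw [Finset.sum_comm]
    rw [Finset.sum_comm]
    refine Finset.sum_congr rfl fun x _ => ?_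
    rw [← sum_shift (fun z => f x z * k y (z - y * x)) (y * x)]
    refine Finset.sum_congr rfl fun w _ => ?_
    rw [add_sub_cancel_right, mul_comm]
  rw [h1]
  have h2 := Finset.sum_mul_sq_le_sq_mul_sq (Finset.univ : Finset (F × F))
    (fun q => k q.1 q.2) (fun q => ∑ x : F, f x (q.2 + q.1 * x))
  rw [Fintype.sum_prod_type, Fintype.sum_prod_type, Fintype.sum_prod_type] at h2
  refine h2.trans ?_
  have h3 := plane_lines f hf
  have h4 : 0 ≤ ∑ y : F, ∑ w : F, k y w ^ 2 :=
    Finset.sum_nonneg fun y _ => Finset.sum_nonneg fun w _ => sq_nonneg _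
  calc (∑ y : F, ∑ w : F, k y w ^ 2) * ∑ y : F, ∑ w : F, (∑ x : F, f x (w + y * x)) ^ 2
      ≤ (∑ y : F, ∑ w : F, k y w ^ 2) * ((Fintype.card F : ℝ) * ∑ x : F, ∑ z : F, f x z ^ 2) :=
        mul_le_mul_of_nonneg_left h3 h4
    _ = _ := by ring

end Plane

/-! ### Symmetry of mixing -/

section Symm

variable {I : Type*} [DecidableEq I] {G : Type*} [Group G]

open Classical in
theorem mix_symm [Fintype G] (P : I → Subgroup G) (J₀ : Finset I) (a b : I) (lam : ℝ)
    (h : Mix P J₀ a b lam) : Mix P J₀ b a lam := by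
  intro φ ψ hφ hψ h0
  set S := Finset.univ.filter (fun g : G => g ∈ PJ P J₀) with hS
  have hne : (S.card : ℝ) ≠ 0 := by
    have : (1 : G) ∈ S := by simp [hS, (PJ P J₀).one_mem]
    exact_mod_cast (Finset.card_pos.2 ⟨1, this⟩).ne'
  set m : ℝ := (∑ g ∈ S, ψ g) / S.card with hm
  have hmm : (S.card : ℝ) * m = ∑ g ∈ S, ψ g := by rw [hm]; field_simp
  have h1 := h (fun g => ψ g - m) φ (fun g hg k hk => by simp only [hψ g hg k hk]) hφ ?_
  · have h2 : ∑ g ∈ S, (ψ g - m) * φ g = ∑ g ∈ S, φ g * ψ g := by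
      have : ∑ g ∈ S, (ψ g - m) * φ g = ∑ g ∈ S, φ g * ψ g - m * ∑ g ∈ S, φ g := by
        rw [Finset.mul_sum, ← Finset.sum_sub_distrib]
        exact Finset.sum_congr rfl fun g _ => by ring
      rw [this, h0, mul_zero, sub_zero]
    have h3 : ∑ g ∈ S, (ψ g - m) ^ 2 ≤ ∑ g ∈ S, ψ g ^ 2 := by
      have : ∑ g ∈ S, (ψ g - m) ^ 2 = ∑ g ∈ S, ψ g ^ 2 - S.card * m ^ 2 := by
        have e : ∀ g ∈ S, (ψ g - m) ^ 2 = ψ g ^ 2 - 2 * m * ψ g + m ^ 2 := fun g _ => by ring
        rw [Finset.sum_congr rfl e, Finset.sum_add_distrib, Finset.sum_sub_distrib,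
          ← Finset.mul_sum, ← hmm, Finset.sum_const, nsmul_eq_mul]
        ring
      rw [this]
      have : 0 ≤ (S.card : ℝ) * m ^ 2 := by positivity
      linarith
    rw [h2] at h1
    refine h1.trans ?_
    have h4 : 0 ≤ ∑ g ∈ S, φ g ^ 2 := Finset.sum_nonneg fun g _ => sq_nonneg _
    have h5 : 0 ≤ lam ^ 2 := sq_nonneg _
    calc lam ^ 2 * (∑ g ∈ S, (ψ g - m) ^ 2) * ∑ g ∈ S, φ g ^ 2
        ≤ lam ^ 2 * (∑ g ∈ S, ψ g ^ 2) * ∑ g ∈ S, φ g ^ 2 := by gcongr
      _ = lam ^ 2 * (∑ g ∈ S, φ g ^ 2) * ∑ g ∈ S, ψ g ^ 2 := by ring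
  · rw [Finset.sum_sub_distrib, Finset.sum_const, nsmul_eq_mul, hmm, sub_self]

end Symm

/-! ### Matrices -/

section Mats

open Matrix

variable {n p : ℕ}

/-- Constructor for elements of `U n p`. -/
def mkU (M : Matrix (Fin n) (Fin n) (ZMod p)) (h1 : ∀ i, M i i = 1) (h2 : ∀ i j, i < j → M i j = 0) :
    U n p :=
  ⟨⟨M, by
    rw [Matrix.det_of_isLowerTriangular M (fun i j h => h2 i j (OrderDual.toDual_lt_toDual.mp h))]
    simp [h1]⟩, h1, h2⟩


theorem U_ext {g h : U n p} (H : g.1.1 = h.1.1) : g = h := Subtype.ext (Subtype.ext H)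

theorem U_mul_coe (g h : U n p) : (g * h).1.1 = g.1.1 * h.1.1 := rfl

theorem mem_PJ_Bsub (J : Finset (Fin n)) (g : U n p) :
    g ∈ PJ (Bsub n p) J ↔ ∀ c ∈ J, ∀ i j : Fin n, j < c → c ≤ i → g.1.1 i j = 0 := by
  unfold PJ
  simp only [Subgroup.mem_iInf]
  rfl

/-- The matrix with entries `x` at `(a,a')`, `y` at `(b,b')`, `z` at `(b,a')`. -/
def EM (a' a b' b : Fin n) (x y z : ZMod p) : Matrix (Fin n) (Fin n) (ZMod p) :=
  1 + single a a' x + single b b' y + single b a' z

theorem EM_apply (a' a b' b : Fin n) (x y z : ZMod p) (i j : Fin n) :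
    EM a' a b' b x y z i j = (if i = j then 1 else 0) + (if a = i ∧ a' = j then x else 0) +
      (if b = i ∧ b' = j then y else 0) + (if b = i ∧ a' = j then z else 0) := by
  simp [EM, Matrix.one_apply, Matrix.single_apply]

/-- Heisenberg multiplication. -/
theorem EM_mul_adj {a' a b : Fin n} (h1 : a' < a) (h2 : a < b) (x y z x' y' z' : ZMod p) :
    EM a' a a b x y z * EM a' a a b x' y' z' =
      EM a' a a b (x + x') (y + y') (z + z' + y * x') := by
  have e1 : a ≠ a' := h1.ne'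
  have e1' : a' ≠ a := h1.ne
  have e2 : b ≠ a := h2.ne'
  have e2' : a ≠ b := h2.ne
  have e3 : b ≠ a' := (h1.trans h2).ne'
  have e3' : a' ≠ b := (h1.trans h2).ne
  unfold EM
  simp only [add_mul, mul_add, one_mul, mul_one, single_mul_single_same,
    single_mul_single_of_ne _ _ _ _ e1', single_mul_single_of_ne _ _ _ _ e1,
    single_mul_single_of_ne _ _ _ _ e2', single_mul_single_of_ne _ _ _ _ e3',
    single_mul_single_of_ne _ _ _ _ e2, single_mul_single_of_ne _ _ _ _ e3, add_zero, zero_add,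
    single_add]
  abel

/-- Commuting case. -/
theorem EM_mul_far {a' a b' b : Fin n} (h1 : a' < a) (h2 : a < b') (h3 : b' < b)
    (x y x' y' : ZMod p) :
    EM a' a b' b x y 0 * EM a' a b' b x' y' 0 = EM a' a b' b (x + x') (y + y') 0 := by
  have e1' : a' ≠ a := h1.ne
  have e2 : b' ≠ a := h2.ne'
  have e3 : b' ≠ b := h3.ne
  have e4 : a' ≠ b := (h1.trans (h2.trans h3)).ne
  unfold EM
  simp only [add_mul, mul_add, one_mul, mul_one,
    single_mul_single_of_ne _ _ _ _ e1', single_mul_single_of_ne _ _ _ _ e2,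
    single_mul_single_of_ne _ _ _ _ e3, single_mul_single_of_ne _ _ _ _ e4, add_zero, zero_add,
    single_add, single_zero]
  abel

theorem EM_diag {a' a b' b : Fin n} (h1 : a' < a) (h2 : a' < b) (h3 : b' < b) (x y z : ZMod p)
    (i : Fin n) : EM a' a b' b x y z i i = 1 := by
  rw [EM_apply, if_pos rfl, if_neg, if_neg, if_neg]
  · simp
  · rintro ⟨rfl, h⟩; exact h2.ne h
  · rintro ⟨rfl, h⟩; exact h3.ne h
  · rintro ⟨rfl, h⟩; exact h1.ne h

theorem EM_upper {a' a b' b : Fin n} (h1 : a' < a) (h2 : a' < b) (h3 : b' < b) (x y z : ZMod p)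
    (i j : Fin n) (h : i < j) : EM a' a b' b x y z i j = 0 := by
  rw [EM_apply, if_neg h.ne, if_neg, if_neg, if_neg]
  · simp
  · rintro ⟨rfl, rfl⟩; exact absurd h2 (not_lt.2 h.le)
  · rintro ⟨rfl, rfl⟩; exact absurd h3 (not_lt.2 h.le)
  · rintro ⟨rfl, rfl⟩; exact absurd h1 (not_lt.2 h.le)

theorem EM_zero {a' a b' b : Fin n} (x y z : ZMod p)
    (i j : Fin n) (h : i ≠ j) (hx : a = i → a' = j → x = 0) (hy : b = i → b' = j → y = 0)
    (hz : b = i → a' = j → z = 0) : EM a' a b' b x y z i j = 0 := by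
  rw [EM_apply, if_neg h]
  have e1 : (if a = i ∧ a' = j then x else 0) = 0 := by
    split_ifs with h'
    · exact hx h'.1 h'.2
    · rfl
  have e2 : (if b = i ∧ b' = j then y else 0) = 0 := by
    split_ifs with h'
    · exact hy h'.1 h'.2
    · rfl
  have e3 : (if b = i ∧ a' = j then z else 0) = 0 := by
    split_ifs with h'
    · exact hz h'.1 h'.2
    · rfl
  rw [e1, e2, e3]; simp

/-- The adjacent case. -/
theorem mix_adj (hp : p.Prime) [Fintype (U n p)] (J₀ : Finset (Fin n))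
    {a' a b : Fin n} (h1 : a'.val + 1 = a.val) (h2 : a.val + 1 = b.val) (ha : a ∉ J₀) (hb : b ∉ J₀)
    (hJ : ∀ c, c ≠ a → c ≠ b → c ∈ J₀) : Mix (Bsub n p) J₀ a b (1 / Real.sqrt p) := by
  classical
  have : Fact p.Prime := ⟨hp⟩
  have l1 : a' < a := by rw [Fin.lt_def]; omega
  have l2 : a < b := by rw [Fin.lt_def]; omega
  have l3 : a' < b := l1.trans l2
  let E : ZMod p → ZMod p → ZMod p → U n p := fun x y z =>
    mkU (EM a' a a b x y z) (EM_diag l1 l3 l2 x y z) (EM_upper l1 l3 l2 x y z)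
  have hE : ∀ x y z, (E x y z).1.1 = EM a' a a b x y z := fun x y z => rfl
  have hmul : ∀ x y z x' y' z', E x y z * E x' y' z' = E (x + x') (y + y') (z + z' + y * x') := by
    intro x y z x' y' z'
    apply U_ext
    rw [U_mul_coe, hE, hE, hE, EM_mul_adj l1 l2]
  -- membership
  have hmem : ∀ x y z, E x y z ∈ PJ (Bsub n p) J₀ := by
    intro x y z
    rw [mem_PJ_Bsub]
    intro c hc i j hj hi
    have hca : c ≠ a := fun h => ha (h ▸ hc)
    have hcb : c ≠ b := fun h => hb (h ▸ hc)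
    rw [hE]
    rw [Fin.lt_def] at hj
    rw [Fin.le_def] at hi
    have hca' : c.val ≠ a.val := fun h => hca (Fin.ext h)
    have hcb' : c.val ≠ b.val := fun h => hcb (Fin.ext h)
    refine EM_zero x y z i j (fun h => ?_) ?_ ?_ ?_
    · subst h; omega
    · rintro rfl rfl; omega
    · rintro rfl rfl; omega
    · rintro rfl rfl; omega
  have hmema : ∀ y, E 0 y 0 ∈ PJ (Bsub n p) (insert a J₀) := by
    intro y
    rw [mem_PJ_Bsub]
    intro c hc i j hj hi
    rcases Finset.mem_insert.1 hc with rfl | hc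
    · rw [hE]
      rw [Fin.lt_def] at hj
      rw [Fin.le_def] at hi
      refine EM_zero 0 y 0 i j (fun h => ?_) (fun _ _ => rfl) ?_ (fun _ _ => rfl)
      · subst h; omega
      · rintro rfl rfl; omega
    · exact (mem_PJ_Bsub J₀ _).1 (hmem 0 y 0) c hc i j hj hi
  have hmemb : ∀ x, E x 0 0 ∈ PJ (Bsub n p) (insert b J₀) := by
    intro x
    rw [mem_PJ_Bsub]
    intro c hc i j hj hi
    rcases Finset.mem_insert.1 hc with rfl | hc
    · rw [hE]
      rw [Fin.lt_def] at hj
      rw [Fin.le_def] at hi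
      refine EM_zero x 0 0 i j (fun h => ?_) ?_ (fun _ _ => rfl) (fun _ _ => rfl)
      · subst h; omega
      · rintro rfl rfl; omega
    · exact (mem_PJ_Bsub J₀ _).1 (hmem x 0 0) c hc i j hj hi
  -- surjectivity
  have hsurj : ∀ g ∈ PJ (Bsub n p) J₀, E (g.1.1 a a') (g.1.1 b a) (g.1.1 b a') = g := by
    intro g hg
    rw [mem_PJ_Bsub] at hg
    apply U_ext
    rw [hE]
    ext i j
    rcases lt_trichotomy i j with h | h | h
    · rw [EM_upper l1 l3 l2 _ _ _ i j h, g.2.2 i j h]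
    · subst h
      rw [EM_diag l1 l3 l2, g.2.1]
    · by_cases c1 : i = a ∧ j = a'
      · obtain ⟨rfl, rfl⟩ := c1
        rw [EM_apply, if_neg h.ne', if_pos ⟨rfl, rfl⟩, if_neg, if_neg]
        · simp
        · rintro ⟨h', -⟩; exact l2.ne' h'
        · rintro ⟨h', -⟩; exact l2.ne' h'
      · by_cases c2 : i = b ∧ j = a
        · obtain ⟨rfl, rfl⟩ := c2
          rw [EM_apply, if_neg h.ne', if_neg, if_pos ⟨rfl, rfl⟩, if_neg]
          · simp
          · rintro ⟨-, h'⟩; exact l1.ne h'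
          · rintro ⟨h', -⟩; exact l2.ne h'
        · by_cases c3 : i = b ∧ j = a'
          · obtain ⟨rfl, rfl⟩ := c3
            rw [EM_apply, if_neg h.ne', if_neg, if_neg, if_pos ⟨rfl, rfl⟩]
            · simp
            · rintro ⟨-, h'⟩; exact l1.ne' h'
            · rintro ⟨h', -⟩; exact l2.ne h'
          · rw [EM_zero _ _ _ i j h.ne']
            · -- some cut in `J₀` separates
              symm
              rw [Fin.lt_def] at h
              by_cases hi : i = a
              · -- j < a - 1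
                have hj : j.val + 1 < a.val := by
                  by_contra hcon
                  exact c1 ⟨hi, Fin.ext (by rw [hi] at h; omega)⟩
                refine hg ⟨j.val + 1, by omega⟩ (hJ _ ?_ ?_) i j ?_ ?_
                · intro h'; rw [Fin.ext_iff] at h'; simp at h'; omega
                · intro h'; rw [Fin.ext_iff] at h'; simp at h'; omega
                · rw [Fin.lt_def]; simp
                · rw [Fin.le_def]; simp; omega
              · by_cases hib : i = b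
                · have hj1 : j.val ≠ a.val := fun h' => c2 ⟨hib, Fin.ext h'⟩
                  have hj2 : j.val ≠ a'.val := fun h' => c3 ⟨hib, Fin.ext h'⟩
                  rw [hib] at h
                  refine hg ⟨j.val + 1, by omega⟩ (hJ _ ?_ ?_) i j ?_ ?_
                  · intro h'; rw [Fin.ext_iff] at h'; simp at h'; omega
                  · intro h'; rw [Fin.ext_iff] at h'; simp at h'; omega
                  · rw [Fin.lt_def]; simp
                  · rw [Fin.le_def]; simp; rw [hib]; omega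
                · exact hg i (hJ i hi hib) i j (by rw [Fin.lt_def]; exact h) le_rfl
            · intro h3 h4; exact absurd ⟨h3.symm, h4.symm⟩ c1
            · intro h3 h4; exact absurd ⟨h3.symm, h4.symm⟩ c2
            · intro h3 h4; exact absurd ⟨h3.symm, h4.symm⟩ c3
  -- coordinates of `E`
  have hx : ∀ x y z, (E x y z).1.1 a a' = x := by
    intro x y z
    rw [hE, EM_apply, if_neg l1.ne', if_pos ⟨rfl, rfl⟩, if_neg, if_neg]
    · simp
    · rintro ⟨h', -⟩; exact l2.ne' h'
    · rintro ⟨h', -⟩; exact l2.ne' h'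
  have hy : ∀ x y z, (E x y z).1.1 b a = y := by
    intro x y z
    rw [hE, EM_apply, if_neg l2.ne', if_neg, if_pos ⟨rfl, rfl⟩, if_neg]
    · simp
    · rintro ⟨-, h'⟩; exact l1.ne h'
    · rintro ⟨h', -⟩; exact l2.ne h'
  have hz : ∀ x y z, (E x y z).1.1 b a' = z := by
    intro x y z
    rw [hE, EM_apply, if_neg l3.ne', if_neg, if_neg, if_pos ⟨rfl, rfl⟩]
    · simp
    · rintro ⟨-, h'⟩; exact l1.ne' h'
    · rintro ⟨h', -⟩; exact l2.ne h'
  -- sums over the group
  have hsum : ∀ F : U n p → ℝ, ∑ g ∈ Finset.univ.filter (fun g : U n p => g ∈ PJ (Bsub n p) J₀), F g =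
      ∑ x : ZMod p, ∑ y : ZMod p, ∑ z : ZMod p, F (E x y z) := by
    intro F
    have e : ∑ x : ZMod p, ∑ y : ZMod p, ∑ z : ZMod p, F (E x y z) =
        ∑ q : ZMod p × ZMod p × ZMod p, F (E q.1 q.2.1 q.2.2) := by
      rw [Fintype.sum_prod_type]
      exact Finset.sum_congr rfl fun x _ => by rw [Fintype.sum_prod_type]
    rw [e]
    refine Finset.sum_nbij' (fun g => (g.1.1 a a', g.1.1 b a, g.1.1 b a'))
      (fun q => E q.1 q.2.1 q.2.2) ?_ ?_ ?_ ?_ ?_
    · intro g _; exact Finset.mem_univ _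
    · intro q _
      rw [Finset.mem_filter]
      exact ⟨Finset.mem_univ _, hmem _ _ _⟩
    · intro g hg
      exact hsurj g (Finset.mem_filter.1 hg).2
    · rintro ⟨x, y, z⟩ _
      simp only [hx, hy, hz]
    · intro g hg
      simp only
      rw [hsurj g (Finset.mem_filter.1 hg).2]
  intro φ ψ hφ hψ hs
  have hpc : Fintype.card (ZMod p) = p := ZMod.card p
  have hp0 : (0 : ℝ) < p := by exact_mod_cast hp.pos
  have f1 : ∀ x y z, φ (E x y z) = φ (E x 0 z) := by
    intro x y z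
    have := hφ (E x 0 z) (hmem _ _ _) (E 0 y 0) (hmema y)
    rw [hmul] at this
    simpa using this
  have f2 : ∀ x y z, ψ (E x y z) = ψ (E 0 y (z - y * x)) := by
    intro x y z
    have := hψ (E 0 y (z - y * x)) (hmem _ _ _) (E x 0 0) (hmemb x)
    rw [hmul] at this
    simpa using this
  rw [hsum] at hs
  rw [hsum, hsum, hsum]
  have g1 : ∑ x : ZMod p, ∑ z : ZMod p, φ (E x 0 z) = 0 := by
    have : ∑ x : ZMod p, ∑ y : ZMod p, ∑ z : ZMod p, φ (E x y z) =
        (p : ℝ) * ∑ x : ZMod p, ∑ z : ZMod p, φ (E x 0 z) := by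
      rw [Finset.mul_sum]
      refine Finset.sum_congr rfl fun x _ => ?_
      rw [Finset.sum_congr rfl (fun y _ => Finset.sum_congr rfl (fun z _ => f1 x y z)),
        Finset.sum_const, Finset.card_univ, hpc, nsmul_eq_mul]
    rw [this] at hs
    exact (mul_eq_zero.1 hs).resolve_left hp0.ne'
  have g2 : ∑ x : ZMod p, ∑ y : ZMod p, ∑ z : ZMod p, φ (E x y z) ^ 2 =
      (p : ℝ) * ∑ x : ZMod p, ∑ z : ZMod p, φ (E x 0 z) ^ 2 := by
    rw [Finset.mul_sum]
    refine Finset.sum_congr rfl fun x _ => ?_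
    rw [Finset.sum_congr rfl (fun y _ => Finset.sum_congr rfl (fun z _ => by rw [f1 x y z])),
      Finset.sum_const, Finset.card_univ, hpc, nsmul_eq_mul]
  have g3 : ∑ x : ZMod p, ∑ y : ZMod p, ∑ z : ZMod p, ψ (E x y z) ^ 2 =
      (p : ℝ) * ∑ y : ZMod p, ∑ w : ZMod p, ψ (E 0 y w) ^ 2 := by
    have : ∀ x : ZMod p, ∑ y : ZMod p, ∑ z : ZMod p, ψ (E x y z) ^ 2 =
        ∑ y : ZMod p, ∑ w : ZMod p, ψ (E 0 y w) ^ 2 := by
      intro x
      refine Finset.sum_congr rfl fun y _ => ?_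
      rw [← sum_shift (fun w => ψ (E 0 y w) ^ 2) (-(y * x))]
      refine Finset.sum_congr rfl fun z _ => ?_
      rw [f2 x y z, sub_eq_add_neg]
    rw [Finset.sum_congr rfl (fun x _ => this x), Finset.sum_const, Finset.card_univ, hpc,
      nsmul_eq_mul]
  have g4 : ∑ x : ZMod p, ∑ y : ZMod p, ∑ z : ZMod p, φ (E x y z) * ψ (E x y z) =
      ∑ x : ZMod p, ∑ y : ZMod p, ∑ z : ZMod p, φ (E x 0 z) * ψ (E 0 y (z - y * x)) := by
    refine Finset.sum_congr rfl fun x _ => Finset.sum_congr rfl fun y _ =>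
      Finset.sum_congr rfl fun z _ => ?_
    rw [f1 x y z, f2 x y z]
  rw [g2, g3, g4]
  have h3 := plane_bound (fun x z => φ (E x 0 z)) (fun y w => ψ (E 0 y w)) g1
  rw [hpc] at h3
  refine h3.trans (le_of_eq ?_)
  rw [div_pow, one_pow, Real.sq_sqrt hp0.le]
  field_simp

/-- The commuting case. -/
theorem mix_far (hp : p.Prime) [Fintype (U n p)] (J₀ : Finset (Fin n))
    {a' a b' b : Fin n} (h1 : a'.val + 1 = a.val) (h2 : a.val < b'.val) (h3 : b'.val + 1 = b.val)
    (ha : a ∉ J₀) (hb : b ∉ J₀)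
    (hJ : ∀ c, c ≠ a → c ≠ b → c ∈ J₀) : Mix (Bsub n p) J₀ a b (1 / Real.sqrt p) := by
  classical
  have : Fact p.Prime := ⟨hp⟩
  have l1 : a' < a := by rw [Fin.lt_def]; omega
  have l2 : a < b' := by rw [Fin.lt_def]; omega
  have l3 : b' < b := by rw [Fin.lt_def]; omega
  have l4 : a' < b := l1.trans (l2.trans l3)
  let E : ZMod p → ZMod p → U n p := fun x y =>
    mkU (EM a' a b' b x y 0) (EM_diag l1 l4 l3 x y 0) (EM_upper l1 l4 l3 x y 0)
  have hE : ∀ x y, (E x y).1.1 = EM a' a b' b x y 0 := fun x y => rfl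
  have hmul : ∀ x y x' y', E x y * E x' y' = E (x + x') (y + y') := by
    intro x y x' y'
    apply U_ext
    rw [U_mul_coe, hE, hE, hE, EM_mul_far l1 l2 l3]
  -- membership
  have hmem : ∀ x y, E x y ∈ PJ (Bsub n p) J₀ := by
    intro x y
    rw [mem_PJ_Bsub]
    intro c hc i j hj hi
    have hca : c ≠ a := fun h => ha (h ▸ hc)
    have hcb : c ≠ b := fun h => hb (h ▸ hc)
    rw [hE]
    rw [Fin.lt_def] at hj
    rw [Fin.le_def] at hi
    have hca' : c.val ≠ a.val := fun h => hca (Fin.ext h)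
    have hcb' : c.val ≠ b.val := fun h => hcb (Fin.ext h)
    refine EM_zero x y 0 i j (fun h => ?_) ?_ ?_ (fun _ _ => rfl)
    · subst h; omega
    · rintro rfl rfl; omega
    · rintro rfl rfl; omega
  have hmema : ∀ y, E 0 y ∈ PJ (Bsub n p) (insert a J₀) := by
    intro y
    rw [mem_PJ_Bsub]
    intro c hc i j hj hi
    rcases Finset.mem_insert.1 hc with rfl | hc
    · rw [hE]
      rw [Fin.lt_def] at hj
      rw [Fin.le_def] at hi
      refine EM_zero 0 y 0 i j (fun h => ?_) (fun _ _ => rfl) ?_ (fun _ _ => rfl)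
      · subst h; omega
      · rintro rfl rfl; omega
    · exact (mem_PJ_Bsub J₀ _).1 (hmem 0 y) c hc i j hj hi
  have hmemb : ∀ x, E x 0 ∈ PJ (Bsub n p) (insert b J₀) := by
    intro x
    rw [mem_PJ_Bsub]
    intro c hc i j hj hi
    rcases Finset.mem_insert.1 hc with rfl | hc
    · rw [hE]
      rw [Fin.lt_def] at hj
      rw [Fin.le_def] at hi
      refine EM_zero x 0 0 i j (fun h => ?_) ?_ (fun _ _ => rfl) (fun _ _ => rfl)
      · subst h; omega
      · rintro rfl rfl; omega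
    · exact (mem_PJ_Bsub J₀ _).1 (hmem x 0) c hc i j hj hi
  -- surjectivity
  have hsurj : ∀ g ∈ PJ (Bsub n p) J₀, E (g.1.1 a a') (g.1.1 b b') = g := by
    intro g hg
    rw [mem_PJ_Bsub] at hg
    apply U_ext
    rw [hE]
    ext i j
    rcases lt_trichotomy i j with h | h | h
    · rw [EM_upper l1 l4 l3 _ _ _ i j h, g.2.2 i j h]
    · subst h
      rw [EM_diag l1 l4 l3, g.2.1]
    · by_cases c1 : i = a ∧ j = a'
      · obtain ⟨rfl, rfl⟩ := c1
        rw [EM_apply, if_neg h.ne', if_pos ⟨rfl, rfl⟩, if_neg]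
        · simp
        · rintro ⟨h', -⟩; exact (l2.trans l3).ne' h'
      · by_cases c2 : i = b ∧ j = b'
        · obtain ⟨rfl, rfl⟩ := c2
          rw [EM_apply, if_neg h.ne', if_neg, if_pos ⟨rfl, rfl⟩]
          · simp
          · rintro ⟨h', -⟩; exact (l2.trans l3).ne h'
        · rw [EM_zero _ _ _ i j h.ne']
          · -- some cut in `J₀` separates
            symm
            rw [Fin.lt_def] at h
            by_cases hi : i = a
            · -- j < a - 1
              have hj : j.val + 1 < a.val := by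
                by_contra hcon
                exact c1 ⟨hi, Fin.ext (by rw [hi] at h; omega)⟩
              refine hg ⟨j.val + 1, by omega⟩ (hJ _ ?_ ?_) i j ?_ ?_
              · intro h'; rw [Fin.ext_iff] at h'; simp at h'; omega
              · intro h'; rw [Fin.ext_iff] at h'; simp at h'; omega
              · rw [Fin.lt_def]; simp
              · rw [Fin.le_def]; simp; omega
            · by_cases hib : i = b
              · have hj1 : j.val ≠ b'.val := fun h' => c2 ⟨hib, Fin.ext h'⟩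
                rw [hib] at h
                -- the cut in front of `b'`
                refine hg b' (hJ _ l2.ne' l3.ne) i j ?_ ?_
                · rw [Fin.lt_def]; omega
                · rw [Fin.le_def, hib]; omega
              · exact hg i (hJ i hi hib) i j (by rw [Fin.lt_def]; exact h) le_rfl
          · intro h3 h4; exact absurd ⟨h3.symm, h4.symm⟩ c1
          · intro h3 h4; exact absurd ⟨h3.symm, h4.symm⟩ c2
          · intro _ _; rfl
  -- coordinates of `E`
  have hx : ∀ x y, (E x y).1.1 a a' = x := by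
    intro x y
    rw [hE, EM_apply, if_neg l1.ne', if_pos ⟨rfl, rfl⟩, if_neg]
    · simp
    · rintro ⟨h', -⟩; exact (l2.trans l3).ne' h'
  have hy : ∀ x y, (E x y).1.1 b b' = y := by
    intro x y
    rw [hE, EM_apply, if_neg l3.ne', if_neg, if_pos ⟨rfl, rfl⟩]
    · simp
    · rintro ⟨h', -⟩; exact (l2.trans l3).ne h'
  -- sums over the group
  have hsum : ∀ F : U n p → ℝ, ∑ g ∈ Finset.univ.filter (fun g : U n p => g ∈ PJ (Bsub n p) J₀), F g =
      ∑ x : ZMod p, ∑ y : ZMod p, F (E x y) := by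
    intro F
    rw [← Fintype.sum_prod_type' (f := fun x y => F (E x y))]
    refine Finset.sum_nbij' (fun g => (g.1.1 a a', g.1.1 b b'))
      (fun q => E q.1 q.2) ?_ ?_ ?_ ?_ ?_
    · intro g _; exact Finset.mem_univ _
    · intro q _
      rw [Finset.mem_filter]
      exact ⟨Finset.mem_univ _, hmem _ _⟩
    · intro g hg
      exact hsurj g (Finset.mem_filter.1 hg).2
    · rintro ⟨x, y⟩ _
      simp only [hx, hy]
    · intro g hg
      simp only
      rw [hsurj g (Finset.mem_filter.1 hg).2]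
  intro φ ψ hφ hψ hs
  have hpc : Fintype.card (ZMod p) = p := ZMod.card p
  have hp0 : (0 : ℝ) < p := by exact_mod_cast hp.pos
  have f1 : ∀ x y, φ (E x y) = φ (E x 0) := by
    intro x y
    have := hφ (E x 0) (hmem _ _) (E 0 y) (hmema y)
    rw [hmul] at this
    simpa using this
  have f2 : ∀ x y, ψ (E x y) = ψ (E 0 y) := by
    intro x y
    have := hψ (E 0 y) (hmem _ _) (E x 0) (hmemb x)
    rw [hmul] at this
    simpa using this
  rw [hsum] at hs
  have g1 : ∑ x : ZMod p, φ (E x 0) = 0 := by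
    have : ∑ x : ZMod p, ∑ y : ZMod p, φ (E x y) = (p : ℝ) * ∑ x : ZMod p, φ (E x 0) := by
      rw [Finset.mul_sum]
      refine Finset.sum_congr rfl fun x _ => ?_
      rw [Finset.sum_congr rfl (fun y _ => f1 x y),
        Finset.sum_const, Finset.card_univ, hpc, nsmul_eq_mul]
    rw [this] at hs
    exact (mul_eq_zero.1 hs).resolve_left hp0.ne'
  have g4 : ∑ g ∈ Finset.univ.filter (fun g : U n p => g ∈ PJ (Bsub n p) J₀), φ g * ψ g = 0 := by
    rw [hsum]
    have : ∑ x : ZMod p, ∑ y : ZMod p, φ (E x y) * ψ (E x y) =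
        (∑ x : ZMod p, φ (E x 0)) * ∑ y : ZMod p, ψ (E 0 y) := by
      rw [Finset.sum_mul_sum]
      refine Finset.sum_congr rfl fun x _ => Finset.sum_congr rfl fun y _ => ?_
      rw [f1 x y, f2 x y]
    rw [this, g1, zero_mul]
  rw [g4]
  have h4 : 0 ≤ ∑ g ∈ Finset.univ.filter (fun g : U n p => g ∈ PJ (Bsub n p) J₀), φ g ^ 2 :=
    Finset.sum_nonneg fun g _ => sq_nonneg _
  have h5 : 0 ≤ ∑ g ∈ Finset.univ.filter (fun g : U n p => g ∈ PJ (Bsub n p) J₀), ψ g ^ 2 :=
    Finset.sum_nonneg fun g _ => sq_nonneg _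
  have h6 : 0 ≤ (1 / Real.sqrt p) ^ 2 := sq_nonneg _
  have : (0 : ℝ) ^ 2 = 0 := by norm_num
  rw [this]
  exact mul_nonneg (mul_nonneg h6 h4) h5

end Mats

end UnipMixAux

open UnipMixAux in
theorem unip_mix (n p : ℕ) [NeZero n] (hp : p.Prime) [Fintype (U n p)] (J₀ : Finset (Fin n))
    (h0 : (0 : Fin n) ∈ J₀) (hcard : J₀.card + 2 = n) (a b : Fin n) (ha : a ∉ J₀) (hb : b ∉ J₀)
    (hab : a ≠ b) : Mix (Bsub n p) J₀ a b (1 / Real.sqrt p) := by
  have hJ : ∀ c, c ≠ a → c ≠ b → c ∈ J₀ := by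
    have h1 : (insert a (insert b J₀)).card = n := by
      rw [Finset.card_insert_of_notMem, Finset.card_insert_of_notMem hb]
      · omega
      · rw [Finset.mem_insert]
        rintro (h | h)
        · exact hab h
        · exact ha h
    have h2 : insert a (insert b J₀) = Finset.univ := by
      rw [← Finset.card_eq_iff_eq_univ, h1, Fintype.card_fin]
    intro c hca hcb
    have h3 : c ∈ insert a (insert b J₀) := by rw [h2]; exact Finset.mem_univ c
    rw [Finset.mem_insert, Finset.mem_insert] at h3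
    rcases h3 with h3 | h3 | h3
    · exact absurd h3 hca
    · exact absurd h3 hcb
    · exact h3
  have key : ∀ a b : Fin n, a ∉ J₀ → b ∉ J₀ → a < b → (∀ c, c ≠ a → c ≠ b → c ∈ J₀) →
      Mix (Bsub n p) J₀ a b (1 / Real.sqrt p) := by
    intro a b ha hb hlt hJ
    have ha0 : a.val ≠ 0 := by
      intro h
      apply ha
      have : a = 0 := Fin.ext (by rw [h]; simp)
      rw [this]; exact h0
    rw [Fin.lt_def] at hlt
    by_cases hadj : a.val + 1 = b.val
    · exact mix_adj hp J₀ (a' := ⟨a.val - 1, by omega⟩) (by simp; omega) hadj ha hb hJ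
    · exact mix_far hp J₀ (a' := ⟨a.val - 1, by omega⟩) (b' := ⟨b.val - 1, by omega⟩)
        (by simp; omega) (by simp; omega) (by simp; omega) ha hb hJ
  rcases lt_or_gt_of_ne hab with h | h
  · exact key a b ha hb h hJ
  · exact mix_symm _ _ _ _ _ (key b a hb ha h (fun c h1 h2 => hJ c h2 h1))

end Crest.Agent.R066
end

-- ▼ part R066/Transport

/-! Transport of link properties along `LocallyU` (task T7a). -/

set_option autoImplicit false
open scoped BigOperators

namespace Crest.Agent.R066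

namespace Transp

theorem mem_PJ {I : Type*} {G : Type*} [Group G] {P : I → Subgroup G} {J : Finset I} {g : G} :
    g ∈ PJ P J ↔ ∀ i ∈ J, g ∈ P i := by
  simp [PJ, Subgroup.mem_iInf]

section general

variable {I I' : Type} [DecidableEq I] [DecidableEq I'] {G G' : Type} [Group G] [Group G']
  (P : I → Subgroup G) (P' : I' → Subgroup G') (J₀ : Finset I) (J₀' : Finset I')
  (e : I' ≃ I) (φ : G' →* G)

/-- the transport hypothesis -/
structure Iso : Prop where
  inj : Function.Injective φ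
  img : J₀'.image e = J₀
  mem : ∀ (J' : Finset I') (x : G),
    x ∈ PJ P (J'.image e ∪ J₀) ↔ ∃ u ∈ PJ P' (J' ∪ J₀'), φ u = x

variable {P P' J₀ J₀' e φ} (T : Iso P P' J₀ J₀' e φ)

include T

theorem Iso.mem0 (x : G) : x ∈ PJ P J₀ ↔ ∃ u ∈ PJ P' J₀', φ u = x := by
  have := T.mem ∅ x
  simpa using this

theorem Iso.mem_u (J' : Finset I') (u : G') :
    φ u ∈ PJ P (J'.image e ∪ J₀) ↔ u ∈ PJ P' (J' ∪ J₀') := by
  rw [T.mem]
  constructor
  · rintro ⟨v, hv, h⟩
    rwa [← T.inj h]
  · intro h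
    exact ⟨u, h, rfl⟩

theorem Iso.mem_u0 (u : G') : φ u ∈ PJ P J₀ ↔ u ∈ PJ P' J₀' := by
  have := T.mem_u ∅ u
  simpa using this

theorem Iso.disj (J' : Finset I') : Disjoint (J'.image e) J₀ ↔ Disjoint J' J₀' := by
  rw [← T.img, Finset.disjoint_image e.injective]

theorem Iso.wt_eq [Fintype I] [Fintype I'] [Fintype G] [Fintype G'] (m : ℕ)
    (F : Finset I → G → ZMod 2) :
    wt P J₀ m F = wt P' J₀' m (fun J' u => F (J'.image e) (φ u)) := by
  classical
  unfold wt
  symm
  refine Finset.sum_nbij' (fun J' => J'.image e) (fun J => J.image e.symm) ?_ ?_ ?_ ?_ ?_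
  · intro J' hJ'
    simp only [Finset.mem_filter, Finset.mem_univ, true_and] at hJ' ⊢
    refine ⟨?_, ?_⟩
    · rw [Finset.card_image_of_injective _ e.injective]; exact hJ'.1
    · exact (T.disj J').2 hJ'.2
  · intro J hJ
    simp only [Finset.mem_filter, Finset.mem_univ, true_and] at hJ ⊢
    refine ⟨?_, ?_⟩
    · rw [Finset.card_image_of_injective _ e.symm.injective]; exact hJ.1
    · rw [← T.disj, Finset.image_image]; simpa using hJ.2
  · intro J' _
    simp [Finset.image_image]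
  · intro J _
    simp [Finset.image_image]
  · intro J' _
    have : (Finset.univ.filter (fun g : G => g ∈ PJ P J₀ ∧ F (J'.image e) g ≠ 0)) =
        (Finset.univ.filter (fun u : G' => u ∈ PJ P' J₀' ∧ F (J'.image e) (φ u) ≠ 0)).image φ := by
      ext g
      simp only [Finset.mem_filter, Finset.mem_univ, true_and, Finset.mem_image]
      constructor
      · rintro ⟨h1, h2⟩
        obtain ⟨u, hu, rfl⟩ := (T.mem0 g).1 h1
        exact ⟨u, ⟨hu, h2⟩, rfl⟩
      · rintro ⟨u, ⟨h1, h2⟩, rfl⟩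
        exact ⟨(T.mem_u0 u).2 h1, h2⟩
    rw [this, Finset.card_image_of_injective _ T.inj]

theorem Iso.linkExp [Fintype I] [Fintype I'] [Fintype G] [Fintype G'] (m : ℕ) (β : ℝ)
    (h : LinkExp P' J₀' m β) : LinkExp P J₀ m β := by
  classical
  intro f hf
  obtain ⟨b', hb', hle⟩ := h (fun J' u => f (J'.image e) (φ u)) (by
    intro J' hJ' hd g hg k hk
    show f (J'.image e) (φ (g * k)) = _
    rw [map_mul]
    exact hf _ (by rw [Finset.card_image_of_injective _ e.injective]; exact hJ')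
      ((T.disj J').2 hd) _ ((T.mem_u0 g).2 hg) _ ((T.mem_u J' k).2 hk))
  let b : Finset I → G → ZMod 2 := fun J g =>
    if hg : ∃ u, φ u = g then b' (J.image e.symm) hg.choose else 0
  have hb : ∀ J u, b J (φ u) = b' (J.image e.symm) u := by
    intro J u
    have hg : ∃ v, φ v = φ u := ⟨u, rfl⟩
    show (if hg : ∃ v, φ v = φ u then b' (J.image e.symm) hg.choose else 0) = _
    rw [dif_pos hg, T.inj hg.choose_spec]
  have hcob : ∀ J' u, cob b (J'.image e) (φ u) = cob b' J' u := by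
    intro J' u
    unfold cob
    rw [Finset.sum_image (fun x _ y _ h => e.injective h)]
    refine Finset.sum_congr rfl fun i _ => ?_
    rw [hb, ← Finset.image_erase e.injective, Finset.image_image]
    simp
  refine ⟨b, ?_, ?_⟩
  · intro J hJ hd g hg k hk
    obtain ⟨u, hu, rfl⟩ := (T.mem0 g).1 hg
    have hJe : J = (J.image e.symm).image e := by rw [Finset.image_image]; simp
    rw [hJe] at hk
    obtain ⟨v, hv, rfl⟩ := (T.mem _ k).1 hk
    rw [← map_mul, hb, hb]
    refine hb' _ ?_ ?_ u hu v hv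
    · rw [Finset.card_image_of_injective _ e.symm.injective]; exact hJ
    · rw [← T.disj, ← hJe]; exact hd
  · rw [T.wt_eq, T.wt_eq]
    have h1 : (fun J' u => (f + cob b) (Finset.image e J') (φ u)) =
        (fun J' u => f (J'.image e) (φ u)) + cob b' := by
      funext J' u
      show f (J'.image e) (φ u) + cob b (J'.image e) (φ u) = _
      rw [hcob]
      rfl
    have h2 : (fun J' u => cob f (Finset.image e J') (φ u)) =
        cob (fun J' u => f (J'.image e) (φ u)) := by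
      funext J' u
      unfold cob
      rw [Finset.sum_image (fun x _ y _ h => e.injective h)]
      refine Finset.sum_congr rfl fun i _ => ?_
      rw [← Finset.image_erase e.injective]
    rw [h1, h2]
    exact hle

theorem Iso.sum_eq [Fintype G] [Fintype G'] [DecidablePred (fun g : G => g ∈ PJ P J₀)]
    [DecidablePred (fun g : G' => g ∈ PJ P' J₀')] (ψ : G → ℝ) :
    ∑ g ∈ Finset.univ.filter (fun g : G => g ∈ PJ P J₀), ψ g =
      ∑ u ∈ Finset.univ.filter (fun g : G' => g ∈ PJ P' J₀'), ψ (φ u) := by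
  classical
  have : (Finset.univ.filter (fun g : G => g ∈ PJ P J₀)) =
        (Finset.univ.filter (fun u : G' => u ∈ PJ P' J₀')).image φ := by
    ext g
    simp only [Finset.mem_filter, Finset.mem_univ, true_and, Finset.mem_image]
    exact T.mem0 g
  rw [this, Finset.sum_image (fun x _ y _ h => T.inj h)]

theorem Iso.mem_u_insert (a' : I') (u : G') :
    φ u ∈ PJ P (insert (e a') J₀) ↔ u ∈ PJ P' (insert a' J₀') := by
  have := T.mem_u {a'} u
  rwa [Finset.image_singleton, ← Finset.insert_eq, ← Finset.insert_eq] at this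

theorem Iso.mix [Fintype G] [Fintype G'] (a' b' : I') (lam : ℝ)
    (h : Mix P' J₀' a' b' lam) : Mix P J₀ (e a') (e b') lam := by
  classical
  intro f g hf hg h0
  have := h (fun u => f (φ u)) (fun u => g (φ u)) (by
    intro u hu k hk
    show f (φ (u * k)) = _
    rw [map_mul]
    exact hf _ ((T.mem_u0 u).2 hu) _ ((T.mem_u_insert a' k).2 hk)) (by
    intro u hu k hk
    show g (φ (u * k)) = _
    rw [map_mul]
    exact hg _ ((T.mem_u0 u).2 hu) _ ((T.mem_u_insert b' k).2 hk)) (by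
    rw [← h0, T.sum_eq])
  rw [T.sum_eq (fun x => f x * g x), T.sum_eq (fun x => f x ^ 2), T.sum_eq (fun x => g x ^ 2)]
  convert this

end general

theorem iso_of_locallyU (n p : ℕ) [NeZero n] (G : Type) [Group G]
    (P : Fin n → Subgroup G) (hloc : LocallyU p P) (J₀ : Finset (Fin n)) (j : Fin n)
    (hj : j ∈ J₀) : ∃ φ : U n p →* G,
      Iso P (Bsub n p) J₀ (J₀.image (fun i => i - j)) (Equiv.addRight j) φ := by
  obtain ⟨φ, hinj, hrange, hmap⟩ := hloc j
  refine ⟨φ, hinj, ?_, ?_⟩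
  · rw [Finset.image_image]
    have : ((Equiv.addRight j : Fin n ≃ Fin n) ∘ fun i => i - j) = id := by
      funext i
      simp
    rw [this, Finset.image_id]
  · intro J' x
    have hx : ∀ x c, x ∈ (Bsub n p c).map φ ↔ x ∈ P j ∧ x ∈ P (j + c) := by
      intro x c
      rw [hmap c, Subgroup.mem_inf]
    constructor
    · intro h
      rw [mem_PJ] at h
      have hj' : x ∈ P j := h j (Finset.mem_union_right _ hj)
      have hr : x ∈ φ.range := by rw [hrange]; exact hj'
      obtain ⟨u, hu⟩ := hr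
      refine ⟨u, ?_, hu⟩
      rw [mem_PJ]
      intro c hc
      have h1 : x ∈ P (j + c) := by
        apply h
        rw [Finset.mem_union] at hc ⊢
        rcases hc with hc | hc
        · left
          rw [Finset.mem_image]
          exact ⟨c, hc, by simp [add_comm]⟩
        · right
          rw [Finset.mem_image] at hc
          obtain ⟨i, hi, rfl⟩ := hc
          simpa using hi
      obtain ⟨v, hv, hvx⟩ := Subgroup.mem_map.1 ((hx x c).2 ⟨hj', h1⟩)
      have : v = u := hinj (hvx.trans hu.symm)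
      rwa [← this]
    · rintro ⟨u, hu, rfl⟩
      rw [mem_PJ] at hu ⊢
      intro i hi
      have hc : i - j ∈ J' ∪ J₀.image (fun i => i - j) := by
        rw [Finset.mem_union] at hi ⊢
        rcases hi with hi | hi
        · left
          rw [Finset.mem_image] at hi
          obtain ⟨c, hc, rfl⟩ := hi
          simpa using hc
        · right
          exact Finset.mem_image_of_mem _ hi
      have h1 := ((hx (φ u) (i - j)).1 (Subgroup.mem_map_of_mem φ (hu _ hc))).2
      rwa [add_sub_cancel] at h1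

end Transp

theorem linkExp_transport (n p : ℕ) [NeZero n] [Fintype (U n p)] (G : Type) [Group G] [Fintype G]
    (P : Fin n → Subgroup G) (hloc : LocallyU p P) (β : ℝ) (J₀ : Finset (Fin n)) (j : Fin n) (hj : j ∈ J₀)
    (m : ℕ) (h : LinkExp (Bsub n p) (J₀.image (fun i => i - j)) m β) : LinkExp P J₀ m β := by
  obtain ⟨φ, T⟩ := Transp.iso_of_locallyU n p G P hloc J₀ j hj
  exact T.linkExp m β h

theorem mix_transport (n p : ℕ) [NeZero n] [Fintype (U n p)] (G : Type) [Group G] [Fintype G]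
    (P : Fin n → Subgroup G) (hloc : LocallyU p P) (lam : ℝ) (J₀ : Finset (Fin n)) (j : Fin n) (hj : j ∈ J₀)
    (a b : Fin n) (h : Mix (Bsub n p) (J₀.image (fun i => i - j)) (a - j) (b - j) lam) : Mix P J₀ a b lam := by
  obtain ⟨φ, T⟩ := Transp.iso_of_locallyU n p G P hloc J₀ j hj
  have := T.mix (a - j) (b - j) lam h
  simpa using this

namespace Transp

section const

variable {I : Type} [DecidableEq I]

open Classical in
/-- level set cochain -/
noncomputable def lev {G : Type} (φ : G → ℝ) (c : ℝ) : Finset I → G → ZMod 2 :=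
  fun _ g => if φ g = c then 1 else 0

theorem cob_lev {G : Type} (φ : G → ℝ) (c : ℝ) (J : Finset I) (hJ : J.card = 2) (g : G) :
    cob (lev φ c) J g = 0 := by
  unfold cob lev
  rw [Finset.sum_const, hJ, two_nsmul]
  exact CharTwo.add_self_eq_zero _

theorem isCoch_lev [Fintype I] {G : Type} [Group G] (P : I → Subgroup G) (J₀ : Finset I)
    (φ : G → ℝ) (c : ℝ)
    (hφ : ∀ i ∉ J₀, ∀ g ∈ PJ P J₀, ∀ h ∈ PJ P (insert i J₀), φ (g * h) = φ g) :
    IsCoch P J₀ 1 (lev φ c) := by
  intro J hJ hd g hg k hk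
  obtain ⟨i, rfl⟩ := Finset.card_eq_one.1 hJ
  rw [Finset.disjoint_singleton_left] at hd
  rw [← Finset.insert_eq] at hk
  unfold lev
  rw [hφ i hd g hg k hk]

theorem lev_const [Fintype I] {G : Type} [Group G] (P : I → Subgroup G) (J₀ : Finset I)
    (φ : G → ℝ) (i : I) (b : Finset I → G → ZMod 2) (hb : IsCoch P J₀ 0 b)
    (h : ∀ g ∈ PJ P J₀, lev φ (φ 1) {i} g = cob b {i} g) :
    ∀ g ∈ PJ P J₀, φ g = φ 1 := by
  intro g hg
  have h1 := h g hg
  have h2 := h 1 (one_mem _)
  have hc : ∀ x, cob b {i} x = b ∅ x := by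
    intro x
    unfold cob
    simp
  have h3 : b ∅ (1 * g) = b ∅ 1 := by
    refine hb ∅ rfl (Finset.disjoint_empty_left _) 1 (one_mem _) g ?_
    rwa [Finset.empty_union]
  rw [one_mul] at h3
  rw [hc, h3, ← hc, ← h2] at h1
  unfold lev at h1
  rw [if_pos rfl] at h1
  by_contra hne
  rw [if_neg hne] at h1
  exact zero_ne_one h1

end const

end Transp

open Transp

/-- Expansion in cardinality one implies that functions invariant under all vertex stabilisers are constant. -/
theorem const_of_linkExp {I : Type} [DecidableEq I] [Fintype I] {G : Type} [Group G] [Fintype G]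
    (P : I → Subgroup G) (J₀ : Finset I) (hJ : J₀.card + 2 ≤ Fintype.card I) (β : ℝ) (hβ : 0 < β)
    (h : LinkExp P J₀ 1 β) (φ : G → ℝ)
    (hφ : ∀ i ∉ J₀, ∀ g ∈ PJ P J₀, ∀ h ∈ PJ P (insert i J₀), φ (g * h) = φ g) :
    ∀ g ∈ PJ P J₀, φ g = φ 1 := by
  classical
  obtain ⟨i, hi⟩ : ∃ i, i ∉ J₀ := by
    by_contra hc
    push Not at hc
    have : J₀ = Finset.univ := Finset.eq_univ_iff_forall.2 hc
    rw [this, Finset.card_univ] at hJ
    omega
  obtain ⟨b, hb, hle⟩ := h (lev φ (φ 1)) (isCoch_lev P J₀ φ (φ 1) hφ)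
  have h0 : wt P J₀ 2 (cob (lev φ (φ 1))) = 0 := by
    unfold wt
    refine Finset.sum_eq_zero fun J hJ' => ?_
    simp only [Finset.mem_filter, Finset.mem_univ, true_and] at hJ'
    rw [Finset.card_eq_zero, Finset.filter_eq_empty_iff]
    rintro g _ ⟨_, h2⟩
    exact h2 (cob_lev φ (φ 1) J hJ'.1 g)
  have h1 : wt P J₀ 1 (lev φ (φ 1) + cob b) = 0 := by
    have h2 : β * (wt P J₀ 1 (lev φ (φ 1) + cob b) : ℝ) ≤ 0 := by
      have := hle
      rw [show (1 + 1 : ℕ) = 2 from rfl, h0] at this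
      simpa using this
    have h3 : (wt P J₀ 1 (lev φ (φ 1) + cob b) : ℝ) ≤ 0 := by
      by_contra hc
      push Not at hc
      have := mul_pos hβ hc
      linarith
    exact_mod_cast le_antisymm h3 (Nat.cast_nonneg _)
  refine lev_const P J₀ φ i b hb fun g hg => ?_
  unfold wt at h1
  rw [Finset.sum_eq_zero_iff] at h1
  have h2 := h1 {i} (by simp [hi])
  rw [Finset.card_eq_zero, Finset.filter_eq_empty_iff] at h2
  have h3 := h2 (Finset.mem_univ g)
  push Not at h3
  have h4 : lev φ (φ 1) {i} g + cob b {i} g = 0 := h3 hg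
  exact CharTwo.add_eq_zero.1 h4

/-- Same for the global case, from `Van P 1`. -/
theorem const_of_van {I : Type} [DecidableEq I] [Fintype I] {G : Type} [Group G] [Fintype G]
    (P : I → Subgroup G) (hJ : 2 ≤ Fintype.card I)
    (h : Van P 1) (φ : G → ℝ)
    (hφ : ∀ i, ∀ g : G, ∀ h ∈ P i, φ (g * h) = φ g) :
    ∀ g : G, φ g = φ 1 := by
  have hne : Nonempty I := Fintype.card_pos_iff.1 (by omega)
  obtain ⟨i⟩ := hne
  obtain ⟨b, hb, hle⟩ := h (lev φ (φ 1)) (isCoch_lev P ∅ φ (φ 1) (by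
    intro i _ g _ k hk
    rw [mem_PJ] at hk
    exact hφ i g k (hk i (by simp)))) (fun J hJ g => cob_lev φ (φ 1) J hJ g)
  intro g
  exact lev_const P ∅ φ i b hb (fun g _ => hle {i} (by simp) g) g (by rw [mem_PJ]; simp)

end Crest.Agent.R066
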