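import Crest.Agent.R066.ConeFill
import Crest.Agent.R066.Transport_Mg
import Crest.Agent.R066.UnipLinkAux

/-! Links in the unitriangular local model (task T3).
The definitions `stdFl`, `stdV`, `uAct`, `uWalls` are in `UnipLinkAux.lean`. -/

set_option autoImplicit false
open scoped BigOperators
open Module (finrank)

namespace Crest.Agent.R066

open Classical in
/-- Transitivity: every simplex of `GenCx` in the link is a translate of a standard one (LU argument). -/
theorem unip_trans (n p : ℕ) [NeZero n] (hp : p.Prime) (J₀ : Finset (Fin n)) (_h0 : (0 : Fin n) ∈ J₀)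
    (s : Finset (Submodule (ZMod p) (Fin n → ZMod p))) (hs : haveI := Fact.mk hp; s ∈ GenCx (stdFl n p) (uWalls n p J₀)) :
    ∃ g ∈ PJ (Bsub n p) J₀, ∃ J : Finset (Fin n), Disjoint J J₀ ∧
      s = (J.image (fun c : Fin n => stdV n p c)).image (uAct n p g) := by
  haveI := Fact.mk hp
  obtain ⟨hs1, hs2⟩ := hs
  have htot : ∀ W ∈ s ∪ uWalls n p J₀, ∀ W' ∈ s ∪ uWalls n p J₀, W ≤ W' ∨ W' ≤ W := by
    have key : ∀ W ∈ s, ∀ X ∈ uWalls n p J₀, W ≤ X ∨ X ≤ W := by
      intro W hW X hX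
      obtain ⟨A, _, B, _, hAW, hWB, h, _⟩ := hs1 W hW
      rcases h X hX with h | h
      · exact Or.inr (h.trans hAW.le)
      · exact Or.inl (hWB.le.trans h)
    intro W hW W' hW'
    rw [Finset.mem_union] at hW hW'
    rcases hW with hW | hW <;> rcases hW' with hW' | hW'
    · exact hs2 W hW W' hW'
    · exact key W hW W' hW'
    · exact (key W' hW' W hW).symm
    · exact uWalls_total W hW W' hW'
  have hdim : ∀ W ∈ s, ∃ i : Fin n, finrank (ZMod p) W = i ∧ i ∉ J₀ := by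
    intro W hW
    obtain ⟨A, hA, B, hB, hAW, hWB, h, _⟩ := hs1 W hW
    have h1 := Submodule.finrank_lt_finrank_of_lt hAW
    have h2 := Submodule.finrank_lt_finrank_of_lt hWB
    have h3 : finrank (ZMod p) B ≤ n := by
      have : finrank (ZMod p) B ≤ finrank (ZMod p) (Fin n → ZMod p) := Submodule.finrank_le _
      rwa [Module.finrank_fin_fun] at this
    refine ⟨⟨finrank (ZMod p) W, by omega⟩, rfl, fun hi => ?_⟩
    have h4 := h _ (stdV_mem_uWalls (p := p) hi)
    have h5 : finrank (ZMod p) (stdV n p ((⟨finrank (ZMod p) W, by omega⟩ : Fin n) : ℕ)) =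
      finrank (ZMod p) W := finrank_stdV n p _ (by simp only; omega)
    rcases h4 with h4 | h4
    · have := Submodule.finrank_mono h4
      omega
    · have := Submodule.finrank_mono h4
      omega
  obtain ⟨g, hg⟩ := exists_lu (s ∪ uWalls n p J₀) htot
    (Finset.mem_union_right _ top_mem_uWalls) (by
      intro W hW
      rw [Finset.mem_union] at hW
      rcases hW with hW | hW
      · obtain ⟨A, hA, B, hB, hAW, hWB, h, hG⟩ := hs1 W hW
        obtain ⟨c, hc, rfl, _⟩ := wall_cases hA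
        obtain ⟨c', hc', rfl, _⟩ := wall_cases hB
        refine gen_opp hc' hG ?_
        have h1 := Submodule.finrank_lt_finrank_of_lt hAW
        have h2 := Submodule.finrank_lt_finrank_of_lt hWB
        rw [finrank_stdV n p c hc] at h1
        rw [finrank_stdV n p c' hc'] at h2
        omega
      · obtain ⟨c, hc, rfl, _⟩ := wall_cases hW
        exact stdV_opp c hc)
  refine ⟨g, ?_, Finset.univ.filter (fun i : Fin n => ∃ W ∈ s, finrank (ZMod p) W = i), ?_, ?_⟩
  · rw [mem_PJ]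
    intro c hc
    apply mem_of_uAct_stdV
    have := hg (stdV n p c) (Finset.mem_union_right _ (stdV_mem_uWalls hc))
    rwa [finrank_stdV n p c c.2.le] at this
  · rw [Finset.disjoint_left]
    intro i hi
    rw [Finset.mem_filter] at hi
    obtain ⟨_, W, hW, hWi⟩ := hi
    obtain ⟨i', hi', hi'J⟩ := hdim W hW
    have : i = i' := Fin.ext (by omega)
    rwa [this]
  · ext W
    rw [Finset.mem_image]
    constructor
    · intro hW
      obtain ⟨i, hi, _⟩ := hdim W hW
      refine ⟨stdV n p i, ?_, ?_⟩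
      · rw [Finset.mem_image]
        exact ⟨i, Finset.mem_filter.mpr ⟨Finset.mem_univ _, W, hW, hi⟩, rfl⟩
      · have := hg W (Finset.mem_union_left _ hW)
        rwa [hi] at this
    · rintro ⟨X, hX, rfl⟩
      rw [Finset.mem_image] at hX
      obtain ⟨i, hi, rfl⟩ := hX
      rw [Finset.mem_filter] at hi
      obtain ⟨_, W, hW, hWi⟩ := hi
      have := hg W (Finset.mem_union_left _ hW)
      rw [hWi] at this
      rwa [this]

theorem LinkExp.mono {I : Type*} [DecidableEq I] [Fintype I] {G : Type*} [Group G] [Fintype G]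
    {P : I → Subgroup G} {J₀ : Finset I} {m : ℕ} {β β' : ℝ} (hβ : β' ≤ β) (h : LinkExp P J₀ m β) :
    LinkExp P J₀ m β' := by
  intro f hf
  obtain ⟨b, hb, hb'⟩ := h f hf
  refine ⟨b, hb, le_trans ?_ hb'⟩
  gcongr

theorem unip_linkExp_one (n : ℕ) [NeZero n] (m : ℕ) (hm : 1 ≤ m) : ∃ β : ℝ, 0 < β ∧ ∃ q₀ : ℕ,
    ∀ p : ℕ, p.Prime → q₀ ≤ p →
    ∀ [Fintype (U n p)], ∀ J₀ : Finset (Fin n), (0 : Fin n) ∈ J₀ → m + J₀.card + 1 ≤ n →
      LinkExp (Bsub n p) J₀ m β := by
  classical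
  obtain ⟨R, q₀, hcone⟩ := cone_exists n
  obtain ⟨β, hβ, hexp⟩ := linkExp_of_cone n m R hm
  refine ⟨β, hβ, q₀, ?_⟩
  intro p hp hq _ J₀ h0 hcard
  haveI := Fact.mk hp
  refine hexp (Fin n) (by simp) (U n p) (Bsub n p) J₀ (Submodule (ZMod p) (Fin n → ZMod p))
    (GenCx (stdFl n p) (uWalls n p J₀)) (uAct n p) (fun c : Fin n => stdV n p c)
    (uAct_one n p) (uAct_mul n p) ?_ ?_ ?_ ?_ ?_ ?_
  · intro g hg s hs
    convert genCx_act hg hs
  · intro J hJ
    exact std_mem_genCx h0 J hJ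
  · intro i _ g _
    exact uAct_stdV_iff g i
  · intro i _ j _ g _ h
    have h1 := finrank_uAct g (stdV n p i)
    rw [h, finrank_stdV n p j j.2.le, finrank_stdV n p i i.2.le] at h1
    exact Fin.ext h1.symm
  · intro s hs
    obtain ⟨g, hg, J, hJ, h⟩ := unip_trans n p hp J₀ h0 s hs
    refine ⟨g, hg, J, hJ, ?_⟩
    convert h
  · obtain ⟨κ, hκ⟩ := hcone (ZMod p) (by rwa [ZMod.card]) (Fin n → ZMod p) (Module.finrank_fin_fun _)
      (stdFl n p) (stdFl_mono n p) (fun u hu => finrank_stdFl n p u hu) (uWalls n p J₀)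
      (bot_mem_uWalls h0) top_mem_uWalls uWalls_total
    refine ⟨κ, fun s hs hsm => ?_⟩
    have h1 : (uWalls n p J₀).card ≤ J₀.card + 1 := card_uWalls_le
    have h2 := hκ s hs (by omega)
    convert h2

theorem unip_linkExp (n : ℕ) [NeZero n] : ∃ β : ℝ, 0 < β ∧ ∃ q₀ : ℕ, ∀ p : ℕ, p.Prime → q₀ ≤ p →
    ∀ [Fintype (U n p)], ∀ J₀ : Finset (Fin n), (0 : Fin n) ∈ J₀ → ∀ m : ℕ, 1 ≤ m → m + J₀.card + 1 ≤ n →
      LinkExp (Bsub n p) J₀ m β := by
  classical
  -- minimum over `m ≤ n`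
  have key : ∀ N : ℕ, ∃ β : ℝ, 0 < β ∧ ∃ q₀ : ℕ, ∀ p : ℕ, p.Prime → q₀ ≤ p →
      ∀ [Fintype (U n p)], ∀ J₀ : Finset (Fin n), (0 : Fin n) ∈ J₀ → ∀ m : ℕ, 1 ≤ m → m ≤ N →
        m + J₀.card + 1 ≤ n → LinkExp (Bsub n p) J₀ m β := by
    intro N
    induction N with
    | zero =>
      refine ⟨1, one_pos, 0, ?_⟩
      intro p _ _ _ J₀ _ m h1 h2
      omega
    | succ N ih =>
      obtain ⟨β₁, hβ₁, q₁, h₁⟩ := ih
      obtain ⟨β₂, hβ₂, q₂, h₂⟩ := unip_linkExp_one n (N + 1) (by omega)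
      refine ⟨min β₁ β₂, lt_min hβ₁ hβ₂, max q₁ q₂, ?_⟩
      intro p hp hq _ J₀ h0 m hm1 hm2 hc
      rcases Nat.lt_or_ge N m with h | h
      · have hmN : m = N + 1 := by omega
        subst hmN
        exact LinkExp.mono (min_le_right _ _) (h₂ p hp ((le_max_right _ _).trans hq) J₀ h0 hc)
      · exact LinkExp.mono (min_le_left _ _) (h₁ p hp ((le_max_left _ _).trans hq) J₀ h0 m hm1 h hc)
  obtain ⟨β, hβ, q₀, h⟩ := key n
  refine ⟨β, hβ, q₀, ?_⟩
  intro p hp hq _ J₀ h0 m hm hc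
  exact h p hp hq J₀ h0 m hm (by omega) hc

end Crest.Agent.R066
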