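import Crest.Agent.R066.CliqueEx
import Crest.Agent.R066.Frames
import Crest.Agent.R066.ECore
import Crest.Agent.R066.EAcy
import Crest.Agent.R066.Transv
import Crest.Agent.R066.ETup
import Crest.Agent.R066.Basic
import Crest.Agent.R066.Chain
import Crest.Agent.R066.Model
import Mathlib
import Crest.Prelude.Def_Cochain
import Crest.Agent.R066.Transport_Mg
import Crest.Agent.R066.UnipLink
import Crest.Agent.R066.LatAction_Mg

-- ▼ part R066/FrameEx
section

/-!
# Row 66, part (E): the complex of split frames is exact, and so is the complex of functions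
invariant under the congruence subgroup.
-/

set_option autoImplicit false

open Finset

namespace Crest.Agent.R066.E

open CliqueCone Module

section

variable {R : Type*} [CommRing R] {P : Type*} [AddCommGroup P] [Module R P]

instance : RelAct (P ≃ₗ[R] P) (Perp : Frame R P → Frame R P → Prop) where
  smul_rel g _ _ h := h.smul g

/-- Congruence as a setoid. -/
def fcSetoid (R : Type*) [CommRing R] (P : Type*) [AddCommGroup P] [Module R P] (I : Ideal R) :
    Setoid (Frame R P) where
  r := FCongr I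
  iseqv := ⟨FCongr.refl, FCongr.symm, FCongr.trans⟩

/-- Orthogonality modulo `I` on classes. -/
def perpQ (I : Ideal R) (x y : Quotient (fcSetoid R P I)) : Prop :=
  Quotient.liftOn₂ x y (PerpMod I) (fun _ _ _ _ h1 h2 =>
    propext ⟨PerpMod.congr h1 h2, PerpMod.congr (FCongr.symm h1) (FCongr.symm h2)⟩)

theorem perpQ_symm (I : Ideal R) (x y : Quotient (fcSetoid R P I)) (h : perpQ I x y) :
    perpQ I y x := by
  induction x using Quotient.inductionOn
  induction y using Quotient.inductionOn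
  exact ⟨h.2, h.1⟩

end

variable {R : Type*} [CommRing R] [IsDomain R] [IsPrincipalIdealRing R]
variable {P : Type*} [AddCommGroup P] [Module R P] [Module.Free R P] [Module.Finite R P]

/-- The complex of split frames is exact in low degrees. -/
theorem frame_fex (B : ℕ) (hP : 2 * coneBound B ≤ finrank R P) (b : ℕ) (hb : b ≤ B) :
    FEx (Clq (Perp : Frame R P → Frame R P → Prop)) b :=
  fex_clq (fun _ _ h => h.symm) B (fun T hT => exists_perp_frame T (by omega)) b hb

/-- The rank needed in `frame_ex`. -/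
def rk (B : ℕ) : ℕ := 2 * coneBound B + 2 * B + 5

/-- The complex of functions on split frames invariant under the congruence subgroup of a
principal ideal is exact in low degrees. -/
theorem frame_ex (a : R) (B : ℕ) (hP : rk B ≤ finrank R P) (b : ℕ) (hb : b ≤ B) :
    Ex (NP P (Ideal.span {a})) (Clq (Perp : Frame R P → Frame R P → Prop)) b := by
  classical
  unfold rk at hP
  refine ex_clq (NP P (Ideal.span {a})) (fun _ _ h => h.symm) B
    (fun T hT => exists_perp_frame T (by omega)) (fcSetoid R P (Ideal.span {a}))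
    (perpQ (Ideal.span {a})) (perpQ_symm _) (fun x y h => h.perpMod)
    (fun n hn v => Quotient.sound (fcongr_smul hn v)) ?_ ?_ b hb
  · intro b hb σ c h
    obtain ⟨w, hw1, hw2⟩ := exists_lift_perp a σ.1 (fun i j hij => σ.2 i j hij) c
      (fun i => h i) (by rw [Fintype.card_fin]; omega)
    exact ⟨w, Quotient.sound hw2, hw1⟩
  · intro b hb σ c c' hcc hc hc'
    have hcard : (Finset.univ.image σ.1).card ≤ b :=
      Finset.card_image_le.trans (by simp)
    obtain ⟨g, hg, hg1, hg2⟩ := exists_conj (Ideal.span {a}) (Finset.univ.image σ.1) c c'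
      (by simpa using hc) (by simpa using hc') (Quotient.exact hcc) (by omega)
    exact ⟨g, hg, fun i => hg2 _ (Finset.mem_image_of_mem _ (Finset.mem_univ i)), hg1⟩

end Crest.Agent.R066.E
end

-- ▼ part R066/ELF
section

set_option autoImplicit false
set_option linter.unusedSectionVars false

open Finset

namespace Crest.Agent.R066.E

theorem continuous_msum {α : Type*} (s : Multiset α) :
    Continuous (fun g : α → F2 => (s.map g).sum) := by
  induction s using Multiset.induction_on with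
  | empty => simpa using continuous_const
  | cons a s ih =>
    simp only [Multiset.map_cons, Multiset.sum_cons]
    exact (continuous_of_discreteTopology (f := fun q : F2 × F2 => q.1 + q.2)).comp
      ((continuous_apply a).prodMk ih)

theorem Ex.of_locOdd {H : Type*} [Group H] {X : ℕ → Type*} [Cx X] [∀ n, MulAction H (X n)]
    [CxAct H X]
    (hLF : ∀ S : Finset H, ∃ K : Subgroup H, (∀ s ∈ S, s ∈ K) ∧ Finite K ∧ Odd (Nat.card K))
    (n : ℕ) (h : FEx X n) : Ex H X n := by
  classical
  cases n with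
  | zero => exact fun f _ h0 => h f h0
  | succ n =>
    intro f hf h0
    let ι := {K : Subgroup H // Finite K ∧ Odd (Nat.card K)}
    let t : ι → Set (X n → F2) := fun K => {g | (∀ k ∈ K.1, ∀ x, g (k • x) = g x) ∧ cd g = f}
    have hι : Nonempty ι := by
      obtain ⟨K, -, h1, h2⟩ := hLF ∅
      exact ⟨⟨K, h1, h2⟩⟩
    have hcl : ∀ i, IsClosed (t i) := by
      intro K
      have e : t K = (⋂ k ∈ K.1, ⋂ x, {g : X n → F2 | g (k • x) = g x}) ∩
          ⋂ x, {g : X n → F2 | ((Cx.fc n x).map g).sum = f x} := by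
        ext g
        simp only [t, Set.mem_ofPred_eq, Set.mem_inter_iff, Set.mem_iInter]
        constructor
        · rintro ⟨h1, h2⟩
          exact ⟨h1, fun x => congrFun h2 x⟩
        · rintro ⟨h1, h2⟩
          exact ⟨h1, funext h2⟩
      rw [e]
      refine IsClosed.inter ?_ ?_
      · refine isClosed_iInter fun k => isClosed_iInter fun _ => isClosed_iInter fun x => ?_
        exact isClosed_eq (continuous_apply _) (continuous_apply _)
      · refine isClosed_iInter fun x => ?_
        exact isClosed_eq (continuous_msum _) continuous_const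
    obtain ⟨g, hg⟩ := IsCompact.nonempty_iInter_of_directed_nonempty_isCompact_isClosed t
      (by
        rintro ⟨K1, hf1, ho1⟩ ⟨K2, hf2, ho2⟩
        have := Fintype.ofFinite K1
        have := Fintype.ofFinite K2
        let S1 : Finset H := Finset.image (fun k : K1 => k.1) Finset.univ
        let S2 : Finset H := Finset.image (fun k : K2 => k.1) Finset.univ
        obtain ⟨K3, h3, hf3, ho3⟩ := hLF (S1 ∪ S2)
        refine ⟨⟨K3, hf3, ho3⟩, ?_, ?_⟩
        · rintro g ⟨hg1, hg2⟩
          refine ⟨fun k hk x => hg1 k (h3 k ?_) x, hg2⟩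
          exact Finset.mem_union_left _ (Finset.mem_image.mpr
            ⟨(⟨k, hk⟩ : K1), Finset.mem_univ _, rfl⟩)
        · rintro g ⟨hg1, hg2⟩
          refine ⟨fun k hk x => hg1 k (h3 k ?_) x, hg2⟩
          exact Finset.mem_union_right _ (Finset.mem_image.mpr
            ⟨(⟨k, hk⟩ : K2), Finset.mem_univ _, rfl⟩))
      (by
        rintro ⟨K, hfK, hoK⟩
        have := Ex.of_odd (H := K) hoK (n + 1) h
        obtain ⟨g, hg, hgf⟩ := this f (fun k x => hf k x) h0
        exact ⟨g, fun k hk x => hg ⟨k, hk⟩ x, hgf⟩)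
      (fun i => (hcl i).isCompact) hcl
    rw [Set.mem_iInter] at hg
    refine ⟨g, ?_, (hg hι.some).2⟩
    intro k x
    obtain ⟨K, h1, h2, h3⟩ := hLF {k}
    exact (hg ⟨K, h2, h3⟩).1 k (h1 k (Finset.mem_singleton_self k)) x

theorem transfer {U : Type*} [Group U] {X : ℕ → Type*} [Cx X] [∀ n, MulAction U (X n)]
    [CxAct U X] (N : Subgroup U) [N.Normal] [Finite (U ⧸ N)] (hodd : Odd (Nat.card (U ⧸ N)))
    (n : ℕ) (hU : Ex U X (n+1)) (f : X (n+1) → F2) (hf : Inv N f) (hf0 : cd f = 0)
    (htriv : ∀ u : U, ∃ γ : X n → F2, Inv N γ ∧ cd γ = fun x => f (u • x) + f x) :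
    ∃ g : X n → F2, Inv N g ∧ cd g = f := by
  classical
  have := Fintype.ofFinite (U ⧸ N)
  choose γ hγ hγe using htriv
  have hq : ∀ (u v : U), (u : U ⧸ N) = v → ∀ x, f (u⁻¹ • x) = f (v⁻¹ • x) := by
    intro u v huv x
    have h1 : u⁻¹ * v ∈ N := QuotientGroup.eq.mp huv
    have h2 := hf ⟨u⁻¹ * v, h1⟩ (v⁻¹ • x)
    rw [← h2]
    change f (u⁻¹ • x) = f ((u⁻¹ * v) • v⁻¹ • x)
    rw [smul_smul, mul_assoc, mul_inv_cancel, mul_one]
  let F : X (n + 1) → F2 := fun x => ∑ c : U ⧸ N, f ((Quotient.out c)⁻¹ • x)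
  have hF : Inv U F := by
    intro w x
    simp only [F]
    rw [← Equiv.sum_comp (MulAction.toPerm w : Equiv.Perm (U ⧸ N))]
    refine Finset.sum_congr rfl fun c _ => ?_
    rw [MulAction.toPerm_apply, smul_smul]
    have h1 : (Quotient.out (w • c))⁻¹ * w = (w⁻¹ * Quotient.out (w • c))⁻¹ := by
      rw [mul_inv_rev, inv_inv]
    rw [h1]
    refine hq _ _ ?_ x
    have h2 : ((Quotient.out (w • c) : U) : U ⧸ N) = w • c := QuotientGroup.out_eq' _
    have h3 : ((w⁻¹ * Quotient.out (w • c) : U) : U ⧸ N) = w⁻¹ • ((Quotient.out (w • c) : U) : U ⧸ N) :=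
      rfl
    rw [h3, h2, inv_smul_smul]
    exact (QuotientGroup.out_eq' _).symm
  have hF0 : cd F = 0 := by
    have h1 : F = ∑ c : U ⧸ N, fun x => f ((Quotient.out c)⁻¹ • x) := by
      funext x
      simp [F]
    rw [h1, cd_sum]
    refine Finset.sum_eq_zero fun c _ => ?_
    rw [cd_smul, hf0]
    rfl
  obtain ⟨G, hG, hGF⟩ := hU F hF hF0
  refine ⟨G + ∑ c : U ⧸ N, γ (Quotient.out c)⁻¹, ?_, ?_⟩
  · intro k x
    simp only [Pi.add_apply, Finset.sum_apply]
    congr 1
    · exact hG k x
    · exact Finset.sum_congr rfl fun c _ => hγ _ k x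
  · rw [cd_add, cd_sum, hGF]
    funext x
    simp only [Pi.add_apply, Finset.sum_apply, hγe, F]
    rw [Finset.sum_add_distrib, ← add_assoc, CharTwo.add_self_eq_zero, zero_add,
      Finset.sum_const, Finset.card_univ, ← Nat.card_eq_fintype_card, nsmul_eq_mul]
    obtain ⟨m, hm⟩ := hodd
    rw [hm]
    push_cast
    have : (2 : F2) = 0 := rfl
    rw [this]; ring

theorem comm_locOdd' {A : Type*} [Group A] (p : ℕ) [Fact p.Prime] (hp : p ≠ 2)
    (hc : ∀ a b : A, a * b = b * a) (h : ∀ a : A, a ^ p = 1) :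
    ∀ S : Finset A, ∃ K : Subgroup A, (∀ s ∈ S, s ∈ K) ∧ Finite K ∧ Odd (Nat.card K) := by
  intro S
  let K := Subgroup.closure (S : Set A)
  have hp0 : 0 < p := (Fact.out : p.Prime).pos
  have hfin : Finite K := by
    let _ : CommGroup K := { (inferInstance : Group K) with
      mul_comm := fun a b => Subtype.ext (hc _ _) }
    have hfg : Group.FG K := Group.closure_finset_fg S
    refine CommGroup.finite_of_fg_isMulTorsion K ?_
    intro x
    rw [isOfFinOrder_iff_pow_eq_one]
    exact ⟨p, hp0, Subtype.ext (h _)⟩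
  refine ⟨K, fun s hs => Subgroup.subset_closure hs, hfin, ?_⟩
  have hpg : IsPGroup p K := fun x => ⟨1, by rw [pow_one]; exact Subtype.ext (h _)⟩
  obtain ⟨n, hn⟩ := (IsPGroup.iff_card).mp hpg
  rw [hn]
  exact ((Fact.out : p.Prime).odd_of_ne_two hp).pow

end Crest.Agent.R066.E
end

-- ▼ part R066/EInd
section

/-!
# Row 66, part (E): the inductive step
-/

set_option autoImplicit false
set_option linter.unusedSectionVars false

open Finset

namespace Crest.Agent.R066.E

open Module


section Step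

variable {R : Type*} [CommRing R] [IsDomain R] [IsPrincipalIdealRing R]
variable {P : Type*} [AddCommGroup P] [Module R P] [Module.Free R P] [Module.Finite R P]

instance {V : Type*} (r : V → V → Prop) : Unique (Clq r 0) where
  default := ⟨Fin.elim0, fun i => i.elim0⟩
  uniq y := by ext i; exact i.elim0

/-- Data making `x` act trivially on the cohomology of the stabiliser of `σ`. -/
def Pack (p : ℕ) (N : Subgroup (P ≃ₗ[R] P)) (σ : Frame R P) (x : P ≃ₗ[R] P) : Prop :=
  ∃ K Wt : Subgroup (P ≃ₗ[R] P), K ≤ N ∧ (∀ g ∈ N, g • σ = σ → g ∈ K) ∧ x ∈ Wt ∧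
    (∀ k ∈ K, ∀ w ∈ Wt, k * w * k⁻¹ ∈ Wt) ∧ (∀ x ∈ Wt, ∀ k ∈ K, x * k * x⁻¹ ∈ K) ∧
    (∀ x ∈ Wt, ∀ y ∈ Wt, x * y = y * x) ∧ (∀ x ∈ Wt, x ^ p = 1)

theorem free_GL (H : Subgroup (P ≃ₗ[R] P)) (h : H) (v : P ≃ₗ[R] P) (e : h • v = v) : h = 1 := by
  have : (h : P ≃ₗ[R] P) * v = v := e
  rw [mul_eq_right] at this
  exact Subtype.ext this

/-- `x` acts trivially on the restriction to the stabiliser of `σ`. -/
def TrivOn (N : Subgroup (P ≃ₗ[R] P)) (L : ℕ) (σ : Frame R P) (x : P ≃ₗ[R] P) : Prop :=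
  ∀ f : Tup (P ≃ₗ[R] P) (L + 1) → F2, Inv N f → cd (X := Tup (P ≃ₗ[R] P)) f = 0 →
    ∃ γ : Tup (P ≃ₗ[R] P) L → F2, (∀ g ∈ N, g • σ = σ → ∀ v, γ (g • v) = γ v) ∧
      cd (X := Tup (P ≃ₗ[R] P)) γ = fun v => f (x • v) + f v

theorem trivOn_of_pack {p : ℕ} [Fact p.Prime] (hp2 : p ≠ 2) {N : Subgroup (P ≃ₗ[R] P)} (L : ℕ)
    {σ : Frame R P} {x : P ≃ₗ[R] P} (h : Pack p N σ x) : TrivOn N L σ x := by
  obtain ⟨K, Wt, hKN, hK, hx, hn, hxk, hcomm, hpow⟩ := h
  intro f hf hf0
  obtain ⟨γ, hγ, e⟩ := unip_trivial K Wt hn (fun a => Ex.of_locOdd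
    (comm_locOdd' p hp2 (fun x y => Subtype.ext (Subtype.ext (hcomm _ x.2 _ y.2)))
      (fun x => Subtype.ext (Subtype.ext (hpow _ x.2)))) a (tup_fex a)) x hx (hxk x hx) L f
    (fun k v => hf ⟨k, hKN k.2⟩ v) hf0
  exact ⟨γ, fun g hg hgσ v => hγ ⟨g, hK g hg hgσ⟩ v, e⟩

theorem shift_inv {N : Subgroup (P ≃ₗ[R] P)} [N.Normal] {L : ℕ} {f : Tup (P ≃ₗ[R] P) L → F2}
    (hf : Inv N f) (x : P ≃ₗ[R] P) : Inv N (fun v : Tup (P ≃ₗ[R] P) L => f (x • v)) := by
  intro k v
  have h1 : x • k • v = (⟨x * k * x⁻¹, Subgroup.Normal.conj_mem inferInstance _ k.2 x⟩ : N) •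
      (x • v) := by
    funext i
    change x * ((k : P ≃ₗ[R] P) * v i) = (x * k * x⁻¹) * (x * v i)
    group
  change f (x • k • v) = f (x • v)
  rw [h1, hf]

theorem shift_cd {L : ℕ} {f : Tup (P ≃ₗ[R] P) L → F2} (hf : cd (X := Tup (P ≃ₗ[R] P)) f = 0)
    (x : P ≃ₗ[R] P) : cd (X := Tup (P ≃ₗ[R] P)) (fun v : Tup (P ≃ₗ[R] P) L => f (x • v)) = 0 := by
  have := cd_smul (H := P ≃ₗ[R] P) (X := Tup (P ≃ₗ[R] P)) f x
  rw [this, hf]
  rfl

/-- The elements acting trivially form a subgroup. -/
def trivSub (N : Subgroup (P ≃ₗ[R] P)) [N.Normal] (L : ℕ) (σ : Frame R P) :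
    Subgroup (P ≃ₗ[R] P) where
  carrier := {x | TrivOn N L σ x}
  one_mem' := by
    intro f _ _
    refine ⟨0, fun _ _ _ _ => rfl, ?_⟩
    rw [cd_zero]
    funext v
    rw [one_smul]
    exact (CharTwo.add_self_eq_zero _).symm
  mul_mem' := by
    intro x y hx hy f hf hf0
    obtain ⟨γ1, hγ1, e1⟩ := hy (fun v => f (x • v)) (shift_inv hf x) (shift_cd hf0 x)
    obtain ⟨γ2, hγ2, e2⟩ := hx f hf hf0
    refine ⟨γ1 + γ2, fun g hg hgσ v => ?_, ?_⟩
    · simp only [Pi.add_apply, hγ1 g hg hgσ v, hγ2 g hg hgσ v]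
    · rw [cd_add, e1, e2]
      funext v
      simp only [Pi.add_apply]
      have : f (x • y • v) = f ((x * y) • v) := by rw [mul_smul]
      rw [this]
      have := CharTwo.add_self_eq_zero (f (x • v))
      linear_combination this
  inv_mem' := by
    intro x hx f hf hf0
    obtain ⟨γ, hγ, e⟩ := hx (fun v => f (x⁻¹ • v)) (shift_inv hf x⁻¹) (shift_cd hf0 x⁻¹)
    refine ⟨γ, hγ, ?_⟩
    rw [e]
    funext v
    simp only [inv_smul_smul]
    ring

/-- The inductive step. -/
theorem ind_step {p : ℕ} [Fact p.Prime] (hp2 : p ≠ 2) (a : R) (L : ℕ)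
    (hrank : rk (L + 1) ≤ finrank R P)
    (hpack : ∀ σ : Frame R P, ∀ x, x ∈ W1 σ ∨ x ∈ W2 σ → Pack p (NP P (Ideal.span {a})) σ x)
    (hstab : ∀ b, 1 ≤ b → b ≤ L + 2 → ∀ y : Clq (Perp : Frame R P → Frame R P → Prop) b,
      ∀ c ≤ L, Ex (MulAction.stabilizer (NP P (Ideal.span {a})) y) (Tup (P ≃ₗ[R] P)) c)
    (U : Subgroup (P ≃ₗ[R] P)) (hNU : NP P (Ideal.span {a}) ≤ U)
    (hUF : ∀ u ∈ U, ∀ σ : Frame R P, u ∈ FG σ)
    (hfin : Finite (U ⧸ (NP P (Ideal.span {a})).subgroupOf U))
    (hodd : Odd (Nat.card (U ⧸ (NP P (Ideal.span {a})).subgroupOf U)))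
    (hU : Ex U (Tup (P ≃ₗ[R] P)) (L + 1)) :
    Ex (NP P (Ideal.span {a})) (Tup (P ≃ₗ[R] P)) (L + 1) := by
  set N := NP P (Ideal.span {a}) with hN
  intro f hf hf0
  -- every element of `U` acts trivially
  have key : ∀ u ∈ U, ∃ γ : Tup (P ≃ₗ[R] P) L → F2, Inv N γ ∧
      cd (X := Tup (P ≃ₗ[R] P)) γ = fun v => f (u • v) + f v := by
    intro u hu
    have hfu : Inv N (fun v : Tup (P ≃ₗ[R] P) (L + 1) => f (u • v) + f v) :=
      (shift_inv hf u).add hf
    have hfu0 : cd (X := Tup (P ≃ₗ[R] P)) (fun v : Tup (P ≃ₗ[R] P) (L + 1) => f (u • v) + f v) =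
        0 := by
      have := cd_add (X := Tup (P ≃ₗ[R] P)) (fun v : Tup (P ≃ₗ[R] P) (L + 1) => f (u • v)) f
      rw [shift_cd hf0, hf0, add_zero] at this
      exact this
    refine restr_inj' (H := N) (X := Tup (P ≃ₗ[R] P))
      (Y := Clq (Perp : Frame R P → Frame R P → Prop)) L ?_ ?_ ?_ ?_ _ hfu hfu0 ?_
    · intro c b hb e y
      exact hstab b (by omega) (by omega) y c (by omega)
    · intro c b hc hb e x
      exact Ex.of_bot (stab_eq_bot_of_free (free_GL N) hc x) b
        (frame_fex (L + 1) (by unfold rk at hrank; omega) b (by omega))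
    · exact frame_ex a (L + 1) hrank (L + 1) le_rfl
    · exact frame_fex (L + 1) (by unfold rk at hrank; omega) 0 (by omega)
    · intro y
      have hsub : FG (y.1 0) ≤ trivSub N L (y.1 0) := by
        refine sup_le ?_ ?_
        · intro x hx
          exact trivOn_of_pack hp2 L (hpack _ x (Or.inl hx))
        · intro x hx
          exact trivOn_of_pack hp2 L (hpack _ x (Or.inr hx))
      obtain ⟨γ, hγ, e⟩ := hsub (hUF u hu (y.1 0)) f hf hf0
      refine ⟨γ, ?_, e⟩
      rintro ⟨⟨g, hgN⟩, hg⟩ v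
      rw [MulAction.mem_stabilizer_iff] at hg
      have hg' : g • y = y := hg
      rw [clq_smul_eq_iff] at hg'
      exact hγ g hgN (hg' 0) v
  -- transfer
  have hfU : Inv (N.subgroupOf U) f := by
    rintro ⟨⟨g, hgU⟩, hg⟩ v
    exact hf ⟨g, hg⟩ v
  obtain ⟨g, hg, hgf⟩ := transfer (U := U) (X := Tup (P ≃ₗ[R] P)) (N.subgroupOf U) hodd L hU f hfU
    hf0 (by
      intro u
      obtain ⟨γ, hγ, e⟩ := key u u.2
      refine ⟨γ, ?_, e⟩
      rintro ⟨⟨g, hgU⟩, hg⟩ v
      exact hγ ⟨g, hg⟩ v)
  refine ⟨g, ?_, hgf⟩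
  rintro ⟨k, hk⟩ v
  exact hg ⟨⟨k, hNU hk⟩, hk⟩ v

end Step

end Crest.Agent.R066.E
end

-- ▼ part R066/EXT
section

/-!
# Row 66, part (E): the typed coset complex as a `Cx`
-/

set_option autoImplicit false
set_option linter.unusedSectionVars false

open Finset

namespace Crest.Agent.R066.E

variable {I G : Type*} [DecidableEq I] [Group G]

theorem PJ_anti (P : I → Subgroup G) {S T : Finset I} (h : T ⊆ S) : PJ P S ≤ PJ P T := by
  intro g hg
  simp only [PJ, Subgroup.mem_iInf] at hg ⊢
  exact fun i hi => hg i (h hi)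

/-- Faces with `b` vertices of the typed coset complex. -/
def XT (P : I → Subgroup G) (b : ℕ) : Type _ := Σ S : {S : Finset I // S.card = b}, G ⧸ PJ P S.1

/-- The face of type `S` of the chamber `g`. -/
def XT.mk (P : I → Subgroup G) {b : ℕ} (S : Finset I) (hS : S.card = b) (g : G) : XT P b :=
  ⟨⟨S, hS⟩, (g : G ⧸ PJ P S)⟩


theorem XT.mk_eq_iff (P : I → Subgroup G) {b : ℕ} {S T : Finset I} (hS : S.card = b)
    (hT : T.card = b) (g h : G) :
    XT.mk P S hS g = XT.mk P T hT h ↔ S = T ∧ g⁻¹ * h ∈ PJ P S := by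
  constructor
  · intro e
    have h1 : S = T := by
      have := congrArg (fun x : XT P b => x.1.1) e
      exact this
    subst h1
    refine ⟨rfl, ?_⟩
    have h2 : (g : G ⧸ PJ P S) = (h : G ⧸ PJ P S) := eq_of_heq (Sigma.mk.inj_iff.mp e).2
    exact QuotientGroup.eq.mp h2
  · rintro ⟨rfl, h1⟩
    have h2 : (g : G ⧸ PJ P S) = (h : G ⧸ PJ P S) := QuotientGroup.eq.mpr h1
    rw [XT.mk, XT.mk, h2]

theorem XT.exists_mk (P : I → Subgroup G) {b : ℕ} (x : XT P b) :
    ∃ (S : Finset I) (hS : S.card = b) (g : G), x = XT.mk P S hS g := by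
  obtain ⟨⟨S, hS⟩, c⟩ := x
  induction c using QuotientGroup.induction_on with
  | H g => exact ⟨S, hS, g, rfl⟩

instance (P : I → Subgroup G) (b : ℕ) : MulAction G (XT P b) where
  smul g x := ⟨x.1, g • x.2⟩
  one_smul x := by
    obtain ⟨S, c⟩ := x
    change (⟨S, (1 : G) • c⟩ : XT P b) = ⟨S, c⟩
    rw [one_smul]
  mul_smul g h x := by
    change (⟨x.1, (g * h) • x.2⟩ : XT P b) = ⟨x.1, g • (h • x.2)⟩
    rw [mul_smul]

theorem XT.smul_mk (P : I → Subgroup G) {b : ℕ} (S : Finset I) (hS : S.card = b) (g h : G) :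
    g • XT.mk P S hS h = XT.mk P S hS (g * h) := rfl

/-- Faces. -/
def XT.fc (P : I → Subgroup G) (b : ℕ) (x : XT P (b + 1)) : Multiset (XT P b) :=
  x.1.1.attach.val.map (fun i =>
    ⟨⟨x.1.1.erase i.1, by rw [Finset.card_erase_of_mem i.2, x.1.2]; rfl⟩,
      Subgroup.quotientMapOfLE (PJ_anti P (Finset.erase_subset i.1 x.1.1)) x.2⟩)

theorem XT.fc_mk (P : I → Subgroup G) (b : ℕ) (S : Finset I) (hS : S.card = b + 1) (g : G) :
    XT.fc P b (XT.mk P S hS g) = S.attach.val.map (fun i =>
      XT.mk P (S.erase i.1) (by rw [Finset.card_erase_of_mem i.2, hS]; rfl) g) := rfl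

theorem XT.sum_fc (P : I → Subgroup G) (b : ℕ) (f : XT P b → F2) (S : Finset I)
    (hS : S.card = b + 1) (g : G) (F : Finset I → F2)
    (hF : ∀ i ∈ S, ∀ h : (S.erase i).card = b, f (XT.mk P (S.erase i) h g) = F (S.erase i)) :
    ((XT.fc P b (XT.mk P S hS g)).map f).sum = ∑ i ∈ S, F (S.erase i) := by
  rw [XT.fc_mk, Multiset.map_map]
  change ∑ i ∈ S.attach, _ = _
  rw [← Finset.sum_attach S]
  refine Finset.sum_congr rfl fun i _ => ?_
  exact hF i.1 i.2 _

open Classical in
/-- Value of a function on the face of type `S` of `g` (zero if the type has the wrong size). -/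
noncomputable def XT.ev {P : I → Subgroup G} {b : ℕ} (f : XT P b → F2) (S : Finset I) (g : G) : F2 :=
  if h : S.card = b then f (XT.mk P S h g) else 0

theorem XT.ev_of_card {P : I → Subgroup G} {b : ℕ} (f : XT P b → F2) {S : Finset I}
    (h : S.card = b) (g : G) : XT.ev f S g = f (XT.mk P S h g) := by
  rw [XT.ev, dif_pos h]

instance (P : I → Subgroup G) : Cx (XT P) where
  fc := XT.fc P
  fcfc n f x := by
    obtain ⟨S, hS, g, rfl⟩ := XT.exists_mk P x
    have h1 : ∀ T : Finset I, ∀ hT : T.card = n + 1,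
        ((XT.fc P n (XT.mk P T hT g)).map f).sum = ∑ i ∈ T, XT.ev f (T.erase i) g := by
      intro T hT
      exact XT.sum_fc P n f T hT g (fun U => XT.ev f U g) (fun _ _ h => (XT.ev_of_card f h g).symm)
    rw [XT.sum_fc P (n + 1) _ S hS g (fun T => ∑ i ∈ T, XT.ev f (T.erase i) g)
      (fun _ _ h => h1 _ h)]
    have := congrFun (congrFun (cob_cob' (fun S (_ : G) => XT.ev f S g)) S) g
    exact this
where
  cob_cob' (f : Finset I → G → ZMod 2) : cob (cob f) = 0 := by
    funext S x
    simp only [cob, Pi.zero_apply]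
    rw [Finset.sum_sigma']
    refine Finset.sum_involution (fun p _ => ⟨p.2, p.1⟩) ?_ ?_ ?_ ?_
    · rintro ⟨a, b⟩ h
      simp only [Finset.mem_sigma, Finset.mem_erase] at h
      rw [Finset.erase_right_comm]
      exact CharTwo.add_self_eq_zero _
    · rintro ⟨a, b⟩ h _
      simp only [Finset.mem_sigma, Finset.mem_erase] at h
      intro e
      simp only [Sigma.mk.injEq, heq_eq_eq] at e
      exact h.2.1 e.1
    · rintro ⟨a, b⟩ h
      simp only [Finset.mem_sigma, Finset.mem_erase] at h ⊢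
      exact ⟨h.2.2, fun e => h.2.1 e.symm, h.1⟩
    · rintro ⟨a, b⟩ h
      rfl

theorem XT.cd_mk (P : I → Subgroup G) {b : ℕ} (f : XT P b → F2) (S : Finset I)
    (hS : S.card = b + 1) (g : G) :
    cd f (XT.mk P S hS g) = ∑ i ∈ S, XT.ev f (S.erase i) g :=
  XT.sum_fc P b f S hS g (fun U => XT.ev f U g) (fun _ _ h => (XT.ev_of_card f h g).symm)

instance (P : I → Subgroup G) : CxAct G (XT P) where
  fc_smul n g x := by
    obtain ⟨S, hS, h, rfl⟩ := XT.exists_mk P x
    rw [XT.smul_mk]
    change XT.fc P n _ = Multiset.map _ (XT.fc P n _)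
    rw [XT.fc_mk, XT.fc_mk, Multiset.map_map]
    rfl

end Crest.Agent.R066.E
end

-- ▼ part R066/EXTDual
section

/-!
# Row 66, part (E): exactness of the function complex of the typed coset complex from exactness of chains
-/

set_option autoImplicit false
set_option linter.unusedSectionVars false

open Finset

namespace Crest.Agent.R066.E

section Dual

variable {I G : Type*} [DecidableEq I] [Group G] (P : I → Subgroup G) [DecidableEq (CosetVert P)]

/-- The simplex of type `S` of the chamber `g`. -/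
def XT.sx (S : Finset I) (g : G) : Finset (CosetVert P) :=
  S.image (fun i => (⟨i, (g : G ⧸ P i)⟩ : CosetVert P))

theorem XT.vert_inj (g : G) :
    Function.Injective (fun i => (⟨i, (g : G ⧸ P i)⟩ : CosetVert P)) := by
  intro i j h
  exact congrArg Sigma.fst h

theorem XT.card_sx (S : Finset I) (g : G) : (XT.sx P S g).card = S.card :=
  Finset.card_image_of_injective _ (XT.vert_inj P g)

theorem XT.sx_mem (S : Finset I) (g : G) : XT.sx P S g ∈ cosetCx P := by
  refine ⟨g, fun v hv => ?_⟩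
  obtain ⟨i, _, rfl⟩ := Finset.mem_image.mp hv
  rfl

theorem XT.mem_sx {S : Finset I} {g : G} {v : CosetVert P} :
    v ∈ XT.sx P S g ↔ v.1 ∈ S ∧ v.2 = (g : G ⧸ P v.1) := by
  constructor
  · intro hv
    obtain ⟨i, hi, rfl⟩ := Finset.mem_image.mp hv
    exact ⟨hi, rfl⟩
  · rintro ⟨h1, h2⟩
    refine Finset.mem_image.mpr ⟨v.1, h1, ?_⟩
    rw [← h2]

theorem XT.exists_sx {s : Finset (CosetVert P)} (hs : s ∈ cosetCx P) :
    ∃ (S : Finset I) (g : G), s = XT.sx P S g := by
  obtain ⟨g, hg⟩ := hs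
  refine ⟨s.image Sigma.fst, g, ?_⟩
  ext v
  rw [XT.mem_sx]
  constructor
  · intro hv
    exact ⟨Finset.mem_image_of_mem _ hv, hg v hv⟩
  · rintro ⟨h1, h2⟩
    obtain ⟨w, hw, hwv⟩ := Finset.mem_image.mp h1
    have h3 := hg w hw
    obtain ⟨i, c⟩ := v
    obtain ⟨j, d⟩ := w
    simp only at hwv h2 h3
    subst hwv
    rw [h2, ← h3]
    exact hw

theorem XT.sx_eq_iff {S T : Finset I} {g h : G} :
    XT.sx P S g = XT.sx P T h ↔ S = T ∧ g⁻¹ * h ∈ PJ P S := by
  constructor
  · intro e
    have h1 : S = T := by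
      ext i
      constructor
      · intro hi
        have : (⟨i, (g : G ⧸ P i)⟩ : CosetVert P) ∈ XT.sx P T h := by
          rw [← e]; exact (XT.mem_sx P).mpr ⟨hi, rfl⟩
        exact ((XT.mem_sx P).mp this).1
      · intro hi
        have : (⟨i, (h : G ⧸ P i)⟩ : CosetVert P) ∈ XT.sx P S g := by
          rw [e]; exact (XT.mem_sx P).mpr ⟨hi, rfl⟩
        exact ((XT.mem_sx P).mp this).1
    refine ⟨h1, ?_⟩
    simp only [PJ, Subgroup.mem_iInf]
    intro i hi
    have : (⟨i, (g : G ⧸ P i)⟩ : CosetVert P) ∈ XT.sx P T h := by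
      rw [← e]; exact (XT.mem_sx P).mpr ⟨hi, rfl⟩
    exact QuotientGroup.eq.mp ((XT.mem_sx P).mp this).2
  · rintro ⟨rfl, h1⟩
    simp only [PJ, Subgroup.mem_iInf] at h1
    ext v
    rw [XT.mem_sx, XT.mem_sx]
    constructor
    · rintro ⟨h2, h3⟩
      exact ⟨h2, h3.trans (QuotientGroup.eq.mpr (h1 _ h2))⟩
    · rintro ⟨h2, h3⟩
      exact ⟨h2, h3.trans (QuotientGroup.eq.mpr (h1 _ h2)).symm⟩

theorem XT.sx_erase {S : Finset I} {g : G} (i : I) :
    (XT.sx P S g).erase ⟨i, (g : G ⧸ P i)⟩ = XT.sx P (S.erase i) g :=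
  (Finset.image_erase (XT.vert_inj P g) S i).symm

theorem XT.bd_sx (S : Finset I) (g : G) :
    bd (Finsupp.single (XT.sx P S g) 1) =
      ∑ i ∈ S, (Finsupp.single (XT.sx P (S.erase i) g) 1 : Ch (CosetVert P)) := by
  rw [bd_single]
  conv_lhs => rw [XT.sx]
  rw [Finset.sum_image (fun i _ j _ h => XT.vert_inj P g h)]
  refine Finset.sum_congr rfl fun i _ => ?_
  rw [← XT.sx_erase]
  rfl

open Classical in
/-- Value of `f` on a simplex of the coset complex. -/
noncomputable def XT.val {b : ℕ} (f : XT P b → F2) (s : Finset (CosetVert P)) : F2 :=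
  if h : ∃ (S : Finset I) (_ : S.card = b) (g : G), s = XT.sx P S g then
    f (XT.mk P h.choose h.choose_spec.choose h.choose_spec.choose_spec.choose) else 0

theorem XT.val_sx {b : ℕ} (f : XT P b → F2) (S : Finset I) (hS : S.card = b) (g : G) :
    XT.val P f (XT.sx P S g) = f (XT.mk P S hS g) := by
  have h : ∃ (T : Finset I) (_ : T.card = b) (g' : G), XT.sx P S g = XT.sx P T g' := ⟨S, hS, g, rfl⟩
  rw [XT.val, dif_pos h]
  congr 1
  rw [XT.mk_eq_iff]
  have h2 := h.choose_spec.choose_spec.choose_spec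
  exact (XT.sx_eq_iff P).mp h2.symm

/-- The functional on chains given by a function on faces. -/
noncomputable def XT.fn {b : ℕ} (f : XT P b → F2) : Ch (CosetVert P) →ₗ[ZMod 2] F2 :=
  Finsupp.linearCombination (ZMod 2) (XT.val P f)

theorem XT.fn_sx {b : ℕ} (f : XT P b → F2) (S : Finset I) (hS : S.card = b) (g : G) :
    XT.fn P f (Finsupp.single (XT.sx P S g) 1) = f (XT.mk P S hS g) := by
  rw [XT.fn, Finsupp.linearCombination_single, one_smul, XT.val_sx]

theorem XT.fn_bd_sx {b : ℕ} (f : XT P b → F2) (S : Finset I) (hS : S.card = b + 1) (g : G) :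
    XT.fn P f (bd (Finsupp.single (XT.sx P S g) 1)) = cd f (XT.mk P S hS g) := by
  rw [XT.bd_sx, map_sum, XT.cd_mk]
  refine Finset.sum_congr rfl fun i hi => ?_
  have h : (S.erase i).card = b := by rw [Finset.card_erase_of_mem hi, hS]; rfl
  rw [XT.fn_sx P f _ h, XT.ev_of_card f h]

theorem XT.chains_induction {i : ℕ} {N : Type*} [AddCommMonoid N] [Module (ZMod 2) N]
    {φ ψ : Ch (CosetVert P) →ₗ[ZMod 2] N}
    (h : ∀ (S : Finset I) (_ : S.card = i) (g : G),
      φ (Finsupp.single (XT.sx P S g) 1) = ψ (Finsupp.single (XT.sx P S g) 1))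
    {z : Ch (CosetVert P)} (hz : z ∈ chains (cosetCx P) i) : φ z = ψ z := by
  rw [mem_chains] at hz
  rw [← Finsupp.sum_single z, Finsupp.sum, map_sum, map_sum]
  refine Finset.sum_congr rfl fun s hs => ?_
  obtain ⟨h1, h2⟩ := hz s hs
  obtain ⟨S, g, rfl⟩ := XT.exists_sx P h1
  rw [XT.card_sx] at h2
  have h3 : (Finsupp.single (XT.sx P S g) (z (XT.sx P S g)) : Ch (CosetVert P)) =
      z (XT.sx P S g) • Finsupp.single (XT.sx P S g) 1 := by
    rw [Finsupp.smul_single, smul_eq_mul, mul_one]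
  rw [h3, map_smul, map_smul, h S h2 g]

theorem XT.fn_bd {b : ℕ} (f : XT P b → F2) (hf : cd f = 0) {z : Ch (CosetVert P)}
    (hz : z ∈ chains (cosetCx P) (b + 1)) : XT.fn P f (bd z) = 0 := by
  have := XT.chains_induction P (φ := (XT.fn P f).comp bd) (ψ := 0) (i := b + 1) ?_ hz
  · exact this
  · intro S hS g
    rw [LinearMap.comp_apply, XT.fn_bd_sx P f S hS, hf]
    rfl

/-- Exactness of the chain complex gives exactness of the complex of all functions. -/
theorem XT.fex_of_exactAt (m : ℕ) (h : ExactAt (cosetCx P) m) : FEx (XT P) m := by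
  cases m with
  | zero =>
    intro f hf
    funext x
    obtain ⟨S, hS, g, rfl⟩ := XT.exists_mk P x
    have hz : (Finsupp.single (XT.sx P S g) 1 : Ch (CosetVert P)) ∈ chains (cosetCx P) 0 :=
      single_mem_chains' (XT.sx_mem P S g) (by rw [XT.card_sx, hS]) 1
    have hS0 : S = ∅ := Finset.card_eq_zero.mp hS
    obtain ⟨y, hy, hy2⟩ := h _ hz (by rw [XT.bd_sx, hS0, Finset.sum_empty])
    have h1 := XT.fn_bd P f hf hy
    rw [hy2, XT.fn_sx P f S hS] at h1
    exact h1
  | succ n =>
    intro f hf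
    -- the functional on chains factors through the boundary
    let B : ↥(chains (cosetCx P) (n + 1)) →ₗ[ZMod 2] Ch (CosetVert P) :=
      bd.comp (Submodule.subtype _)
    let φ : Module.Dual (ZMod 2) ↥(chains (cosetCx P) (n + 1)) :=
      (XT.fn P f).comp (Submodule.subtype _)
    have hφ : φ ∈ (LinearMap.ker B).dualAnnihilator := by
      rw [Submodule.mem_dualAnnihilator]
      rintro ⟨z, hz⟩ hz2
      have hz3 : bd z = 0 := hz2
      obtain ⟨y, hy, hy2⟩ := h z hz hz3
      change XT.fn P f z = 0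
      rw [← hy2]
      exact XT.fn_bd P f hf hy
    rw [← LinearMap.range_dualMap_eq_dualAnnihilator_ker] at hφ
    obtain ⟨ψ, hψ⟩ := hφ
    refine ⟨fun x => ψ (Finsupp.single (XT.sx P x.1.1 x.2.out) 1), ?_⟩
    have hg : ∀ (S : Finset I) (hS : S.card = n) (g : G),
        (fun x : XT P n => ψ (Finsupp.single (XT.sx P x.1.1 x.2.out) 1)) (XT.mk P S hS g) =
          ψ (Finsupp.single (XT.sx P S g) 1) := by
      intro S hS g
      change ψ (Finsupp.single (XT.sx P S (g : G ⧸ PJ P S).out) 1) = _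
      have : XT.sx P S (g : G ⧸ PJ P S).out = XT.sx P S g := by
        rw [XT.sx_eq_iff]
        refine ⟨rfl, ?_⟩
        exact QuotientGroup.eq.mp (Quotient.out_eq' (g : G ⧸ PJ P S))
      rw [this]
    funext x
    obtain ⟨S, hS, g, rfl⟩ := XT.exists_mk P x
    rw [XT.cd_mk]
    have h1 : ∀ i ∈ S, XT.ev (fun x : XT P n => ψ (Finsupp.single (XT.sx P x.1.1 x.2.out) 1))
        (S.erase i) g = ψ (Finsupp.single (XT.sx P (S.erase i) g) 1) := by
      intro i hi
      have h : (S.erase i).card = n := by rw [Finset.card_erase_of_mem hi, hS]; rfl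
      rw [XT.ev_of_card _ h]
      exact hg _ h g
    rw [Finset.sum_congr rfl h1, ← map_sum, ← XT.bd_sx]
    have hz : (Finsupp.single (XT.sx P S g) 1 : Ch (CosetVert P)) ∈
        chains (cosetCx P) (n + 1) :=
      single_mem_chains' (XT.sx_mem P S g) (by rw [XT.card_sx, hS]) 1
    have h2 := LinearMap.congr_fun hψ ⟨_, hz⟩
    change ψ (bd (Finsupp.single (XT.sx P S g) 1)) = XT.fn P f (Finsupp.single (XT.sx P S g) 1) at h2
    rw [h2, XT.fn_sx P f S hS]

end Dual

end Crest.Agent.R066.E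
end

-- ▼ part R066/EXTInv
section

/-!
# Row 66, part (E): invariant functions on the typed coset complex; stabilisers
-/

set_option autoImplicit false
set_option linter.unusedSectionVars false

open Finset

namespace Crest.Agent.R066.E

variable {I G : Type*} [DecidableEq I] [Group G]

theorem XT.inv_mk {P : I → Subgroup G} {b : ℕ} {f : XT P b → F2} (hf : Inv G f) (S : Finset I)
    (hS : S.card = b) (g : G) : f (XT.mk P S hS g) = XT.ev f S 1 := by
  rw [XT.ev_of_card f hS]
  have := hf g (XT.mk P S hS 1)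
  rw [XT.smul_mk, mul_one] at this
  exact this

theorem XT.ex_top [Nonempty I] (P : I → Subgroup G) (b : ℕ) : Ex G (XT P) b := by
  classical
  obtain ⟨i0⟩ := (inferInstance : Nonempty I)
  cases b with
  | zero =>
    intro f _ h0
    funext x
    obtain ⟨S, hS, g, rfl⟩ := XT.exists_mk P x
    have h1 := congrFun h0 (XT.mk P {i0} (Finset.card_singleton i0) g)
    rw [XT.cd_mk, Finset.sum_singleton] at h1
    have h2 : ({i0} : Finset I).erase i0 = S := by
      rw [Finset.card_eq_zero.mp hS]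
      simp
    rw [h2, XT.ev_of_card f hS] at h1
    exact h1
  | succ n =>
    intro f hf h0
    let φ : Finset I → F2 := fun S => XT.ev f S 1
    let γ : Finset I → F2 := fun T => if i0 ∈ T then 0 else φ (insert i0 T)
    refine ⟨fun x => γ x.1.1, ?_, ?_⟩
    · intro k x
      rfl
    · funext x
      obtain ⟨S, hS, g, rfl⟩ := XT.exists_mk P x
      rw [XT.cd_mk, XT.inv_mk hf]
      have h1 : ∀ i ∈ S, XT.ev (fun x : XT P n => γ x.1.1) (S.erase i) g = γ (S.erase i) := by
        intro i hi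
        rw [XT.ev_of_card _ (by rw [Finset.card_erase_of_mem hi, hS]; rfl)]
        rfl
      rw [Finset.sum_congr rfl h1]
      change _ = φ S
      by_cases hi0 : i0 ∈ S
      · rw [Finset.sum_eq_single i0]
        · simp only [γ, Finset.notMem_erase, if_false]
          rw [Finset.insert_erase hi0]
        · intro i hi hne
          simp only [γ]
          rw [if_pos (Finset.mem_erase.mpr ⟨hne.symm, hi0⟩)]
        · exact fun h => absurd hi0 h
      · have h2 := congrFun h0 (XT.mk P (insert i0 S)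
          (by rw [Finset.card_insert_of_notMem hi0, hS]) 1)
        rw [XT.cd_mk, Finset.sum_insert hi0, Finset.erase_insert hi0] at h2
        have h3 : ∑ i ∈ S, γ (S.erase i) = ∑ i ∈ S, XT.ev f ((insert i0 S).erase i) 1 := by
          refine Finset.sum_congr rfl fun i hi => ?_
          have hne : i ≠ i0 := fun h => hi0 (h ▸ hi)
          simp only [γ]
          rw [if_neg (fun h => hi0 (Finset.mem_of_mem_erase h)),
            Finset.erase_insert_of_ne hne.symm]
        rw [h3]
        exact (CharTwo.add_eq_zero.mp h2).symm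

theorem XT.stab_odd (P : I → Subgroup G) (hP : ∀ i, Finite (P i) ∧ Odd (Nat.card (P i)))
    (K : Subgroup G) {b : ℕ} (hb : 1 ≤ b) (y : XT P b) :
    Finite (MulAction.stabilizer K y) ∧ Odd (Nat.card (MulAction.stabilizer K y)) := by
  obtain ⟨S, hS, g, rfl⟩ := XT.exists_mk P y
  obtain ⟨i, hi⟩ : S.Nonempty := Finset.card_pos.mp (by omega)
  have hk : ∀ k : MulAction.stabilizer K (XT.mk P S hS g), g⁻¹ * (k.1 : G) * g ∈ P i := by
    rintro ⟨k, hk⟩
    rw [MulAction.mem_stabilizer_iff] at hk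
    have h1 : XT.mk P S hS ((k : G) * g) = XT.mk P S hS g := hk
    rw [XT.mk_eq_iff] at h1
    have h2 := h1.2
    have h3 := inv_mem h2
    have h4 : g⁻¹ * (k : G) * g ∈ PJ P S := by
      have : ((↑k * g)⁻¹ * g)⁻¹ = g⁻¹ * (k : G) * g := by group
      rwa [this] at h3
    simp only [PJ, Subgroup.mem_iInf] at h4
    exact h4 i hi
  let φ : MulAction.stabilizer K (XT.mk P S hS g) →* P i :=
    { toFun := fun k => ⟨g⁻¹ * (k.1 : G) * g, hk k⟩
      map_one' := by
        apply Subtype.ext
        simp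
      map_mul' := by
        intro a b
        apply Subtype.ext
        simp [mul_assoc] }
  have hinj : Function.Injective φ := by
    intro a b h
    have h1 : g⁻¹ * (a.1 : G) * g = g⁻¹ * (b.1 : G) * g := congrArg Subtype.val h
    have h2 : (a.1 : G) = b.1 := by
      have := mul_right_cancel h1
      exact mul_left_cancel this
    exact Subtype.ext (Subtype.ext h2)
  have hfin := (hP i).1
  refine ⟨Finite.of_injective φ hinj, ?_⟩
  exact Odd.of_dvd_nat (hP i).2 (Subgroup.card_dvd_of_injective φ hinj)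

theorem XT.stab_odd' (P : I → Subgroup G) (hP : ∀ i, Finite (P i) ∧ Odd (Nat.card (P i)))
    {b : ℕ} (hb : 1 ≤ b) (y : XT P b) :
    Finite (MulAction.stabilizer G y) ∧ Odd (Nat.card (MulAction.stabilizer G y)) := by
  obtain ⟨h1, h2⟩ := XT.stab_odd P hP ⊤ hb y
  have e : MulAction.stabilizer G y ≃ MulAction.stabilizer (⊤ : Subgroup G) y :=
    { toFun := fun g => ⟨⟨g.1, trivial⟩, g.2⟩
      invFun := fun g => ⟨g.1.1, g.2⟩
      left_inv := fun g => rfl
      right_inv := fun g => rfl }
  exact ⟨Finite.of_equiv _ e.symm, by rw [Nat.card_congr e]; exact h2⟩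

end Crest.Agent.R066.E
end

-- ▼ part R066/EXTVan
section

/-!
# Row 66, part (E): vanishing for the quotient system from exactness of the `N`-invariant functions
-/

set_option autoImplicit false
set_option linter.unusedSectionVars false

open Finset

namespace Crest.Agent.R066.E

theorem PJ_empty' {I G : Type*} [Group G] (P : I → Subgroup G) : PJ P ∅ = ⊤ := by simp [PJ]

section

variable {I G : Type*} [DecidableEq I] [Group G] (P : I → Subgroup G) (N : Subgroup G) [N.Normal]

theorem XT.ev_mul_right {b : ℕ} (u : XT P b → F2) (J : Finset I) (g k : G) (hk : k ∈ PJ P J) :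
    XT.ev u J (g * k) = XT.ev u J g := by
  unfold XT.ev
  split_ifs with h
  · congr 1
    rw [XT.mk_eq_iff]
    refine ⟨rfl, ?_⟩
    have : (g * k)⁻¹ * g = k⁻¹ := by group
    rw [this]
    exact (PJ P J).inv_mem hk
  · rfl

theorem XT.ev_smul {b : ℕ} {u : XT P b → F2} (hu : Inv N u) (J : Finset I) (a : G) (ha : a ∈ N)
    (g : G) : XT.ev u J (a * g) = XT.ev u J g := by
  unfold XT.ev
  split_ifs with h
  · have := hu ⟨a, ha⟩ (XT.mk P J h g)
    exact this
  · rfl

theorem XT.ev_out {b : ℕ} {u : XT P b → F2} (hu : Inv N u) (J : Finset I) (g : G) :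
    XT.ev u J ((g : G ⧸ N).out) = XT.ev u J g := by
  have h1 : (((g : G ⧸ N).out : G) : G ⧸ N) = (g : G ⧸ N) := Quotient.out_eq' _
  have h2 : g⁻¹ * (g : G ⧸ N).out ∈ N := QuotientGroup.eq.mp h1.symm
  have h3 : (g : G ⧸ N).out * g⁻¹ ∈ N := by
    have := (inferInstance : N.Normal).conj_mem _ h2 g
    have e : g * (g⁻¹ * (g : G ⧸ N).out) * g⁻¹ = (g : G ⧸ N).out * g⁻¹ := by group
    rwa [e] at this
  have h4 := XT.ev_smul P N hu J _ h3 g
  have e : (g : G ⧸ N).out * g⁻¹ * g = (g : G ⧸ N).out := by group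
  rw [e] at h4
  exact h4

/-- Exactness of the complex of `N`-invariant functions gives the vanishing of the cohomology of
the quotient system. -/
theorem van_of_ex (m : ℕ) (hm : 1 ≤ m)
    (hPJ : ∀ J : Finset I, PJ (fun i => (P i).map (QuotientGroup.mk' N)) J =
      (PJ P J).map (QuotientGroup.mk' N))
    (h : Ex N (XT P) m) : Van (fun i => (P i).map (QuotientGroup.mk' N)) m := by
  obtain ⟨n, rfl⟩ : ∃ n, m = n + 1 := ⟨m - 1, by omega⟩
  intro f hf hcl
  -- values of `f`
  have hfr : ∀ (J : Finset I), J.card = n + 1 → ∀ (g k : G), k ∈ PJ P J →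
      f J ((g * k : G) : G ⧸ N) = f J (g : G ⧸ N) := by
    intro J hJ g k hk
    have h1 := hf J hJ (Finset.disjoint_empty_right _) (g : G ⧸ N)
      (by rw [PJ_empty']; trivial) (k : G ⧸ N) (by
        rw [Finset.union_empty, hPJ]
        exact ⟨k, hk, rfl⟩)
    rw [← h1]
    rfl
  have hfl : ∀ (J : Finset I) (a g : G), a ∈ N →
      f J ((a * g : G) : G ⧸ N) = f J (g : G ⧸ N) := by
    intro J a g ha
    congr 1
    rw [QuotientGroup.mk_mul, (QuotientGroup.eq_one_iff a).mpr ha, one_mul]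
  -- the invariant function
  let F : XT P (n + 1) → F2 := fun x => f x.1.1 ((x.2.out : G) : G ⧸ N)
  have hF : ∀ (S : Finset I) (hS : S.card = n + 1) (g : G), F (XT.mk P S hS g) = f S (g : G ⧸ N) := by
    intro S hS g
    change f S (((g : G ⧸ PJ P S).out : G) : G ⧸ N) = _
    have h1 : (((g : G ⧸ PJ P S).out : G) : G ⧸ PJ P S) = (g : G ⧸ PJ P S) := Quotient.out_eq' _
    have h2 : g⁻¹ * (g : G ⧸ PJ P S).out ∈ PJ P S := QuotientGroup.eq.mp h1.symm
    have h3 := hfr S hS g _ h2
    rw [mul_inv_cancel_left] at h3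
    exact h3
  have hinv : Inv N F := by
    rintro ⟨a, ha⟩ x
    obtain ⟨S, hS, g, rfl⟩ := XT.exists_mk P x
    have e : (⟨a, ha⟩ : N) • XT.mk P S hS g = XT.mk P S hS (a * g) := rfl
    rw [e, hF, hF, hfl S a g ha]
  have hcd : cd F = 0 := by
    funext x
    obtain ⟨S, hS, g, rfl⟩ := XT.exists_mk P x
    rw [XT.cd_mk]
    have h1 := hcl S hS (g : G ⧸ N)
    unfold cob at h1
    change _ = (0 : F2)
    rw [← h1]
    refine Finset.sum_congr rfl fun i hi => ?_
    have h2 : (S.erase i).card = n + 1 := by rw [Finset.card_erase_of_mem hi, hS]; rfl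
    rw [XT.ev_of_card _ h2, hF]
  obtain ⟨u, hu, hcu⟩ := h F hinv hcd
  refine ⟨fun J x => XT.ev u J x.out, ?_, ?_⟩
  · intro J _ _ x _ y hy
    rw [Finset.union_empty, hPJ] at hy
    obtain ⟨k, hk, rfl⟩ := hy
    induction x using QuotientGroup.induction_on with
    | H g =>
      have e : ((g : G ⧸ N) * QuotientGroup.mk' N k) = ((g * k : G) : G ⧸ N) := rfl
      rw [e]
      change XT.ev u J (((g * k : G) : G ⧸ N).out) = XT.ev u J ((g : G ⧸ N).out)
      rw [XT.ev_out P N hu, XT.ev_out P N hu, XT.ev_mul_right P u J g k hk]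
  · intro J hJ x
    induction x using QuotientGroup.induction_on with
    | H g =>
      rw [← hF J hJ g, ← hcu, XT.cd_mk]
      unfold cob
      exact Finset.sum_congr rfl fun i _ => (XT.ev_out P N hu (J.erase i) g).symm

end

end Crest.Agent.R066.E
end

-- ▼ part R066/TransvU
section

/-!
# Row 66, part (E5): unitriangular matrices and the subgroups `Hsub` lie in the group generated
by transvections; `Gam` is the congruence subgroup `NP`.
-/

set_option autoImplicit false

namespace Crest.Agent.R066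

open Module Matrix

section Tri

variable {R : Type*} [CommRing R] {n : ℕ}

/-- The coordinate functional. -/
def coord (R : Type*) [CommRing R] {n : ℕ} (i : Fin n) : Dual R (Fin n → R) := LinearMap.proj i

/-- The standard frame. -/
def stdFrame (R : Type*) [CommRing R] {n : ℕ} (i : Fin n) : Frame R (Fin n → R) :=
  ⟨Pi.single i 1, coord R i, by simp [coord]⟩

theorem equiv_ext {g h : (Fin n → R) ≃ₗ[R] (Fin n → R)}
    (H : ∀ j, g (Pi.single j 1) = h (Pi.single j 1)) : g = h := by
  apply LinearEquiv.toLinearMap_injective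
  apply LinearMap.pi_ext'
  intro j
  ext1
  exact H j

theorem equiv_apply_of_fix {g : (Fin n → R) ≃ₗ[R] (Fin n → R)} (w : Fin n → R)
    (H : ∀ j, w j ≠ 0 → g (Pi.single j 1) = Pi.single j 1) : g w = w := by
  have h1 : w = ∑ j, w j • (Pi.single j 1 : Fin n → R) := by
    ext i
    simp [Finset.sum_apply, Pi.single_apply]
  conv_lhs => rw [h1]
  conv_rhs => rw [h1]
  rw [map_sum]
  refine Finset.sum_congr rfl fun j _ => ?_
  rw [map_smul]
  by_cases hj : w j = 0
  · rw [hj, zero_smul, zero_smul]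
  · rw [H j hj]

/-- A subgroup containing the transvections `1 + w ⊗ e_j^*` contains all unitriangular
automorphisms, for any ordering `ρ` of the coordinates. -/
theorem unitri_mem (F : Subgroup ((Fin n → R) ≃ₗ[R] (Fin n → R)))
    (hF : ∀ j : Fin n, W1 (stdFrame R j) ≤ F) (ρ : Fin n → ℕ)
    (g : (Fin n → R) ≃ₗ[R] (Fin n → R)) (h1 : ∀ j, g (Pi.single j 1) j = 1)
    (h2 : ∀ i j, i ≠ j → ρ i ≤ ρ j → g (Pi.single j 1) i = 0) : g ∈ F := by
  classical
  -- induction on a bound `k` such that `g` fixes all basis vectors of rank `≥ k`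
  have key : ∀ (m k : ℕ) (g : (Fin n → R) ≃ₗ[R] (Fin n → R)),
      (Finset.univ.filter fun j : Fin n => ρ j < k).card ≤ m →
      (∀ j, g (Pi.single j 1) j = 1) → (∀ i j, i ≠ j → ρ i ≤ ρ j → g (Pi.single j 1) i = 0) →
      (∀ j, k ≤ ρ j → g (Pi.single j 1) = Pi.single j 1) → g ∈ F := by
    intro _ k
    induction k with
    | zero =>
      intro g _ _ _ h3
      have : g = 1 := equiv_ext fun j => h3 j (Nat.zero_le _)
      rw [this]
      exact F.one_mem
    | succ k ih =>
      -- treat the columns of rank `k` one after the other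
      intro g hm h1 h2 h3
      have inner : ∀ (s : Finset (Fin n)) (g : (Fin n → R) ≃ₗ[R] (Fin n → R)),
          (∀ j, g (Pi.single j 1) j = 1) →
          (∀ i j, i ≠ j → ρ i ≤ ρ j → g (Pi.single j 1) i = 0) →
          (∀ j, k + 1 ≤ ρ j → g (Pi.single j 1) = Pi.single j 1) →
          (∀ j, ρ j = k → j ∉ s → g (Pi.single j 1) = Pi.single j 1) → g ∈ F := by
        intro s
        induction s using Finset.induction_on with
        | empty =>
          intro g h1 h2 h3 h4
          refine ih g ?_ h1 h2 fun j hj => ?_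
          · exact (Finset.card_le_card (fun j hj => by
              simp only [Finset.mem_filter, Finset.mem_univ, true_and] at hj ⊢
              omega)).trans hm
          · rcases Nat.eq_or_lt_of_le hj with h | h
            · exact h4 j h.symm (Finset.notMem_empty j)
            · exact h3 j h
        | insert j0 s hj0 ihs =>
          intro g h1 h2 h3 h4
          by_cases hρ : ρ j0 = k
          swap
          · refine ihs g h1 h2 h3 fun j hj hjs => h4 j hj ?_
            rw [Finset.mem_insert, not_or]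
            exact ⟨fun e => hρ (e ▸ hj), hjs⟩
          let w : Fin n → R := g (Pi.single j0 1) - Pi.single j0 1
          have hw0 : coord R j0 w = 0 := by
            simp [coord, w, h1]
          have hwi : ∀ i, w i ≠ 0 → k + 1 ≤ ρ i := by
            intro i hi
            by_contra hcon
            apply hi
            by_cases hij : i = j0
            · rw [hij]; exact hw0
            · have := h2 i j0 hij (by omega)
              simp [w, this, hij]
          let T := transv (stdFrame R j0).φ w hw0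
          have hTF : T ∈ F := hF j0 (transv_mem_W1 (stdFrame R j0) w hw0)
          have hTinv : T⁻¹ = transv (stdFrame R j0).φ (-w) (by rw [map_neg]; exact neg_eq_zero.2 hw0) :=
            transv_inv _ _ _
          have hgw : g w = w := equiv_apply_of_fix w fun j hj => h3 j (hwi j hj)
          have hne : ∀ j, j ≠ j0 → (g * T⁻¹) (Pi.single j 1) = g (Pi.single j 1) := by
            intro j hj
            rw [LinearEquiv.mul_apply, hTinv, transv_apply]
            have : (stdFrame R j0).φ (Pi.single j 1) = 0 := by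
              simp [stdFrame, coord, hj.symm]
            rw [this, zero_smul, add_zero]
          have heq : (g * T⁻¹) (Pi.single j0 1) = Pi.single j0 1 := by
            rw [LinearEquiv.mul_apply, hTinv, transv_apply]
            have : (stdFrame R j0).φ (Pi.single j0 1) = 1 := (stdFrame R j0).h
            rw [this, one_smul, map_add, map_neg, hgw]
            simp [w]
          have hmem : g * T⁻¹ ∈ F := by
            refine ihs (g * T⁻¹) ?_ ?_ ?_ ?_
            · intro j
              by_cases hj : j = j0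
              · rw [hj, heq]; simp
              · rw [hne j hj, h1]
            · intro i j hij hle
              by_cases hj : j = j0
              · rw [hj, heq, Pi.single_eq_of_ne]
                exact hj ▸ hij
              · rw [hne j hj, h2 i j hij hle]
            · intro j hj
              rw [hne j (by rintro rfl; omega), h3 j hj]
            · intro j hj hjs
              by_cases hjj : j = j0
              · rw [hjj, heq]
              · rw [hne j hjj]
                exact h4 j hj (by rw [Finset.mem_insert, not_or]; exact ⟨hjj, hjs⟩)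
          have := F.mul_mem hmem hTF
          rwa [inv_mul_cancel_right] at this
      exact inner Finset.univ g h1 h2 h3 fun j _ hj => absurd (Finset.mem_univ j) hj
  refine key n (Finset.univ.sup ρ + 1) g ?_ h1 h2 fun j hj => ?_
  · exact (Finset.card_le_univ _).trans (by simp)
  · have := Finset.le_sup (f := ρ) (Finset.mem_univ j)
    omega

end Tri

section Mat

variable {R : Type*} [CommRing R] {n : ℕ}

theorem toLin'_single (A : SpecialLinearGroup (Fin n) R) (i j : Fin n) :
    SpecialLinearGroup.toLin' A (Pi.single j 1) i = A.1 i j := by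
  rw [SpecialLinearGroup.toLin'_apply, Matrix.toLin'_apply, Matrix.mulVec_single_one]
  rfl

theorem mem_smul_top_pi {I : Ideal R} {w : Fin n → R} :
    w ∈ I • (⊤ : Submodule R (Fin n → R)) ↔ ∀ i, w i ∈ I := by
  constructor
  · intro h i
    exact dual_mem_of_mem_smul_top (coord R i) h
  · intro h
    have h1 : w = ∑ j, w j • (Pi.single j 1 : Fin n → R) := by
      ext i
      simp [Finset.sum_apply, Pi.single_apply]
    rw [h1]
    exact sum_mem fun i _ => smul_mem_smul_top (h i) _

theorem mem_ker_map_iff {I : Ideal R} {A : SpecialLinearGroup (Fin n) R} :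
    A ∈ (SpecialLinearGroup.map (Ideal.Quotient.mk I)).ker ↔
      ∀ i j, A.1 i j - (1 : Matrix (Fin n) (Fin n) R) i j ∈ I := by
  rw [MonoidHom.mem_ker]
  refine (Matrix.SpecialLinearGroup.ext_iff _ _).trans ?_
  refine forall_congr' fun i => forall_congr' fun j => ?_
  rw [← Ideal.Quotient.eq_zero_iff_mem, map_sub, sub_eq_zero]
  have : (Ideal.Quotient.mk I) ((1 : Matrix (Fin n) (Fin n) R) i j)
      = (1 : Matrix (Fin n) (Fin n) (R ⧸ I)) i j := by
    rw [Matrix.one_apply, Matrix.one_apply]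
    split_ifs
    · exact map_one _
    · exact map_zero _
  rw [this]
  rfl

/-- The congruence subgroup in terms of matrices. -/
theorem toLin'_mem_NP_iff {I : Ideal R} {A : SpecialLinearGroup (Fin n) R} :
    SpecialLinearGroup.toLin' A ∈ NP (Fin n → R) I ↔
      A ∈ (SpecialLinearGroup.map (Ideal.Quotient.mk I)).ker := by
  rw [mem_ker_map_iff, mem_NP]
  constructor
  · intro h i j
    have := mem_smul_top_pi.1 (h (Pi.single j 1)) i
    rw [Pi.sub_apply, toLin'_single] at this
    convert this using 2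
    rw [Matrix.one_apply, Pi.single_apply]
  · intro h x
    rw [mem_smul_top_pi]
    intro i
    have h1 : (SpecialLinearGroup.toLin' A x - x) i
        = ∑ j, (A.1 i j - (1 : Matrix (Fin n) (Fin n) R) i j) * x j := by
      rw [SpecialLinearGroup.toLin'_apply, Matrix.toLin'_apply, Pi.sub_apply]
      simp only [sub_mul, Finset.sum_sub_distrib]
      congr 1
      simp [Matrix.one_apply]
    rw [h1]
    exact sum_mem fun j _ => Ideal.mul_mem_right _ _ (h i j)

end Mat

section Global

open Polynomial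

variable {n p : ℕ} [Fact p.Prime] [NeZero n]

omit [NeZero n] in
theorem finrank_pi_poly : finrank (ZMod p)[X] (Fin n → (ZMod p)[X]) = n := by
  rw [finrank_fintype_fun_eq_card, Fintype.card_fin]

omit [NeZero n] in
/-- `Gam` is the congruence subgroup. -/
theorem mem_Gam_iff_NP (k : ℕ) (A : SLX n p) :
    A ∈ Gam n p k ↔ SpecialLinearGroup.toLin' A ∈
      NP (Fin n → (ZMod p)[X]) (Ideal.span {(X : (ZMod p)[X]) ^ k}) := by
  rw [toLin'_mem_NP_iff]; rfl

/-- The finite groups `Hsub` consist of products of transvections. -/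
theorem Hsub_le_FG (hn : 5 ≤ n) (a : Frame (ZMod p)[X] (Fin n → (ZMod p)[X])) (j : Fin n) :
    Hsub n p j ≤ (FG a).comap SpecialLinearGroup.toLin' := by
  rw [Hsub, Subgroup.closure_le]
  rintro A ⟨u, hu⟩
  change SpecialLinearGroup.toLin' A ∈ FG a
  have h5 : 5 ≤ finrank (ZMod p)[X] (Fin n → (ZMod p)[X]) := by
    rw [finrank_pi_poly]; exact hn
  refine unitri_mem (FG a) (fun i => ?_) (fun i => ((i - j : Fin n) : ℕ)) _ ?_ ?_
  · rw [FG_eq h5 a (stdFrame _ i)]
    exact W1_le_FG _
  · intro i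
    rw [toLin'_single, hu]
    simp only [phiMat]
    rw [u.2.1 (i - j)]
    simp
  · intro i l hil hle
    rw [toLin'_single, hu]
    simp only [phiMat]
    have hne : i - j ≠ l - j := fun e => hil (sub_left_injective e)
    have hlt : i - j < l - j := lt_of_le_of_ne hle hne
    rw [u.2.2 _ _ hlt]
    simp

end Global

section Generation

variable {I : Type*} {G : Type*} [Group G]

/-- If the coset complex is connected then the subgroups generate the group. -/
theorem iSup_eq_top_of_exactAt (P : I → Subgroup G) [DecidableEq (CosetVert P)] (i0 : I)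
    (h : ExactAt (cosetCx P) 1) : ⨆ i, P i = ⊤ := by
  classical
  rw [eq_top_iff]
  intro g _
  set L : Subgroup G := ⨆ i, P i with hL
  -- membership of cosets in `L`
  let good : CosetVert P → Prop := fun v => ∀ x : G, (x : G ⧸ P v.1) = v.2 → x ∈ L
  have hgood : ∀ (i : I) (x : G), good ⟨i, (x : G ⧸ P i)⟩ ↔ x ∈ L := by
    intro i x
    constructor
    · intro h; exact h x rfl
    · intro hx y hy
      have h1 : y⁻¹ * x ∈ P i := QuotientGroup.eq.1 hy
      have h2 : y⁻¹ * x ∈ L := (le_iSup P i) h1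
      have : y = x * (y⁻¹ * x)⁻¹ := by group
      rw [this]
      exact L.mul_mem hx (L.inv_mem h2)
  -- the functional counting good vertices
  let F : Ch (CosetVert P) →ₗ[ZMod 2] ZMod 2 :=
    Finsupp.lsum (ZMod 2) fun s => LinearMap.toSpanSingleton (ZMod 2) (ZMod 2)
      (if ∃ v, s = {v} ∧ good v then 1 else 0)
  have hF1 : ∀ v, F (Finsupp.single {v} 1) = if good v then 1 else 0 := by
    intro v
    simp only [F, Finsupp.lsum_single, LinearMap.toSpanSingleton_apply, smul_eq_mul, one_mul]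
    congr 1
    apply propext
    constructor
    · rintro ⟨w, hw, hg⟩
      rw [Finset.singleton_inj] at hw
      rwa [hw]
    · intro hg
      exact ⟨v, rfl, hg⟩
  have hbd : ∀ y ∈ chains (cosetCx P) 2, F (bd y) = 0 := by
    intro y hy
    have h1 : y = ∑ s ∈ y.support, Finsupp.single s (y s) := (Finsupp.sum_single y).symm
    rw [h1, map_sum, map_sum]
    refine Finset.sum_eq_zero fun s hs => ?_
    obtain ⟨⟨x, hx⟩, hcard⟩ := hy hs
    obtain ⟨v, w, hvw, rfl⟩ := Finset.card_eq_two.1 hcard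
    have hs1 : (Finsupp.single ({v, w} : Finset (CosetVert P)) (y {v, w}))
        = y {v, w} • Finsupp.single ({v, w} : Finset (CosetVert P)) (1 : ZMod 2) := by
      rw [Finsupp.smul_single, smul_eq_mul, mul_one]
    rw [hs1, map_smul, map_smul]
    have hb : bd (Finsupp.single ({v, w} : Finset (CosetVert P)) (1 : ZMod 2))
        = Finsupp.single {w} 1 + Finsupp.single {v} 1 := by
      simp only [bd, Finsupp.lsum_single, LinearMap.sum_apply, Finsupp.lsingle_apply]
      rw [Finset.sum_pair hvw]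
      congr 2
      · ext t
        simp only [Finset.mem_erase, Finset.mem_insert, Finset.mem_singleton]
        constructor
        · rintro ⟨h1, h2 | h2⟩
          · exact absurd h2 h1
          · exact h2
        · rintro rfl
          exact ⟨hvw.symm, Or.inr rfl⟩
      · ext t
        simp only [Finset.mem_erase, Finset.mem_insert, Finset.mem_singleton]
        constructor
        · rintro ⟨h1, h2 | h2⟩
          · exact h2
          · exact absurd h2 h1
        · rintro rfl
          exact ⟨hvw, Or.inl rfl⟩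
    have hv : v = ⟨v.1, (x : G ⧸ P v.1)⟩ := by
      rw [← hx v (by simp)]
    have hw : w = ⟨w.1, (x : G ⧸ P w.1)⟩ := by
      rw [← hx w (by simp)]
    have hgv : good v ↔ x ∈ L := by rw [hv]; exact hgood _ _
    have hgw : good w ↔ x ∈ L := by rw [hw]; exact hgood _ _
    rw [hb, map_add, hF1, hF1]
    simp only [hgv, hgw]
    rw [CharTwo.add_self_eq_zero, smul_zero]
  -- the cycle
  let v0 : CosetVert P := ⟨i0, ((1 : G) : G ⧸ P i0)⟩
  let v1 : CosetVert P := ⟨i0, (g : G ⧸ P i0)⟩
  have hmem : ∀ x : G, Finsupp.single ({⟨i0, (x : G ⧸ P i0)⟩} : Finset (CosetVert P)) (1 : ZMod 2)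
      ∈ chains (cosetCx P) 1 := by
    intro x
    refine Finsupp.single_mem_supported _ _ ⟨⟨x, ?_⟩, Finset.card_singleton _⟩
    intro v hv
    rw [Finset.mem_singleton] at hv
    rw [hv]
  obtain ⟨y, hy, hyz⟩ := h (Finsupp.single {v0} 1 + Finsupp.single {v1} 1)
    (add_mem (hmem 1) (hmem g)) (by
      rw [map_add]
      simp only [bd, Finsupp.lsum_single, Finsupp.lsingle_apply, Finset.sum_singleton]
      have e : ∀ v : CosetVert P, ({v} : Finset (CosetVert P)).erase v = ∅ := by
        intro v; simp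
      rw [e, e, ← Finsupp.single_add, CharTwo.add_self_eq_zero, Finsupp.single_zero])
  have h1 := hbd y hy
  rw [hyz, map_add, hF1, hF1] at h1
  have g0 : good v0 := (hgood i0 1).2 L.one_mem
  rw [if_pos g0] at h1
  by_contra hcon
  have g1 : ¬ good v1 := fun h => hcon ((hgood i0 g).1 h)
  rw [if_neg g1, add_zero] at h1
  exact one_ne_zero h1

end Generation

section Final

open Polynomial

variable {n p : ℕ} [Fact p.Prime] [NeZero n]

omit [Fact p.Prime] in
/-- `Uplus` is contained in every subgroup containing the `Hsub` (given that they generate). -/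
theorem Uplus_le_of_iSup (F : Subgroup (SLX n p)) (hF : ∀ j, Hsub n p j ≤ F)
    (h : ⨆ j, HsubU n p j = ⊤) : Uplus n p ≤ F := by
  have h2 : (⊤ : Subgroup (Uplus n p)) ≤ F.subgroupOf (Uplus n p) := by
    rw [← h]
    refine iSup_le fun j x hx => ?_
    rw [Subgroup.mem_subgroupOf]
    exact hF j (Subgroup.mem_subgroupOf.1 hx)
  intro A hA
  exact Subgroup.mem_subgroupOf.1 (h2 (Subgroup.mem_top (⟨A, hA⟩ : Uplus n p)))

theorem Uplus_le_FG (hn : 5 ≤ n) (a : Frame (ZMod p)[X] (Fin n → (ZMod p)[X]))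
    [DecidableEq (CosetVert (HsubU n p))] (h : ExactAt (cosetCx (HsubU n p)) 1) :
    Uplus n p ≤ (FG a).comap SpecialLinearGroup.toLin' :=
  Uplus_le_of_iSup _ (Hsub_le_FG hn a) (iSup_eq_top_of_exactAt _ 0 h)

end Final

end Crest.Agent.R066
end

-- ▼ part R066/TransvPack
section

/-!
# Row 66, part (E): packaged facts on transvections and stabilisers (interface of helper261)
-/

set_option autoImplicit false

namespace Crest.Agent.R066

open Module

section Pack

variable {R : Type*} [CommRing R] {P : Type*} [AddCommGroup P] [Module R P]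

/-- (V1) -/
theorem transv_pack_left (p : ℕ) (hp : (p : R) = 0) (I : Ideal R) (a : Frame R P) (u : P)
    (hu : a.φ u = 0) :
    ∃ K Wt : Subgroup (P ≃ₗ[R] P), K ≤ NP P I ∧ (∀ g ∈ NP P I, g • a = a → g ∈ K) ∧
      transv a.φ u hu ∈ Wt ∧ (∀ k ∈ K, ∀ w ∈ Wt, k * w * k⁻¹ ∈ Wt) ∧
      (∀ x ∈ Wt, ∀ k ∈ K, x * k * x⁻¹ ∈ K) ∧ (∀ x ∈ Wt, ∀ y ∈ Wt, x * y = y * x) ∧
      (∀ x ∈ Wt, x ^ p = 1) := by
  let K : Subgroup (P ≃ₗ[R] P) :=
    { carrier := {g | g ∈ NP P I ∧ ∀ x, a.φ (g x) = a.φ x}
      one_mem' := ⟨(NP P I).one_mem, fun x => rfl⟩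
      mul_mem' := by
        rintro g h ⟨hg1, hg2⟩ ⟨hh1, hh2⟩
        exact ⟨mul_mem hg1 hh1, fun x => by rw [LinearEquiv.mul_apply, hg2, hh2]⟩
      inv_mem' := by
        rintro g ⟨hg1, hg2⟩
        exact ⟨inv_mem hg1, fun x => by rw [← hg2, app_inv]⟩ }
  refine ⟨K, W1 a, fun g hg => hg.1, ?_, transv_mem_W1 a u hu, ?_, ?_, fun x hx y hy =>
    W1_comm hx hy, fun x hx => W1_pow_char p hp hx⟩
  · intro g hg ha
    exact ⟨hg, (smul_eq_iff.1 ha).2⟩
  · rintro k ⟨hk1, hk2⟩ _ ⟨w, hw, rfl⟩
    rw [conj_transv]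
    have h1 : a.φ (k w) = 0 := by rw [hk2, hw]
    refine ⟨k w, h1, transv_ext _ _ fun x => ?_⟩
    change a.φ (k⁻¹ x) • k w = _
    rw [← hk2, app_inv]
  · rintro x ⟨w, hw, rfl⟩ k ⟨hk1, hk2⟩
    have hx : ∀ y, a.φ (transv a.φ w hw y) = a.φ y := by
      intro y
      rw [transv_apply, map_add, map_smul, hw, smul_zero, add_zero]
    refine ⟨(NP_normal (P := P) I).conj_mem k hk1 _, fun y => ?_⟩
    rw [LinearEquiv.mul_apply, LinearEquiv.mul_apply, hx, hk2, ← hx, app_inv]

/-- (V2) -/
theorem transv_pack_right (p : ℕ) (hp : (p : R) = 0) (I : Ideal R) (a : Frame R P) (ψ : Dual R P)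
    (hψ : ψ a.v = 0) :
    ∃ K Wt : Subgroup (P ≃ₗ[R] P), K ≤ NP P I ∧ (∀ g ∈ NP P I, g • a = a → g ∈ K) ∧
      transv ψ a.v hψ ∈ Wt ∧ (∀ k ∈ K, ∀ w ∈ Wt, k * w * k⁻¹ ∈ Wt) ∧
      (∀ x ∈ Wt, ∀ k ∈ K, x * k * x⁻¹ ∈ K) ∧ (∀ x ∈ Wt, ∀ y ∈ Wt, x * y = y * x) ∧
      (∀ x ∈ Wt, x ^ p = 1) := by
  let K : Subgroup (P ≃ₗ[R] P) :=
    { carrier := {g | g ∈ NP P I ∧ g a.v = a.v}
      one_mem' := ⟨(NP P I).one_mem, rfl⟩
      mul_mem' := by
        rintro g h ⟨hg1, hg2⟩ ⟨hh1, hh2⟩
        exact ⟨mul_mem hg1 hh1, by rw [LinearEquiv.mul_apply, hh2, hg2]⟩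
      inv_mem' := by
        rintro g ⟨hg1, hg2⟩
        refine ⟨inv_mem hg1, ?_⟩
        conv_lhs => rw [← hg2]
        rw [inv_app] }
  refine ⟨K, W2 a, fun g hg => hg.1, ?_, transv_mem_W2 a ψ hψ, ?_, ?_, fun x hx y hy =>
    W2_comm hx hy, fun x hx => W2_pow_char p hp hx⟩
  · intro g hg ha
    exact ⟨hg, (smul_eq_iff.1 ha).1⟩
  · rintro k ⟨hk1, hk2⟩ _ ⟨χ, hχ, rfl⟩
    rw [conj_transv]
    have hk3 : k⁻¹ a.v = a.v := by
      conv_lhs => rw [← hk2]
      rw [inv_app]
    have h1 : (χ ∘ₗ ((k⁻¹ : P ≃ₗ[R] P) : P →ₗ[R] P)) a.v = 0 := by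
      change χ (k⁻¹ a.v) = 0
      rw [hk3, hχ]
    refine ⟨_, h1, transv_ext _ _ fun x => ?_⟩
    rw [hk2]
  · rintro x ⟨χ, hχ, rfl⟩ k ⟨hk1, hk2⟩
    have hx : transv χ a.v hχ a.v = a.v := by
      rw [transv_apply, hχ, zero_smul, add_zero]
    have hx' : (transv χ a.v hχ)⁻¹ a.v = a.v := by
      have := inv_app (transv χ a.v hχ) a.v
      rwa [hx] at this
    refine ⟨(NP_normal (P := P) I).conj_mem k hk1 _, ?_⟩
    rw [LinearEquiv.mul_apply, LinearEquiv.mul_apply, hx', hk2, hx]





/-- Conjugation by a linear equivalence. -/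
def conjEquiv {Q : Type*} [AddCommGroup Q] [Module R Q] (e : P ≃ₗ[R] Q) :
    (P ≃ₗ[R] P) ≃* (Q ≃ₗ[R] Q) where
  toFun g := (e.symm.trans g).trans e
  invFun g := (e.trans g).trans e.symm
  left_inv g := by ext x; simp
  right_inv g := by ext x; simp
  map_mul' g h := by ext x; simp [LinearEquiv.mul_apply]

theorem conjEquiv_apply {Q : Type*} [AddCommGroup Q] [Module R Q] (e : P ≃ₗ[R] Q)
    (g : P ≃ₗ[R] P) (x : Q) : conjEquiv e g x = e (g (e.symm x)) := rfl

theorem conjEquiv_mem {Q : Type*} [AddCommGroup Q] [Module R Q] (e : P ≃ₗ[R] Q) {I : Ideal R}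
    {g : P ≃ₗ[R] P} (hg : g ∈ NP P I) : conjEquiv e g ∈ NP Q I := by
  intro x
  have h := map_mem_smul_top (e : P →ₗ[R] Q) (hg (e.symm x))
  have h2 : (e : P →ₗ[R] Q) (g (e.symm x) - e.symm x) = conjEquiv e g x - x := by
    rw [conjEquiv_apply, map_sub]
    change e _ - e (e.symm x) = _
    rw [e.apply_symm_apply]
  rwa [h2] at h

/-- The congruence subgroups of isomorphic modules are isomorphic. -/
def NPcongr {Q : Type*} [AddCommGroup Q] [Module R Q] (e : P ≃ₗ[R] Q) (I : Ideal R) :
    NP P I ≃* NP Q I where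
  toFun g := ⟨conjEquiv e g, conjEquiv_mem e g.2⟩
  invFun g := ⟨conjEquiv e.symm g, conjEquiv_mem e.symm g.2⟩
  left_inv g := by
    apply Subtype.ext
    ext x
    simp [conjEquiv_apply]
  right_inv g := by
    apply Subtype.ext
    ext x
    simp [conjEquiv_apply]
  map_mul' g h := by
    apply Subtype.ext
    exact map_mul (conjEquiv e) _ _

/-- (V5) The stabiliser of an orthogonal family of `s` frames is the congruence subgroup of rank
`n - s`. -/
noncomputable def stabEquivPi [IsDomain R] [IsPrincipalIdealRing R] [Module.Free R P]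
    [Module.Finite R P] (I : Ideal R) {s : ℕ} (σ : Fin s → Frame R P)
    (hσ : Pairwise fun i j => Perp (σ i) (σ j)) :
    stabNP I σ ≃* NP (Fin (finrank R P - s) → R) I :=
  (stabEquiv I σ hσ).symm.trans (NPcongr (LinearEquiv.ofFinrankEq (kerAll σ)
    (Fin (finrank R P - s) → R) (by
      have := finrank_kerAll σ hσ
      rw [Fintype.card_fin] at this
      rw [finrank_fintype_fun_eq_card, Fintype.card_fin]
      omega)) I)

end Pack

end Crest.Agent.R066
end

-- ▼ part R066/EMatDet
section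

/-!
# Row 66, part (E): linear automorphisms congruent to one have determinant one
-/

set_option autoImplicit false

namespace Crest.Agent.R066.E

open Polynomial Module

theorem exists_of_mem_NP {n p : ℕ} (hp : p.Prime) (k : ℕ) (hk : 1 ≤ k)
    (g : (Fin n → (ZMod p)[X]) ≃ₗ[(ZMod p)[X]] (Fin n → (ZMod p)[X]))
    (hg : g ∈ NP (Fin n → (ZMod p)[X]) (Ideal.span {(X : (ZMod p)[X])^k})) :
    ∃ A ∈ Gam n p k, Matrix.SpecialLinearGroup.toLin' A = g := by
  have := Fact.mk hp
  let A : Matrix (Fin n) (Fin n) (ZMod p)[X] :=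
    LinearMap.toMatrix' (g : (Fin n → (ZMod p)[X]) →ₗ[(ZMod p)[X]] (Fin n → (ZMod p)[X]))
  have hA : ∀ i j, A i j = g (Pi.single j 1) i := by
    intro i j
    simp only [A, LinearMap.toMatrix'_apply]
    congr 2
  have hcc : ∀ i j, Polynomial.constantCoeff (A i j) = (1 : Matrix (Fin n) (Fin n) (ZMod p)) i j := by
    intro i j
    rw [mem_NP] at hg
    have h1 := mem_smul_top_pi.1 (hg (Pi.single j 1)) i
    rw [Pi.sub_apply, Ideal.mem_span_singleton] at h1
    have h2 : (X : (ZMod p)[X]) ∣ g (Pi.single j 1) i - (Pi.single j 1 : Fin n → (ZMod p)[X]) i :=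
      (dvd_pow_self X (by omega)).trans h1
    rw [Polynomial.X_dvd_iff, Polynomial.coeff_sub, sub_eq_zero] at h2
    rw [Polynomial.constantCoeff_apply, hA, h2, Pi.single_apply, Matrix.one_apply]
    split_ifs <;> simp
  have hdet : A.det = 1 := by
    have h1 : IsUnit A.det := by
      have h2 := LinearEquiv.isUnit_det' g
      rw [← LinearMap.det_toMatrix'] at h2
      exact h2
    obtain ⟨c, hc, hcA⟩ := Polynomial.isUnit_iff.mp h1
    have h3 : Polynomial.constantCoeff A.det = 1 := by
      rw [RingHom.map_det]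
      have : Polynomial.constantCoeff.mapMatrix A = (1 : Matrix (Fin n) (Fin n) (ZMod p)) := by
        ext i j
        rw [RingHom.mapMatrix_apply, Matrix.map_apply, hcc]
      rw [this, Matrix.det_one]
    rw [← hcA] at h3 ⊢
    rw [Polynomial.constantCoeff_apply, Polynomial.coeff_C_zero] at h3
    rw [h3, map_one]
  obtain ⟨B, hB⟩ : ∃ B : SLX n p, B.1 = A := ⟨⟨A, hdet⟩, rfl⟩
  have hgA : Matrix.SpecialLinearGroup.toLin' B = g := by
    apply LinearEquiv.toLinearMap_injective
    rw [Matrix.SpecialLinearGroup.toLin'_to_linearMap, hB]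
    exact Matrix.toLin'_toMatrix' _
  refine ⟨B, ?_, hgA⟩
  rw [mem_Gam_iff_NP, hgA]
  exact hg

end Crest.Agent.R066.E
end

-- ▼ part R066/EMatOdd
section

set_option autoImplicit false

namespace Crest.Agent.R066.E

open Polynomial

theorem lowtri_pow {n : ℕ} {R : Type*} [CommRing R] (N : Matrix (Fin n) (Fin n) R)
    (hN : ∀ i j : Fin n, i ≤ j → N i j = 0) (m : ℕ) :
    ∀ i j : Fin n, (i : ℕ) < (j : ℕ) + m → (N ^ m) i j = 0 := by
  induction m with
  | zero =>
    intro i j h
    rw [pow_zero, Matrix.one_apply, if_neg]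
    intro e
    subst e
    omega
  | succ m ih =>
    intro i j h
    rw [pow_succ, Matrix.mul_apply]
    refine Finset.sum_eq_zero fun l _ => ?_
    rcases Nat.lt_or_ge (i : ℕ) ((l : ℕ) + m) with h1 | h1
    · rw [ih i l h1, zero_mul]
    · rw [hN l j (by rw [Fin.le_def]; omega), mul_zero]

theorem pow_mem_Gam {n p : ℕ} [NeZero n] (hp : p.Prime) (k : ℕ) (g : SLX n p) (hg : g ∈ Uplus n p) :
    ∃ a : ℕ, g ^ (p ^ a) ∈ Gam n p k := by
  have := Fact.mk hp
  let M : Matrix (Fin n) (Fin n) (ZMod p)[X] := g.1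
  let N := M - 1
  have h1 : ∀ i j : Fin n, i ≤ j → (N.map Polynomial.constantCoeff) i j = 0 := by
    intro i j hij
    have h2 := hg
    change (∀ i, _) ∧ _ at h2
    obtain ⟨h3, h4⟩ := h2
    rw [Matrix.map_apply]
    simp only [N, Matrix.sub_apply, map_sub]
    rcases eq_or_lt_of_le hij with rfl | hlt
    · have h5 := h3 i
      change Polynomial.constantCoeff (M i i) = 1 at h5
      rw [h5, Matrix.one_apply_eq, map_one, sub_self]
    · have h5 := h4 i j hlt
      change Polynomial.constantCoeff (M i j) = 0 at h5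
      rw [h5, Matrix.one_apply_ne hlt.ne, map_zero, sub_self]
  have h2 : ∀ i j : Fin n, (X : (ZMod p)[X]) ∣ (N ^ n) i j := by
    intro i j
    rw [Polynomial.X_dvd_iff]
    have h3 := lowtri_pow _ h1 n i j (by have := i.2; omega)
    rw [← Matrix.map_pow, Matrix.map_apply] at h3
    exact h3
  have h3 : ∀ m : ℕ, ∀ i j : Fin n, (X : (ZMod p)[X]) ^ m ∣ ((N ^ n) ^ m) i j := by
    intro m
    induction m with
    | zero => intro i j; simp
    | succ m ih =>
      intro i j
      rw [pow_succ, pow_succ, Matrix.mul_apply]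
      exact Finset.dvd_sum fun l _ => mul_dvd_mul (ih i l) (h2 l j)
  refine ⟨n * k, ?_⟩
  have hle : n * k ≤ p ^ (n * k) := (Nat.lt_pow_self hp.one_lt).le
  have h4 : M ^ (p ^ (n * k)) = 1 + N ^ (p ^ (n * k)) := by
    have h5 : M = 1 + N := by simp [N]
    conv_lhs => rw [h5]
    have hc : CharP (Matrix (Fin n) (Fin n) (ZMod p)[X]) p ∨ n = 0 := by
      rcases Nat.eq_zero_or_pos n with h | h
      · exact Or.inr h
      · have : Nonempty (Fin n) := ⟨⟨0, h⟩⟩
        exact Or.inl inferInstance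
    rcases hc with hc | hc
    · rw [add_pow_char_pow_of_commute (p := p) (n := n * k) (Commute.one_left N), one_pow]
    · subst hc
      ext i
      exact i.elim0
  rw [mem_Gam_iff]
  intro i j
  have h6 : (g ^ (p ^ (n * k))).1 = M ^ (p ^ (n * k)) := Matrix.SpecialLinearGroup.coe_pow _ _
  rw [h6, h4, Matrix.add_apply, add_sub_cancel_left]
  obtain ⟨c, hc⟩ := Nat.exists_eq_add_of_le hle
  rw [hc, pow_add, pow_mul, Matrix.mul_apply]
  exact Finset.dvd_sum fun l _ => Dvd.dvd.mul_right (h3 k i l) _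

theorem odd_Gk {n p : ℕ} [NeZero n] (hp : p.Prime) (hp2 : p ≠ 2) (k) (_hk : 1 ≤ k) :
    Odd (Nat.card (Gk n p k)) := by
  have := Fact.mk hp
  have := finite_Gk (n := n) hp k
  have hpg : IsPGroup p (Gk n p k) := by
    intro q
    induction q using QuotientGroup.induction_on with
    | H g =>
      obtain ⟨a, ha⟩ := pow_mem_Gam hp k g.1 g.2
      refine ⟨a, ?_⟩
      rw [← QuotientGroup.mk_pow, QuotientGroup.eq_one_iff, Subgroup.mem_subgroupOf]
      exact ha
  obtain ⟨m, hm⟩ := (IsPGroup.iff_card).mp hpg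
  rw [hm]
  exact (hp.odd_of_ne_two hp2).pow

theorem odd_HsubU {n p : ℕ} [NeZero n] (hp : p.Prime) (hp2 : p ≠ 2) (j : Fin n) :
    Finite ↥(HsubU n p j) ∧ Odd (Nat.card ↥(HsubU n p j)) := by
  have := finite_Gk (n := n) hp 2
  let φ : ↥(HsubU n p j) →* Gk n p 2 :=
    (QuotientGroup.mk' ((Gam n p 2).subgroupOf (Uplus n p))).comp (HsubU n p j).subtype
  have hinj : Function.Injective φ := by
    rintro ⟨⟨a, ha⟩, ha'⟩ ⟨⟨b, hb⟩, hb'⟩ h
    have h1 := QuotientGroup.eq.mp h
    have h2 := Hsub_eq_of_congr hp 2 le_rfl j j a b ha' hb' h1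
    subst h2
    rfl
  exact ⟨Finite.of_injective φ hinj,
    Odd.of_dvd_nat (odd_Gk hp hp2 2 (by norm_num)) (Subgroup.card_dvd_of_injective φ hinj)⟩

end Crest.Agent.R066.E
end

-- ▼ part R066/EFin
section

/-!
# Row 66, part (E): vanishing theorem
-/

set_option autoImplicit false
set_option linter.unusedSectionVars false

open Finset

namespace Crest.Agent.R066.E

open Module Polynomial

section XTAcy

variable {I G : Type*} [DecidableEq I] [Group G]

instance (P : I → Subgroup G) : Unique (XT P 0) where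
  default := XT.mk P ∅ Finset.card_empty 1
  uniq y := by
    obtain ⟨S, hS, g, rfl⟩ := XT.exists_mk P y
    rw [XT.mk_eq_iff]
    refine ⟨Finset.card_eq_zero.mp hS, ?_⟩
    have : S = ∅ := Finset.card_eq_zero.mp hS
    subst this
    simp [PJ]

/-- A group acting with finite odd stabilisers on an exact complex with quotient a simplex is
acyclic. -/
theorem acy_of_XT [Nonempty I] (P : I → Subgroup G)
    (hP : ∀ i, Finite (P i) ∧ Odd (Nat.card (P i))) (L : ℕ) (hF : ∀ b ≤ L, FEx (XT P) b) :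
    Acy G L := by
  intro a ha
  cases a with
  | zero => exact tup_ex_zero
  | succ n =>
    refine compare_ex (H := G) (X := Tup G) (Y := XT P) n ?_ ?_ ?_ (hF 0 (by omega))
    · intro a b hb _ y
      obtain ⟨h1, h2⟩ := XT.stab_odd' P hP hb y
      exact Ex.of_odd h2 a (tup_fex a)
    · intro a b ha' hb e x
      exact Ex.of_bot (stab_eq_bot_of_free free_left ha' x) b (hF b (by omega))
    · exact XT.ex_top P (n + 1)

/-- The quotient by a normal acyclic subgroup is exact. -/
theorem ex_XT_of_acy (P : I → Subgroup G)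
    (hP : ∀ i, Finite (P i) ∧ Odd (Nat.card (P i))) (N : Subgroup G) (m : ℕ)
    (hF : ∀ b ≤ m, FEx (XT P) b) (hm : 1 ≤ m) (hN : Acy N m) : Ex N (XT P) m := by
  obtain ⟨n, rfl⟩ : ∃ n, m = n + 1 := ⟨m - 1, by omega⟩
  have hfree : ∀ (h : N) (v : G), h • v = v → h = 1 := by
    intro h v e
    have : (h : G) * v = v := e
    rw [mul_eq_right] at this
    exact Subtype.ext this
  refine compare_ex (H := N) (X := XT P) (Y := Tup G) n ?_ ?_ ?_ (tup_fex 0)
  · intro a b hb e y
    exact Ex.of_bot (stab_eq_bot_of_free hfree hb y) a (hF a (by omega))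
  · intro a b ha hb e x
    obtain ⟨h1, h2⟩ := XT.stab_odd P hP N ha x
    exact Ex.of_odd h2 b (tup_fex b)
  · exact hN.ex hfree le_rfl

end XTAcy

/-- The rank needed for the vanishing in degree `L`. -/
def rkE : ℕ → ℕ
  | 0 => 5
  | (L + 1) => rkE L + (L + 2) + rk (L + 1) + 3

section Main

variable {p : ℕ}

open Classical in
theorem acy_NP (hp : p.Prime) (hp2 : p ≠ 2) (k : ℕ) (hk : 2 ≤ k) (N : ℕ)
    (hex : ∀ n : ℕ, n ≤ N → ∀ [NeZero n], ∀ m, m + 2 ≤ n → ExactAt (cosetCx (HsubU n p)) m) :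
    ∀ (L n : ℕ), rkE L ≤ n → n ≤ N →
      Acy (NP (Fin n → (ZMod p)[X]) (Ideal.span {(X : (ZMod p)[X]) ^ k})) L := by
  have := Fact.mk hp
  intro L
  induction L with
  | zero => exact fun n _ _ => acy_one.mono (by omega)
  | succ L ih =>
    intro n hn hnN
    simp only [rkE] at hn
    have hn5 : 5 ≤ n := by
      have : 5 ≤ rkE L := by
        cases L with
        | zero => exact le_rfl
        | succ L => simp only [rkE]; unfold rk; omega
      omega
    have : NeZero n := ⟨by omega⟩
    have hfr : finrank (ZMod p)[X] (Fin n → (ZMod p)[X]) = n := finrank_pi_poly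
    have hpR : ((p : ℕ) : (ZMod p)[X]) = 0 := CharP.cast_eq_zero _ _
    let Γ := (Fin n → (ZMod p)[X]) ≃ₗ[(ZMod p)[X]] (Fin n → (ZMod p)[X])
    let Nn : Subgroup Γ := NP (Fin n → (ZMod p)[X]) (Ideal.span {(X : (ZMod p)[X]) ^ k})
    let U : Subgroup Γ := (Uplus n p).map Matrix.SpecialLinearGroup.toLin'
    have hinj : Function.Injective
        (Matrix.SpecialLinearGroup.toLin' : SLX n p →* Γ) :=
      Matrix.SpecialLinearGroup.toLin'_injective
    have hNU : Nn ≤ U := by
      intro g hg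
      obtain ⟨A, hA, rfl⟩ := exists_of_mem_NP hp k (by omega) g hg
      exact ⟨A, Gam_le_Uplus k (by omega) hA, rfl⟩
    -- the quotient
    have hcomap : (Gam n p k) = Nn.comap Matrix.SpecialLinearGroup.toLin' := by
      ext A
      exact mem_Gam_iff_NP k A
    let e : ↥(Uplus n p) ≃* ↥U := (Uplus n p).equivMapOfInjective _ hinj
    have hmap : ((Gam n p k).subgroupOf (Uplus n p)).map e.toMonoidHom = Nn.subgroupOf U := by
      ext ⟨g, hg⟩
      rw [Subgroup.mem_subgroupOf]
      constructor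
      · rintro ⟨⟨A, hA⟩, hAG, e1⟩
        have : Matrix.SpecialLinearGroup.toLin' A = g := congrArg Subtype.val e1
        change g ∈ Nn
        rw [← this]
        exact (mem_Gam_iff_NP k A).mp hAG
      · intro hgN
        obtain ⟨A, hA, rfl⟩ := exists_of_mem_NP hp k (by omega) g hgN
        exact ⟨⟨A, Gam_le_Uplus k (by omega) hA⟩, hA, rfl⟩
    have eq : Gk n p k ≃* ↥U ⧸ Nn.subgroupOf U :=
      QuotientGroup.congr _ _ e hmap
    have := finite_Gk (n := n) hp k
    have hfin : Finite (↥U ⧸ Nn.subgroupOf U) := Finite.of_equiv _ eq.toEquiv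
    have hodd : Odd (Nat.card (↥U ⧸ Nn.subgroupOf U)) := by
      rw [← Nat.card_congr eq.toEquiv]
      exact odd_Gk hp hp2 k (by omega)
    have hUacy : Acy ↥(Uplus n p) (L + 1) :=
      acy_of_XT (HsubU n p) (odd_HsubU hp hp2) (L + 1)
        (fun b hb => XT.fex_of_exactAt _ b (hex n hnN b (by unfold rk at hn; omega)))
    have hU : Ex U (Tup Γ) (L + 1) :=
      (Acy.of_equiv e.symm hUacy).ex (free_GL U) le_rfl
    have hFG : ∀ u ∈ U, ∀ σ : Frame (ZMod p)[X] (Fin n → (ZMod p)[X]), u ∈ FG σ := by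
      rintro _ ⟨A, hA, rfl⟩ σ
      exact Uplus_le_FG hn5 σ (hex n hnN 1 (by omega)) hA
    have hstep : Ex Nn (Tup Γ) (L + 1) := by
      refine ind_step hp2 _ L (by rw [hfr]; omega) ?_ ?_ U hNU hFG hfin hodd hU
      · rintro σ x (⟨u, hu, rfl⟩ | ⟨ψ, hψ, rfl⟩)
        · exact transv_pack_left p hpR _ σ u hu
        · exact transv_pack_right p hpR _ σ ψ hψ
      · intro b hb1 hb y c hc
        have hσ : Pairwise fun i j => Perp (y.1 i) (y.1 j) := fun i j h => y.2 i j h
        have e1 : MulAction.stabilizer Nn y ≃*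
            stabNP (Ideal.span {(X : (ZMod p)[X]) ^ k}) y.1 :=
          { toFun := fun g => ⟨g.1.1, mem_stabNP.2 ⟨g.1.2, fun i => by
              have := g.2
              rw [MulAction.mem_stabilizer_iff] at this
              have h' : (g.1.1 : Γ) • y = y := this
              exact (clq_smul_eq_iff.mp h') i⟩⟩
            invFun := fun g => ⟨⟨g.1, (mem_stabNP.1 g.2).1⟩, by
              rw [MulAction.mem_stabilizer_iff]
              change (g.1 : Γ) • y = y
              exact clq_smul_eq_iff.mpr (mem_stabNP.1 g.2).2⟩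
            left_inv := fun g => rfl
            right_inv := fun g => rfl
            map_mul' := fun g h => rfl }
        have e2 := stabEquivPi (Ideal.span {(X : (ZMod p)[X]) ^ k}) y.1 hσ
        rw [hfr] at e2
        have h3 := (ih (n - b) (by omega) (by omega))
        have h4 : Acy (MulAction.stabilizer Nn y) L := Acy.of_equiv (e1.trans e2) h3
        refine h4.ex ?_ hc
        rintro ⟨g, hg⟩ v e5
        have := free_GL Nn g v e5
        exact Subtype.ext this
    -- from Γ to the abstract statement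
    have hall : ∀ a ≤ L + 1, Ex Nn (Tup Γ) a := by
      intro a ha
      rcases Nat.lt_or_ge a (L + 1) with h | h
      · exact (ih n (by omega) hnN).ex (free_GL Nn) (by omega)
      · obtain rfl : a = L + 1 := by omega
        exact hstep
    exact acy_of_ex (free_GL Nn) hall

end Main

end Crest.Agent.R066.E
private theorem rz_d35c978ca8 : type_of% @_root_.Crest.Agent.R066.E.rkE.eq_def := @_root_.Crest.Agent.R066.E.rkE.eq_def -- L73
private theorem rz_17684f420e : type_of% @_root_.Crest.Agent.R066.E.rkE.eq_1 := @_root_.Crest.Agent.R066.E.rkE.eq_1 -- L73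
end

-- ▼ part R066/Vanish
section

/-! Vanishing of the cohomology of the finite quotients. -/

set_option autoImplicit false
set_option linter.unusedSectionVars false

namespace Crest.Agent.R066

open Polynomial E

open Classical in
/-- Main vanishing theorem. `R m` may be any (huge) function of `m`: the number of types `n` is free. -/
theorem van_of_exact : ∃ R : ℕ → ℕ, ∀ (N p : ℕ) (_ : p.Prime) (_ : p ≠ 2)
    (_ : ∀ n : ℕ, n ≤ N → ∀ [NeZero n], ∀ m, m + 2 ≤ n → ExactAt (cosetCx (HsubU n p)) m)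
    (n k m : ℕ) [NeZero n] (_ : n ≤ N) (_ : 2 ≤ k) (_ : 1 ≤ m) (_ : R m ≤ n),
    Van (Pk n p k) m := by
  refine ⟨fun m => rkE m + m + 2, ?_⟩
  intro N p hp hp2 hex n k m _ hn hk hm hmn
  have := Fact.mk hp
  simp only at hmn
  have hNP := acy_NP hp hp2 k hk N hex m n (by omega) hn
  have hinj : Function.Injective
      (Matrix.SpecialLinearGroup.toLin' : SLX n p →*
        ((Fin n → (ZMod p)[X]) ≃ₗ[(ZMod p)[X]] (Fin n → (ZMod p)[X]))) :=
    Matrix.SpecialLinearGroup.toLin'_injective
  have e : ↥((Gam n p k).subgroupOf (Uplus n p)) ≃*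
      ↥(NP (Fin n → (ZMod p)[X]) (Ideal.span {(X : (ZMod p)[X]) ^ k})) := by
    let φ : ↥((Gam n p k).subgroupOf (Uplus n p)) →*
        ↥(NP (Fin n → (ZMod p)[X]) (Ideal.span {(X : (ZMod p)[X]) ^ k})) :=
      { toFun := fun g => ⟨Matrix.SpecialLinearGroup.toLin' g.1.1, (mem_Gam_iff_NP k _).mp g.2⟩
        map_one' := by
          apply Subtype.ext
          exact map_one _
        map_mul' := fun g h => by
          apply Subtype.ext
          exact map_mul _ _ _ }
    refine MulEquiv.ofBijective φ ⟨?_, ?_⟩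
    · intro g h e
      have := congrArg Subtype.val e
      exact Subtype.ext (Subtype.ext (hinj this))
    · rintro ⟨g, hg⟩
      obtain ⟨A, hA, rfl⟩ := exists_of_mem_NP hp k (by omega) g hg
      exact ⟨⟨⟨A, Gam_le_Uplus k (by omega) hA⟩, hA⟩, rfl⟩
  have hacy : Acy ↥((Gam n p k).subgroupOf (Uplus n p)) m := Acy.of_equiv e hNP
  exact van_of_ex (HsubU n p) ((Gam n p k).subgroupOf (Uplus n p)) m hm
    (fun J => PJ_Pk hp k hk J)
    (ex_XT_of_acy (HsubU n p) (odd_HsubU hp hp2) _ m
      (fun b hb => XT.fex_of_exactAt _ b (hex n hn b (by omega))) hm hacy)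

end Crest.Agent.R066
end

-- ▼ part R066/AssembleAux
section

/-!
# Row 66: copy of Coset.lean and Endgame.lean (helper741, helper819) in the namespace `Asm`
(the original names clash with those of Basic.lean)

# coset calculus

A finite group `G` with subgroups `K S` indexed by finite sets of types.  A face of type `S` is a
coset `g K_S`; an `n`-cochain (on faces with `n` vertices) is a family `f S : G → ZMod 2`
(`S.card = n`), each `f S` being right `K_S`-invariant.  The link of the face `(g,T)` is described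
by functions on `K T`.
-/

set_option autoImplicit false

namespace Crest.Agent.R066.Asm

section CosetPart
open Finset

/-- A coset system: subgroups indexed by finite sets of types. -/
structure CosetSystem (G : Type*) [Group G] (I : Type*) [DecidableEq I] where
  K : Finset I → Subgroup G
  K_empty : K ∅ = ⊤
  K_union : ∀ S T, K (S ∪ T) = K S ⊓ K T

variable {G : Type*} [Group G] {I : Type*} [DecidableEq I]

theorem CosetSystem.K_mono (X : CosetSystem G I) {S T : Finset I} (h : S ⊆ T) : X.K T ≤ X.K S := by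
  have := X.K_union S T
  rw [Finset.union_eq_right.mpr h] at this
  rw [this]; exact inf_le_left

/-- Coboundary of a family. -/
def cob (f : Finset I → G → ZMod 2) : Finset I → G → ZMod 2 :=
  fun S g => ∑ s ∈ S, f (S.erase s) g

/-- `f` is a cochain on faces of size `n` in the link of type `T`. -/
def IsCochain (X : CosetSystem G I) (T : Finset I) (n : ℕ) (f : Finset I → G → ZMod 2) : Prop :=
  ∀ S : Finset I, S.card = n → Disjoint T S →
    ∀ g ∈ X.K T, ∀ k ∈ X.K (T ∪ S), f S (g * k) = f S g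






theorem IsCochain.cob {X : CosetSystem G I} {T : Finset I} {n : ℕ} {f : Finset I → G → ZMod 2}
    (hf : IsCochain X T n f) : IsCochain X T (n + 1) (cob f) := by
  intro S hS hd g hg k hk
  simp only [Asm.cob]
  refine Finset.sum_congr rfl fun s hs => ?_
  refine hf (S.erase s) ?_ ?_ g hg k ?_
  · rw [Finset.card_erase_of_mem hs, hS]; rfl
  · exact hd.mono_right (Finset.erase_subset _ _)
  · exact X.K_mono (Finset.union_subset_union_right (Finset.erase_subset _ _)) hk

theorem IsCochain.add {X : CosetSystem G I} {T : Finset I} {n : ℕ} {f g : Finset I → G → ZMod 2}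
    (hf : IsCochain X T n f) (hg : IsCochain X T n g) : IsCochain X T n (f + g) := by
  intro S hS hd x hx k hk
  simp only [Pi.add_apply]
  rw [hf S hS hd x hx k hk, hg S hS hd x hx k hk]

section Count

variable [Fintype G] [Fintype I]

/-- The faces of size `n` in the link of type `T`. -/
def faces (T : Finset I) (n : ℕ) : Finset (Finset I) :=
  univ.filter (fun S => S.card = n ∧ Disjoint T S)

open Classical in
/-- Number of elements of the subgroup `H` where `u` does not vanish. -/
noncomputable def supp (H : Subgroup G) (u : G → ZMod 2) : ℕ :=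
  (univ.filter (fun g => g ∈ H ∧ u g ≠ 0)).card

/-- Counting norm of a cochain of the link of type `T`. -/
noncomputable def cnt (X : CosetSystem G I) (T : Finset I) (n : ℕ)
    (f : Finset I → G → ZMod 2) : ℕ :=
  ∑ S ∈ faces T n, supp (X.K T) (f S)



end Count

end CosetPart

end Crest.Agent.R066.Asm


/-!
# Row 66: endgame

From coset-calculus expansion of a family of finite coset systems to the frozen statement.
-/


namespace Crest.Agent.R066.Asm

open Crest.CombinatoricsR.Cochain

section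
variable {G : Type} [Group G] {I : Type} [DecidableEq I] (X : CosetSystem G I)

theorem mem_K {S : Finset I} {g : G} : g ∈ X.K S ↔ ∀ s ∈ S, g ∈ X.K {s} := by
  classical
  induction S using Finset.induction_on with
  | empty => simp [X.K_empty]
  | insert a S ha ih =>
    rw [Finset.insert_eq, X.K_union, Subgroup.mem_inf, ih]
    constructor
    · rintro ⟨h1, h2⟩ s hs
      rw [Finset.mem_union, Finset.mem_singleton] at hs
      rcases hs with rfl | hs
      · exact h1
      · exact h2 s hs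
    · intro h
      exact ⟨h a (Finset.mem_union_left _ (Finset.mem_singleton_self a)),
        fun s hs => h s (Finset.mem_union_right _ hs)⟩

variable [Fintype G] [Fintype I]

/-- vertices -/
abbrev Vtx := Σ i : I, G ⧸ X.K {i}

noncomputable instance : Fintype (Vtx X) := by
  classical
  exact Fintype.ofFinite _

/-- number of vertices -/
noncomputable def nV : ℕ := Fintype.card (Vtx X)

/-- numbering of the vertices -/
noncomputable def eV : Vtx X ≃ Fin (nV X) := Fintype.equivFin _

/-- the vertex of type `s` of `g` -/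
noncomputable def vx (s : I) (g : G) : Fin (nV X) :=
  eV X ⟨s, (QuotientGroup.mk g : G ⧸ X.K {s})⟩

theorem vx_eq {s s' : I} {g g' : G} : vx X s g = vx X s' g' ↔ s = s' ∧ g⁻¹ * g' ∈ X.K {s} := by
  unfold vx
  rw [(eV X).apply_eq_iff_eq]
  constructor
  · intro h
    have h1 : s = s' := congrArg Sigma.fst h
    subst h1
    refine ⟨rfl, ?_⟩
    have h2 := eq_of_heq (Sigma.mk.inj h).2
    exact QuotientGroup.eq.mp h2
  · rintro ⟨rfl, h⟩
    congr 1
    exact QuotientGroup.eq.mpr h

theorem exists_vx (v : Fin (nV X)) : ∃ s g, v = vx X s g := by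
  obtain ⟨⟨s, q⟩, rfl⟩ := (eV X).surjective v
  obtain ⟨g, rfl⟩ := QuotientGroup.mk_surjective q
  exact ⟨s, g, rfl⟩

/-- the face of type `S` of `g` -/
noncomputable def face (S : Finset I) (g : G) : Finset (Fin (nV X)) :=
  S.image (fun s => vx X s g)

theorem vx_inj (g : G) : Function.Injective (fun s => vx X s g) := by
  intro s s' h
  exact ((vx_eq X).1 h).1

theorem card_face (S : Finset I) (g : G) : (face X S g).card = S.card :=
  Finset.card_image_of_injective _ (vx_inj X g)

theorem mem_face {S : Finset I} {g g' : G} {s : I} :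
    vx X s g' ∈ face X S g ↔ s ∈ S ∧ g⁻¹ * g' ∈ X.K {s} := by
  unfold face
  rw [Finset.mem_image]
  constructor
  · rintro ⟨a, ha, h⟩
    obtain ⟨rfl, h2⟩ := (vx_eq X).1 h
    exact ⟨ha, h2⟩
  · rintro ⟨h1, h2⟩
    exact ⟨s, h1, (vx_eq X).2 ⟨rfl, h2⟩⟩

theorem face_subset {S S' : Finset I} {g g' : G} :
    face X S g ⊆ face X S' g' ↔ S ⊆ S' ∧ g⁻¹ * g' ∈ X.K S := by
  constructor
  · intro h
    have h1 : ∀ s ∈ S, s ∈ S' ∧ g'⁻¹ * g ∈ X.K {s} := by
      intro s hs
      have h2 : vx X s g ∈ face X S g := (mem_face X).2 ⟨hs, by simp [(X.K {s}).one_mem]⟩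
      exact (mem_face X).1 (h h2)
    refine ⟨fun s hs => (h1 s hs).1, (mem_K X).2 ?_⟩
    intro s hs
    have h3 := (X.K {s}).inv_mem (h1 s hs).2
    simpa using h3
  · rintro ⟨h1, h2⟩ x hx
    unfold face at hx
    rw [Finset.mem_image] at hx
    obtain ⟨s, hs, rfl⟩ := hx
    refine (mem_face X).2 ⟨h1 hs, ?_⟩
    have h3 := (X.K {s}).inv_mem ((mem_K X).1 h2 s hs)
    simpa using h3

theorem face_eq {S S' : Finset I} {g g' : G} :
    face X S g = face X S' g' ↔ S = S' ∧ g⁻¹ * g' ∈ X.K S := by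
  constructor
  · intro h
    have h1 := (face_subset X).1 h.subset
    have h2 := (face_subset X).1 h.symm.subset
    exact ⟨Finset.Subset.antisymm h1.1 h2.1, h1.2⟩
  · rintro ⟨rfl, h⟩
    refine Finset.Subset.antisymm ((face_subset X).2 ⟨Finset.Subset.refl _, h⟩)
      ((face_subset X).2 ⟨Finset.Subset.refl _, ?_⟩)
    have h3 := (X.K S).inv_mem h
    simpa using h3

/-- subsets of a face are faces -/
theorem sub_face {S : Finset I} {g : G} {σ : Finset (Fin (nV X))} (h : σ ⊆ face X S g) :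
    ∃ S' ⊆ S, σ = face X S' g := by
  classical
  refine ⟨S.filter (fun s => vx X s g ∈ σ), Finset.filter_subset _ _, ?_⟩
  ext x
  constructor
  · intro hx
    have h1 := h hx
    unfold face at h1
    rw [Finset.mem_image] at h1
    obtain ⟨s, hs, rfl⟩ := h1
    exact (mem_face X).2 ⟨Finset.mem_filter.2 ⟨hs, hx⟩, by simp [(X.K {s}).one_mem]⟩
  · intro hx
    unfold face at hx
    rw [Finset.mem_image] at hx
    obtain ⟨s, hs, rfl⟩ := hx
    exact (Finset.mem_filter.1 hs).2

variable (d : ℕ)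

/-- the top faces of the `d`-skeleton -/
noncomputable def TT : Finset (Finset (Fin (nV X))) :=
  ((Finset.univ : Finset I).powersetCard (d + 1) ×ˢ (Finset.univ : Finset G)).image
    (fun x => face X x.1 x.2)

theorem mem_TT {τ : Finset (Fin (nV X))} : τ ∈ TT X d ↔ ∃ S : Finset I, S.card = d + 1 ∧ ∃ g : G,
    τ = face X S g := by
  classical
  unfold TT
  rw [Finset.mem_image]
  constructor
  · rintro ⟨⟨S, g⟩, h, rfl⟩
    rw [Finset.mem_product, Finset.mem_powersetCard] at h
    exact ⟨S, h.1.2, g, rfl⟩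
  · rintro ⟨S, h, g, rfl⟩
    refine ⟨(S, g), ?_, rfl⟩
    rw [Finset.mem_product, Finset.mem_powersetCard]
    exact ⟨⟨Finset.subset_univ _, h⟩, Finset.mem_univ _⟩

theorem coboundary_face (f : Finset (Fin (nV X)) → ZMod 2) (i : ℕ) (S : Finset I)
    (hS : S.card = i + 2) (g : G) :
    coboundary i f (face X S g) = cob (fun S g => f (face X S g)) S g := by
  classical
  unfold coboundary cob
  symm
  refine Finset.sum_bij (fun s _ => face X (S.erase s) g) ?_ ?_ ?_ ?_
  · intro s hs
    rw [Finset.mem_powersetCard, card_face, Finset.card_erase_of_mem hs, hS]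
    refine ⟨(face_subset X).2 ⟨Finset.erase_subset _ _, by simp [(X.K _).one_mem]⟩, rfl⟩
  · intro a ha b hb h
    have h1 := ((face_eq X).1 h).1
    by_contra hne
    have h2 : b ∈ S.erase a := Finset.mem_erase.2 ⟨fun h => hne h.symm, hb⟩
    rw [h1] at h2
    exact absurd h2 (Finset.notMem_erase _ _)
  · intro σ hσ
    rw [Finset.mem_powersetCard] at hσ
    obtain ⟨S', hS', rfl⟩ := sub_face X hσ.1
    rw [card_face] at hσ
    have h1 : (S \ S').card = 1 := by
      rw [Finset.card_sdiff_of_subset hS', hS, hσ.2]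
      omega
    obtain ⟨s, hs⟩ := Finset.card_eq_one.1 h1
    have hs1 : s ∈ S \ S' := by rw [hs]; exact Finset.mem_singleton_self s
    rw [Finset.mem_sdiff] at hs1
    refine ⟨s, hs1.1, ?_⟩
    congr 1
    rw [← Finset.sdiff_singleton_eq_erase, ← hs, Finset.sdiff_sdiff_eq_self hS']
  · intro s hs
    rfl

/-! ## degrees and weights -/

theorem one_le_vertexDegree (hd : d + 1 ≤ Fintype.card I) (v : Fin (nV X)) :
    1 ≤ vertexDegree (TT X d) v := by
  classical
  obtain ⟨s, g, rfl⟩ := exists_vx X v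
  obtain ⟨S, hS1, hS2⟩ : ∃ S : Finset I, {s} ⊆ S ∧ S.card = d + 1 := by
    obtain ⟨S, hS1, _, hS2⟩ := Finset.exists_subsuperset_card_eq
      (Finset.subset_univ ({s} : Finset I)) (n := d + 1) (by simp) (by simpa using hd)
    exact ⟨S, hS1, hS2⟩
  unfold vertexDegree
  rw [Nat.one_le_iff_ne_zero, Ne, Finset.card_eq_zero, ← Ne, ← Finset.nonempty_iff_ne_empty]
  refine ⟨face X S g, Finset.mem_filter.2 ⟨(mem_TT X d).2 ⟨S, hS2, g, rfl⟩, ?_⟩⟩
  exact (mem_face X).2 ⟨hS1 (Finset.mem_singleton_self s), by simp [(X.K {s}).one_mem]⟩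

theorem vertexDegree_le {B : ℕ} (hB : ∀ s, Nat.card (X.K {s}) ≤ B) (v : Fin (nV X)) :
    vertexDegree (TT X d) v ≤ 2 ^ Fintype.card I * B := by
  classical
  obtain ⟨s, g, rfl⟩ := exists_vx X v
  unfold vertexDegree
  have h1 : ((TT X d).filter (fun τ => vx X s g ∈ τ)) ⊆
      ((Finset.univ : Finset (Finset I)) ×ˢ
        ((Finset.univ : Finset (X.K {s})))).image (fun x => face X x.1 (g * (x.2 : G))) := by
    intro τ hτ
    rw [Finset.mem_filter, mem_TT] at hτ
    obtain ⟨⟨S, hS, g', rfl⟩, h⟩ := hτ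
    have h2 := (mem_face X).1 h
    rw [Finset.mem_image]
    have h3 : g⁻¹ * g' ∈ X.K {s} := by
      have := (X.K {s}).inv_mem h2.2
      simpa using this
    exact ⟨(S, ⟨g⁻¹ * g', h3⟩), Finset.mem_product.2 ⟨Finset.mem_univ _, Finset.mem_univ _⟩,
      by simp⟩
  refine (Finset.card_le_card h1).trans (Finset.card_image_le.trans ?_)
  rw [Finset.card_product, Finset.card_univ, Fintype.card_finset]
  refine Nat.mul_le_mul_left _ ?_
  rw [Finset.card_univ, ← Nat.card_eq_fintype_card]
  exact hB s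

theorem filter_super_le {B : ℕ} (hB : ∀ s, Nat.card (X.K {s}) ≤ B) (σ : Finset (Fin (nV X)))
    (hσ : σ.Nonempty) :
    ((TT X d).filter (fun τ => σ ⊆ τ)).card ≤ 2 ^ Fintype.card I * B := by
  classical
  obtain ⟨v, hv⟩ := hσ
  refine le_trans (Finset.card_le_card ?_) (vertexDegree_le X d hB v)
  intro τ hτ
  rw [Finset.mem_filter] at hτ ⊢
  exact ⟨hτ.1, hτ.2 hv⟩

theorem one_le_filter_super (hd : d + 1 ≤ Fintype.card I) (S : Finset I) (hS : S.card ≤ d + 1)
    (g : G) : 1 ≤ ((TT X d).filter (fun τ => face X S g ⊆ τ)).card := by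
  classical
  obtain ⟨S', hS1, _, hS2⟩ := Finset.exists_subsuperset_card_eq
      (Finset.subset_univ S) (n := d + 1) hS (by simpa using hd)
  rw [Nat.one_le_iff_ne_zero, Ne, Finset.card_eq_zero, ← Ne, ← Finset.nonempty_iff_ne_empty]
  refine ⟨face X S' g, Finset.mem_filter.2 ⟨(mem_TT X d).2 ⟨S', hS2, g, rfl⟩, ?_⟩⟩
  exact (face_subset X).2 ⟨hS1, by simp [(X.K S).one_mem]⟩

/-- upper bound for the norm -/
theorem cochainNorm_le {B : ℕ} (hB : ∀ s, Nat.card (X.K {s}) ≤ B) (i : ℕ)
    (f : Finset (Fin (nV X)) → ZMod 2) (c : ℝ) (hc : 0 < c)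
    (hc1 : c ≤ (Nat.choose (d + 1) (i + 1) : ℝ) * ((TT X d).card : ℝ)) :
    cochainNorm d (TT X d) i f ≤
      (2 ^ Fintype.card I * B : ℕ) / c * (cnt X ∅ (i + 1) (fun S g => f (face X S g)) : ℕ) := by
  classical
  unfold cochainNorm
  -- each weight is at most `D / c`, zero on non-faces
  have h1 : ∀ σ : Finset (Fin (nV X)), σ.card = i + 1 →
      faceWeight d (TT X d) i σ ≤ if (∃ S g, S.card = i + 1 ∧ σ = face X S g) then
        ((2 ^ Fintype.card I * B : ℕ) : ℝ) / c else 0 := by
    intro σ hσ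
    split_ifs with h
    · unfold faceWeight
      refine div_le_div₀ (by positivity) ?_ hc hc1
      exact_mod_cast filter_super_le X d hB σ (Finset.card_pos.1 (by omega))
    · unfold faceWeight
      have h2 : (TT X d).filter (fun τ => σ ⊆ τ) = ∅ := by
        rw [Finset.filter_eq_empty_iff]
        intro τ hτ hστ
        obtain ⟨S, hS, g, rfl⟩ := (mem_TT X d).1 hτ
        obtain ⟨S', _, rfl⟩ := sub_face X hστ
        rw [card_face] at hσ
        exact h ⟨S', g, hσ, rfl⟩
      rw [h2]
      simp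
  calc ∑ σ ∈ (Finset.univ.powersetCard (i + 1)).filter (fun σ => f σ ≠ 0),
        faceWeight d (TT X d) i σ
      ≤ ∑ σ ∈ (Finset.univ.powersetCard (i + 1)).filter (fun σ => f σ ≠ 0),
        (if (∃ S g, S.card = i + 1 ∧ σ = face X S g) then
          ((2 ^ Fintype.card I * B : ℕ) : ℝ) / c else 0) := by
        refine Finset.sum_le_sum fun σ hσ => h1 σ ?_
        rw [Finset.mem_filter, Finset.mem_powersetCard] at hσ
        exact hσ.1.2
    _ = ((2 ^ Fintype.card I * B : ℕ) : ℝ) / c *
        ((((Finset.univ.powersetCard (i + 1)).filter (fun σ => f σ ≠ 0)).filter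
          (fun σ => ∃ S g, S.card = i + 1 ∧ σ = face X S g)).card : ℝ) := by
        rw [← Finset.sum_filter, Finset.sum_const, nsmul_eq_mul, mul_comm]
    _ ≤ _ := by
        refine mul_le_mul_of_nonneg_left ?_ (by positivity)
        norm_cast
        unfold cnt
        -- count faces
        have h3 : (((Finset.univ.powersetCard (i + 1)).filter (fun σ => f σ ≠ 0)).filter
          (fun σ => ∃ S g, S.card = i + 1 ∧ σ = face X S g)) ⊆
          (faces (∅ : Finset I) (i + 1)).biUnion (fun S =>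
            ((Finset.univ.filter (fun g : G => g ∈ X.K ∅ ∧ f (face X S g) ≠ 0)).image
              (fun g => face X S g))) := by
          intro σ hσ
          rw [Finset.mem_filter, Finset.mem_filter] at hσ
          obtain ⟨⟨_, h4⟩, S, g, hS, rfl⟩ := hσ
          rw [Finset.mem_biUnion]
          refine ⟨S, ?_, ?_⟩
          · unfold faces
            rw [Finset.mem_filter]
            exact ⟨Finset.mem_univ _, hS, Finset.disjoint_empty_left _⟩
          · rw [Finset.mem_image]
            refine ⟨g, ?_, rfl⟩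
            rw [Finset.mem_filter]
            exact ⟨Finset.mem_univ _, by rw [X.K_empty]; trivial, h4⟩
        refine (Finset.card_le_card h3).trans (Finset.card_biUnion_le.trans ?_)
        refine Finset.sum_le_sum fun S _ => ?_
        unfold supp
        exact Finset.card_image_le

/-- lower bound for the norm -/
theorem le_cochainNorm {B : ℕ} (hB : ∀ s, Nat.card (X.K {s}) ≤ B) (hd : d + 1 ≤ Fintype.card I)
    (i : ℕ) (hi : i ≤ d) (f : Finset (Fin (nV X)) → ZMod 2) (c : ℝ) (hc : 0 < c)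
    (hc1 : (Nat.choose (d + 1) (i + 1) : ℝ) * ((TT X d).card : ℝ) ≤ c) :
    (cnt X ∅ (i + 1) (fun S g => f (face X S g)) : ℕ) ≤
      (B : ℝ) * c * cochainNorm d (TT X d) i f := by
  classical
  -- fibre bound
  have hfib : cnt X ∅ (i + 1) (fun S g => f (face X S g)) ≤
      B * (((Finset.univ.powersetCard (i + 1)).filter (fun σ => f σ ≠ 0)).filter
          (fun σ => ∃ S g, S.card = i + 1 ∧ σ = face X S g)).card := by
    set Fs := (((Finset.univ.powersetCard (i + 1)).filter (fun σ => f σ ≠ 0)).filter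
          (fun σ => ∃ S g, S.card = i + 1 ∧ σ = face X S g)) with hFs
    have h1 : cnt X ∅ (i + 1) (fun S g => f (face X S g)) =
        ((faces (∅ : Finset I) (i + 1)).sigma (fun S =>
          (Finset.univ.filter (fun g : G => g ∈ X.K ∅ ∧ f (face X S g) ≠ 0)))).card := by
      rw [Finset.card_sigma]
      rfl
    rw [h1]
    refine Finset.card_le_mul_card_image_of_maps_to
      (f := fun x : (_ : Finset I) × G => face X x.1 x.2) ?_ B ?_
    · rintro ⟨S, g⟩ hx
      rw [Finset.mem_sigma, Finset.mem_filter] at hx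
      simp only [faces, Finset.mem_filter] at hx
      rw [hFs, Finset.mem_filter, Finset.mem_filter, Finset.mem_powersetCard]
      exact ⟨⟨⟨Finset.subset_univ _, by rw [card_face]; exact hx.1.2.1⟩, hx.2.2.2⟩,
        S, g, hx.1.2.1, rfl⟩
    · intro σ hσ
      rw [hFs, Finset.mem_filter] at hσ
      obtain ⟨_, S, g, hS, rfl⟩ := hσ
      obtain ⟨s, hs⟩ : S.Nonempty := Finset.card_pos.1 (by omega)
      have h2 : (((faces (∅ : Finset I) (i + 1)).sigma (fun S =>
          (Finset.univ.filter (fun g : G => g ∈ X.K ∅ ∧ f (face X S g) ≠ 0)))).filter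
          (fun x => face X x.1 x.2 = face X S g)) ⊆
          (Finset.univ : Finset (X.K {s})).image
            (fun k : X.K {s} => (⟨S, g * (k : G)⟩ : (_ : Finset I) × G)) := by
        rintro ⟨S', g'⟩ hx
        rw [Finset.mem_filter] at hx
        obtain ⟨h3, h4⟩ := (face_eq X).1 hx.2.symm
        subst h3
        rw [Finset.mem_image]
        refine ⟨⟨g⁻¹ * g', (mem_K X).1 h4 s hs⟩, Finset.mem_univ _, by simp⟩
      refine (Finset.card_le_card h2).trans (Finset.card_image_le.trans ?_)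
      rw [Finset.card_univ, ← Nat.card_eq_fintype_card]
      exact hB s
  have hw : ∀ σ ∈ (((Finset.univ.powersetCard (i + 1)).filter (fun σ => f σ ≠ 0)).filter
          (fun σ => ∃ S g, S.card = i + 1 ∧ σ = face X S g)),
          1 / c ≤ faceWeight d (TT X d) i σ := by
    intro σ hσ
    rw [Finset.mem_filter] at hσ
    obtain ⟨_, S, g, hS, rfl⟩ := hσ
    unfold faceWeight
    have hT : 0 < (TT X d).card := by
      have := one_le_filter_super X d hd S (by omega) g
      exact lt_of_lt_of_le (by omega) (this.trans (Finset.card_filter_le _ _))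
    have hch : 0 < Nat.choose (d + 1) (i + 1) := Nat.choose_pos (by omega)
    refine div_le_div₀ (by positivity) ?_ (by positivity) hc1
    exact_mod_cast one_le_filter_super X d hd S (by omega) g
  have hge : (1 / c) * ((((Finset.univ.powersetCard (i + 1)).filter (fun σ => f σ ≠ 0)).filter
          (fun σ => ∃ S g, S.card = i + 1 ∧ σ = face X S g)).card : ℝ) ≤
          cochainNorm d (TT X d) i f := by
    unfold cochainNorm
    calc (1 / c) * ((((Finset.univ.powersetCard (i + 1)).filter (fun σ => f σ ≠ 0)).filter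
          (fun σ => ∃ S g, S.card = i + 1 ∧ σ = face X S g)).card : ℝ)
        = ∑ σ ∈ (((Finset.univ.powersetCard (i + 1)).filter (fun σ => f σ ≠ 0)).filter
          (fun σ => ∃ S g, S.card = i + 1 ∧ σ = face X S g)), (1 / c) := by
          rw [Finset.sum_const, nsmul_eq_mul, mul_comm]
      _ ≤ ∑ σ ∈ (((Finset.univ.powersetCard (i + 1)).filter (fun σ => f σ ≠ 0)).filter
          (fun σ => ∃ S g, S.card = i + 1 ∧ σ = face X S g)), faceWeight d (TT X d) i σ :=
          Finset.sum_le_sum hw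
      _ ≤ _ := by
          refine Finset.sum_le_sum_of_subset_of_nonneg (Finset.filter_subset _ _) ?_
          intro σ _ _
          unfold faceWeight
          positivity
  have h5 : ((((Finset.univ.powersetCard (i + 1)).filter (fun σ => f σ ≠ 0)).filter
          (fun σ => ∃ S g, S.card = i + 1 ∧ σ = face X S g)).card : ℝ) ≤
          c * cochainNorm d (TT X d) i f := by
    have := mul_le_mul_of_nonneg_left hge hc.le
    rwa [← mul_assoc, mul_one_div_cancel hc.ne', one_mul] at this
  calc ((cnt X ∅ (i + 1) (fun S g => f (face X S g)) : ℕ) : ℝ)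
      ≤ (B : ℝ) * ((((Finset.univ.powersetCard (i + 1)).filter (fun σ => f σ ≠ 0)).filter
          (fun σ => ∃ S g, S.card = i + 1 ∧ σ = face X S g)).card : ℝ) := by
        exact_mod_cast hfib
    _ ≤ (B : ℝ) * (c * cochainNorm d (TT X d) i f) :=
        mul_le_mul_of_nonneg_left h5 (by positivity)
    _ = _ := by ring


/-- coset-calculus expansion in all degrees `< d` with constant `ε` (counting norms). -/
def Expands (ε : ℝ) : Prop :=
  ∀ n : ℕ, 1 ≤ n → n ≤ d → ∀ f : Finset I → G → ZMod 2, IsCochain X ∅ n f →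
    ∃ h : Finset I → G → ZMod 2, IsCochain X ∅ (n - 1) h ∧
      ε * (cnt X ∅ n (f + cob h) : ℝ) ≤ (cnt X ∅ (n + 1) (cob f) : ℝ)

theorem isCochain_face (n : ℕ) (f : Finset (Fin (nV X)) → ZMod 2) :
    IsCochain X ∅ n (fun S g => f (face X S g)) := by
  intro S _ _ g _ k hk
  have : face X S (g * k) = face X S g := by
    rw [Finset.empty_union] at hk
    rw [face_eq]
    refine ⟨rfl, ?_⟩
    have := (X.K S).inv_mem hk
    simpa using this
  simp only [this]

theorem main_ineq {B : ℕ} (hB : ∀ s, Nat.card (X.K {s}) ≤ B) (hd : d + 1 ≤ Fintype.card I)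
    (ε : ℝ) (hε : 0 < ε) (hX : Expands X d ε) (hB1 : 1 ≤ B) (i : ℕ) (hi : i < d)
    (f : Finset (Fin (nV X)) → ZMod 2) :
    ∃ b : Finset (Fin (nV X)) → ZMod 2, IsCoboundaryClass i b ∧
      ε / ((2 ^ Fintype.card I * B : ℕ) * B * 2 ^ (d + 1) : ℝ) *
        cochainNorm d (TT X d) i (f - b) ≤ cochainNorm d (TT X d) (i + 1) (coboundary i f) := by
  classical
  obtain ⟨h, hh, hle⟩ := hX (i + 1) (by omega) (by omega) _ (isCochain_face X (i + 1) f)
  simp only [Nat.add_sub_cancel] at hh
  -- the coboundary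
  obtain ⟨b, hb1, hb2⟩ : ∃ b : Finset (Fin (nV X)) → ZMod 2, IsCoboundaryClass i b ∧
      ∀ S g, S.card = i + 1 → b (face X S g) = cob h S g := by
    rcases Nat.eq_zero_or_pos i with rfl | hi0
    · refine ⟨fun _ => h ∅ 1, Or.inl ⟨rfl, h ∅ 1, fun _ => rfl⟩, ?_⟩
      intro S g hS
      obtain ⟨s, rfl⟩ := Finset.card_eq_one.1 hS
      simp only [cob, Finset.sum_singleton, Finset.erase_singleton]
      have := hh ∅ rfl (Finset.disjoint_empty_left _) 1 (Subgroup.one_mem _) g
        (by rw [Finset.empty_union, X.K_empty]; trivial)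
      rw [one_mul] at this
      exact this.symm
    · -- extend `h` to all sets
      let h' : Finset (Fin (nV X)) → ZMod 2 := fun σ =>
        if hσ : ∃ x : Finset I × G, x.1.card = i ∧ σ = face X x.1 x.2 then
          h hσ.choose.1 hσ.choose.2 else 0
      have hh' : ∀ S g, S.card = i → h' (face X S g) = h S g := by
        intro S g hS
        have hex : ∃ x : Finset I × G, x.1.card = i ∧ face X S g = face X x.1 x.2 :=
          ⟨(S, g), hS, rfl⟩
        have h0 : h' (face X S g) = h hex.choose.1 hex.choose.2 := dif_pos hex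
        rw [h0]
        obtain ⟨h1, h2⟩ := hex.choose_spec
        obtain ⟨h3, h4⟩ := (face_eq X).1 h2
        have h5 := hh S hS (Finset.disjoint_empty_left _) g (by rw [X.K_empty]; trivial)
          (g⁻¹ * hex.choose.2) (by rw [Finset.empty_union]; exact h4)
        rw [mul_inv_cancel_left] at h5
        rw [← h5, ← h3]
      refine ⟨coboundary (i - 1) h', Or.inr ⟨hi0, h', rfl⟩, ?_⟩
      intro S g hS
      rw [coboundary_face X h' (i - 1) S (by omega) g]
      unfold cob
      refine Finset.sum_congr rfl fun s hs => ?_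
      exact hh' _ _ (by rw [Finset.card_erase_of_mem hs, hS]; rfl)
  refine ⟨b, hb1, ?_⟩
  -- the two cochains
  have hT : 0 < (TT X d).card := by
    obtain ⟨S, _, hS⟩ := Finset.exists_subset_card_eq
      (s := (Finset.univ : Finset I)) (n := d + 1) (by simpa using hd)
    exact Finset.card_pos.2 ⟨face X S 1, (mem_TT X d).2 ⟨S, hS, 1, rfl⟩⟩
  have hTr : (0 : ℝ) < (TT X d).card := by exact_mod_cast hT
  have hch : 1 ≤ Nat.choose (d + 1) (i + 1) := Nat.choose_pos (by omega)
  have hchr : (1 : ℝ) ≤ (Nat.choose (d + 1) (i + 1) : ℝ) := by exact_mod_cast hch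
  have hch2 : Nat.choose (d + 1) (i + 1 + 1) ≤ 2 ^ (d + 1) := by
    exact Nat.choose_le_two_pow _ _
  have hch2r : (Nat.choose (d + 1) (i + 1 + 1) : ℝ) ≤ 2 ^ (d + 1) := by exact_mod_cast hch2
  have hA := cochainNorm_le X d hB i (f - b) ((TT X d).card : ℝ) hTr (by nlinarith)
  have hA2 := le_cochainNorm X d hB hd (i + 1) (by omega) (coboundary i f)
    (2 ^ (d + 1) * ((TT X d).card : ℝ)) (by positivity)
    (mul_le_mul_of_nonneg_right hch2r (by positivity))
  have hc1 : cnt X ∅ (i + 1) (fun S g => (f - b) (face X S g)) =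
      cnt X ∅ (i + 1) ((fun S g => f (face X S g)) + cob h) := by
    unfold cnt
    refine Finset.sum_congr rfl fun S hS => ?_
    unfold faces at hS
    rw [Finset.mem_filter] at hS
    unfold supp
    congr 1
    refine Finset.filter_congr fun g _ => ?_
    have : (f - b) (face X S g) = ((fun S g => f (face X S g)) + cob h) S g := by
      simp only [Pi.sub_apply, Pi.add_apply]
      rw [hb2 S g hS.2.1, CharTwo.sub_eq_add]
    simp only [this]
  have hc2 : cnt X ∅ (i + 1 + 1) (fun S g => (coboundary i f) (face X S g)) =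
      cnt X ∅ (i + 1 + 1) (cob (fun S g => f (face X S g))) := by
    unfold cnt
    refine Finset.sum_congr rfl fun S hS => ?_
    unfold faces at hS
    rw [Finset.mem_filter] at hS
    unfold supp
    congr 1
    refine Finset.filter_congr fun g _ => ?_
    have := coboundary_face X f i S hS.2.1 g
    simp only [this]
  rw [hc1] at hA
  rw [hc2] at hA2
  have hBr : (1 : ℝ) ≤ B := by exact_mod_cast hB1
  set D : ℝ := ((2 ^ Fintype.card I * B : ℕ) : ℝ) with hD
  have hDpos : 0 < D := by
    rw [hD]; exact_mod_cast Nat.mul_pos (Nat.pos_of_ne_zero (by positivity)) (by omega)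
  set N1 : ℝ := ((cnt X ∅ (i + 1) ((fun S g => f (face X S g)) + cob h) : ℕ) : ℝ) with hN1
  set N2 : ℝ := ((cnt X ∅ (i + 1 + 1) (cob (fun S g => f (face X S g))) : ℕ) : ℝ) with hN2
  set t : ℝ := ((TT X d).card : ℝ) with ht
  -- combine
  have h7 : D / t * N1 ≤ D / t * (N2 / ε) := by
    refine mul_le_mul_of_nonneg_left ?_ (by positivity)
    rw [le_div_iff₀ hε]
    linarith [hle, mul_comm ε N1]
  have h8 : cochainNorm d (TT X d) i (f - b) ≤
      D / t * ((B * (2 ^ (d + 1) * t) * cochainNorm d (TT X d) (i + 1) (coboundary i f)) / ε) := by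
    refine hA.trans (h7.trans ?_)
    refine mul_le_mul_of_nonneg_left ?_ (by positivity)
    exact div_le_div_of_nonneg_right hA2 hε.le
  have h9 : D / t * ((B * (2 ^ (d + 1) * t) * cochainNorm d (TT X d) (i + 1) (coboundary i f)) / ε)
      = (D * B * 2 ^ (d + 1)) / ε * cochainNorm d (TT X d) (i + 1) (coboundary i f) := by
    field_simp
  rw [h9] at h8
  have h10 : (0 : ℝ) < D * B * 2 ^ (d + 1) := by positivity
  calc ε / (D * B * 2 ^ (d + 1)) * cochainNorm d (TT X d) i (f - b)
      ≤ ε / (D * B * 2 ^ (d + 1)) * ((D * B * 2 ^ (d + 1)) / ε *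
          cochainNorm d (TT X d) (i + 1) (coboundary i f)) :=
        mul_le_mul_of_nonneg_left h8 (by positivity)
    _ = cochainNorm d (TT X d) (i + 1) (coboundary i f) := by
        field_simp

/-- connectivity of the 1-skeleton from expansion in degree 0 -/
theorem skeleton_connected (hd : d + 1 ≤ Fintype.card I) (hd1 : 1 ≤ d)
    (ε : ℝ) (hε : 0 < ε) (hX : Expands X d ε) : (skeleton (TT X d)).Connected := by
  classical
  have hI : 0 < Fintype.card I := by omega
  obtain ⟨s0⟩ : Nonempty I := Fintype.card_pos_iff.1 hI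
  let v0 : Fin (nV X) := vx X s0 1
  have : Nonempty (Fin (nV X)) := ⟨v0⟩
  refine SimpleGraph.Connected.mk ?_
  suffices h : ∀ v, (skeleton (TT X d)).Reachable v0 v by
    intro u v
    exact (h u).symm.trans (h v)
  -- indicator of the component
  let f : Finset I → G → ZMod 2 := fun S g =>
    if (∀ s ∈ S, (skeleton (TT X d)).Reachable v0 (vx X s g)) then 1 else 0
  have hf : IsCochain X ∅ 1 f := by
    intro S hS _ g _ k hk
    rw [Finset.empty_union] at hk
    have : ∀ s ∈ S, vx X s (g * k) = vx X s g := by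
      intro s hs
      rw [vx_eq]
      refine ⟨rfl, ?_⟩
      have := (X.K {s}).inv_mem ((mem_K X).1 hk s hs)
      simpa using this
    simp only [f]
    congr 1
    rw [eq_iff_iff]
    exact forall₂_congr fun s hs => by rw [this s hs]
  obtain ⟨h, hh, hle⟩ := hX 1 le_rfl hd1 f hf
  -- cob f = 0
  have hadj : ∀ s s' : I, s ≠ s' → ∀ g : G,
      (skeleton (TT X d)).Reachable (vx X s g) (vx X s' g) := by
    intro s s' hss g
    refine SimpleGraph.Adj.reachable ?_
    obtain ⟨S', hS1, _, hS2⟩ := Finset.exists_subsuperset_card_eq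
      (Finset.subset_univ ({s, s'} : Finset I)) (n := d + 1)
      (by rw [Finset.card_pair hss]; omega) (by simpa using hd)
    refine ⟨fun e => hss ((vx_eq X).1 e).1, face X S' g, (mem_TT X d).2 ⟨S', hS2, g, rfl⟩, ?_, ?_⟩
    · exact (mem_face X).2 ⟨hS1 (by simp), by simp [(X.K _).one_mem]⟩
    · exact (mem_face X).2 ⟨hS1 (by simp), by simp [(X.K _).one_mem]⟩
  have hcob : ∀ S : Finset I, S.card = 2 → ∀ g, cob f S g = 0 := by
    intro S hS g
    obtain ⟨a, b, hab, rfl⟩ := Finset.card_eq_two.1 hS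
    have h1 : cob f {a, b} g = f {b} g + f {a} g := by
      unfold cob
      rw [Finset.sum_pair hab]
      congr 2
      · rw [Finset.erase_insert]; simpa using hab
      · ext x
        simp only [Finset.mem_erase, Finset.mem_insert, Finset.mem_singleton]
        constructor
        · rintro ⟨h1, h2 | h2⟩
          · exact h2
          · exact absurd h2 h1
        · rintro rfl
          exact ⟨hab, Or.inl rfl⟩
    rw [h1]
    have h2 : (skeleton (TT X d)).Reachable v0 (vx X a g) ↔
        (skeleton (TT X d)).Reachable v0 (vx X b g) :=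
      ⟨fun h => h.trans (hadj a b hab g), fun h => h.trans (hadj b a hab.symm g)⟩
    simp only [f, Finset.mem_singleton, forall_eq]
    by_cases h3 : (skeleton (TT X d)).Reachable v0 (vx X a g)
    · rw [if_pos h3, if_pos (h2.1 h3)]; rfl
    · rw [if_neg h3, if_neg (fun h => h3 (h2.2 h))]; rfl
  have hc0 : cnt X ∅ (1 + 1) (cob f) = 0 := by
    unfold cnt
    refine Finset.sum_eq_zero fun S hS => ?_
    unfold faces at hS
    rw [Finset.mem_filter] at hS
    unfold supp
    rw [Finset.card_eq_zero, Finset.filter_eq_empty_iff]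
    rintro g _ ⟨_, h2⟩
    exact h2 (hcob S hS.2.1 g)
  rw [hc0] at hle
  have hc1 : cnt X ∅ 1 (f + cob h) = 0 := by
    have h1 : ε * (cnt X ∅ 1 (f + cob h) : ℝ) ≤ 0 := by simpa using hle
    have h2 : (cnt X ∅ 1 (f + cob h) : ℝ) ≤ 0 := by
      by_contra h3
      push Not at h3
      nlinarith
    have h4 : cnt X ∅ 1 (f + cob h) ≤ 0 := by exact_mod_cast h2
    omega
  have hval : ∀ s g, f {s} g = h ∅ 1 := by
    intro s g
    unfold cnt at hc1
    rw [Finset.sum_eq_zero_iff] at hc1
    have h1 := hc1 {s} (by simp [faces])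
    unfold supp at h1
    rw [Finset.card_eq_zero, Finset.filter_eq_empty_iff] at h1
    have h2 := h1 (Finset.mem_univ g)
    push Not at h2
    have h3 := h2 (by rw [X.K_empty]; trivial)
    simp only [Pi.add_apply, cob, Finset.sum_singleton, Finset.erase_singleton] at h3
    have h4 := hh ∅ rfl (Finset.disjoint_empty_left _) 1 (Subgroup.one_mem _) g
        (by rw [Finset.empty_union, X.K_empty]; trivial)
    rw [one_mul] at h4
    rw [h4] at h3
    have h5 := CharTwo.add_eq_zero.1 h3
    exact h5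
  intro v
  obtain ⟨s, g, rfl⟩ := exists_vx X v
  have h0 : f {s0} 1 = 1 := by
    simp only [f, Finset.mem_singleton, forall_eq]
    exact if_pos (SimpleGraph.Reachable.refl _)
  have h1 : f {s} g = 1 := by rw [hval, ← hval s0 1, h0]
  by_contra h2
  simp only [f, Finset.mem_singleton, forall_eq] at h1
  rw [if_neg h2] at h1
  exact absurd h1 (by decide)

theorem nV_ge {B : ℕ} (hB : ∀ s, Nat.card (X.K {s}) ≤ B) (s : I) :
    Fintype.card G ≤ B * nV X := by
  classical
  have h1 : Nat.card G = Nat.card (G ⧸ X.K {s}) * Nat.card (X.K {s}) :=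
    (X.K {s}).card_eq_card_quotient_mul_card_subgroup
  rw [Nat.card_eq_fintype_card] at h1
  rw [h1, mul_comm]
  refine Nat.mul_le_mul (hB s) ?_
  have h2 : Nat.card (G ⧸ X.K {s}) ≤ Nat.card (Vtx X) :=
    Nat.card_le_card_of_injective (fun q => (⟨s, q⟩ : Vtx X)) (fun a b h => by
      exact eq_of_heq (Sigma.mk.inj h).2)
  rw [Nat.card_eq_fintype_card (α := Vtx X)] at h2
  exact h2

end


end Crest.Agent.R066.Asm
end

-- ▼ part R066/Assemble
section

/-! From a typed coset system to a simplicial complex in the sense of S0088 (task T6). -/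

set_option autoImplicit false
open scoped BigOperators

namespace Crest.Agent.R066

namespace Assemble

variable {I : Type} [DecidableEq I] {G : Type} [Group G]

/-- The coset system of a family of subgroups. -/
def sys (P : I → Subgroup G) : Asm.CosetSystem G I where
  K := PJ P
  K_empty := by simp [PJ]
  K_union S T := by
    unfold PJ
    rw [Finset.iInf_union]


theorem isCoch_iff (P : I → Subgroup G) (m : ℕ) (f : Finset I → G → ZMod 2) :
    IsCoch P ∅ m f ↔ Asm.IsCochain (sys P) ∅ m f := by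
  unfold IsCoch Asm.IsCochain
  constructor
  · intro h S hS _ g hg k hk
    refine h S hS (Finset.disjoint_empty_right _) g hg k ?_
    rw [Finset.union_empty]
    rw [Finset.empty_union] at hk
    exact hk
  · intro h S hS _ g hg k hk
    refine h S hS (Finset.disjoint_empty_left _) g hg k ?_
    rw [Finset.empty_union]
    rw [Finset.union_empty] at hk
    exact hk


theorem wt_eq [Fintype I] [Fintype G] (P : I → Subgroup G) (m : ℕ) (f : Finset I → G → ZMod 2) :
    wt P ∅ m f = Asm.cnt (sys P) ∅ m f := by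
  classical
  unfold wt Asm.cnt Asm.faces
  refine Finset.sum_congr (Finset.ext fun J => by simp) fun S _ => ?_
  unfold Asm.supp
  congr 1

end Assemble

theorem assemble (d n : ℕ) (hd : 1 ≤ d) (hdn : d + 2 ≤ n) (D₀ : ℕ) (C₁ : ℝ) (hC : 0 < C₁) :
    ∃ D : ℕ, ∃ ε : ℝ, 0 < ε ∧
    ∀ (G : Type) [Group G] [Fintype G] (P : Fin n → Subgroup G), (∀ i, Nat.card (P i) ≤ D₀) →
      (∀ m : ℕ, 1 ≤ m → m ≤ d → ∀ f : Finset (Fin n) → G → ZMod 2, IsCoch P ∅ m f →
        ∃ b : Finset (Fin n) → G → ZMod 2, IsCoch P ∅ (m - 1) b ∧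
          (wt P ∅ m (f + cob b) : ℝ) ≤ C₁ * (wt P ∅ (m + 1) (cob f) : ℝ)) →
      ∃ N : ℕ, ∃ T : Finset (Finset (Fin N)), Nat.card G ≤ D₀ * N ∧
      (∀ τ ∈ T, τ.card = d + 1) ∧
      (∀ v : Fin N, 1 ≤ Crest.CombinatoricsR.Cochain.vertexDegree T v ∧ Crest.CombinatoricsR.Cochain.vertexDegree T v ≤ D) ∧
      (Crest.CombinatoricsR.Cochain.skeleton T).Connected ∧
      ∀ i : ℕ, i < d → ∀ f : Finset (Fin N) → ZMod 2,
        ∃ b : Finset (Fin N) → ZMod 2, Crest.CombinatoricsR.Cochain.IsCoboundaryClass i b ∧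
          ε * Crest.CombinatoricsR.Cochain.cochainNorm d T i (f - b) ≤ Crest.CombinatoricsR.Cochain.cochainNorm d T (i + 1) (Crest.CombinatoricsR.Cochain.coboundary i f) := by
  classical
  have hn : 0 < n := by omega
  have hcard : d + 1 ≤ Fintype.card (Fin n) := by rw [Fintype.card_fin]; omega
  refine ⟨2 ^ Fintype.card (Fin n) * (D₀ + 1),
    (1 / C₁) / ((2 ^ Fintype.card (Fin n) * (D₀ + 1) : ℕ) * (D₀ + 1 : ℕ) * 2 ^ (d + 1) : ℝ), ?_, ?_⟩
  · have h1 : (0 : ℝ) < ((2 ^ Fintype.card (Fin n) * (D₀ + 1) : ℕ) : ℝ) := by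
      exact_mod_cast Nat.mul_pos (Nat.pos_of_ne_zero (by positivity)) (by omega)
    have h2 : (0 : ℝ) < ((D₀ + 1 : ℕ) : ℝ) := by exact_mod_cast Nat.succ_pos D₀
    positivity
  · intro G _ _ P hP hE
    have hX : Asm.Expands (Assemble.sys P) d (1 / C₁) := by
      intro m hm1 hmd f hf
      obtain ⟨b, hb1, hb2⟩ := hE m hm1 hmd f ((Assemble.isCoch_iff P m f).2 hf)
      refine ⟨b, (Assemble.isCoch_iff P (m - 1) b).1 hb1, ?_⟩
      rw [Assemble.wt_eq, Assemble.wt_eq] at hb2
      have h3 : (1 / C₁) * (Asm.cnt (Assemble.sys P) ∅ m (f + Asm.cob b) : ℝ) ≤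
          (1 / C₁) * (C₁ * (Asm.cnt (Assemble.sys P) ∅ (m + 1) (Asm.cob f) : ℝ)) :=
        mul_le_mul_of_nonneg_left hb2 (by positivity)
      refine h3.trans (le_of_eq ?_)
      field_simp
    have hK : ∀ s, (Assemble.sys P).K {s} = P s := by
      intro s
      show PJ P {s} = P s
      simp [PJ]
    have hB0 : ∀ s, Nat.card ((Assemble.sys P).K {s}) ≤ D₀ := by
      intro s; rw [hK s]; exact hP s
    have hB : ∀ s, Nat.card ((Assemble.sys P).K {s}) ≤ D₀ + 1 := fun s => (hB0 s).trans (Nat.le_succ _)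
    refine ⟨Asm.nV (Assemble.sys P), Asm.TT (Assemble.sys P) d, ?_, ?_, ?_, ?_, ?_⟩
    · rw [Nat.card_eq_fintype_card]
      exact Asm.nV_ge (Assemble.sys P) hB0 ⟨0, hn⟩
    · intro τ hτ
      obtain ⟨S, hS, g, rfl⟩ := (Asm.mem_TT (Assemble.sys P) d).1 hτ
      rw [Asm.card_face, hS]
    · intro v
      exact ⟨Asm.one_le_vertexDegree _ d hcard v, Asm.vertexDegree_le _ d hB v⟩
    · exact Asm.skeleton_connected _ d hcard hd (1 / C₁) (by positivity) hX
    · intro i hi f
      exact Asm.main_ineq _ d hB hcard (1 / C₁) (by positivity) hX (by omega) i hi f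

end Crest.Agent.R066
end

-- ▼ part R066/Main

/-! Final assembly (task T8). -/

set_option autoImplicit false
open scoped BigOperators

namespace Crest.Agent.R066

theorem Mix.mono {I : Type} [DecidableEq I] {G : Type} [Group G] [Fintype G] {P : I → Subgroup G} {J₀ : Finset I}
    {a b : I} {lam lam' : ℝ} (h0 : 0 ≤ lam) (h : lam ≤ lam') (hm : Mix P J₀ a b lam) : Mix P J₀ a b lam' := by
  classical
  intro φ ψ h1 h2 h3
  refine (hm φ ψ h1 h2 h3).trans ?_
  have h4 : lam ^ 2 ≤ lam' ^ 2 := pow_le_pow_left₀ h0 h 2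
  have h5 : 0 ≤ ∑ g ∈ Finset.univ.filter (fun g : G => g ∈ PJ P J₀), φ g ^ 2 :=
    Finset.sum_nonneg fun g _ => sq_nonneg _
  have h6 : 0 ≤ ∑ g ∈ Finset.univ.filter (fun g : G => g ∈ PJ P J₀), ψ g ^ 2 :=
    Finset.sum_nonneg fun g _ => sq_nonneg _
  exact mul_le_mul_of_nonneg_right (mul_le_mul_of_nonneg_right h4 h5) h6

theorem main (d : ℕ) (hd : 3 ≤ d) :
    ∃ D : ℕ, ∃ ε : ℝ, 0 < ε ∧ ∀ N : ℕ, ∃ n : ℕ, ∃ T : Finset (Finset (Fin n)), N ≤ n ∧
      (∀ τ ∈ T, τ.card = d + 1) ∧
      (∀ v : Fin n, 1 ≤ Crest.CombinatoricsR.Cochain.vertexDegree T v ∧ Crest.CombinatoricsR.Cochain.vertexDegree T v ≤ D) ∧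
      (Crest.CombinatoricsR.Cochain.skeleton T).Connected ∧
      ∀ i : ℕ, i < d → ∀ f : Finset (Fin n) → ZMod 2,
        ∃ b : Finset (Fin n) → ZMod 2, Crest.CombinatoricsR.Cochain.IsCoboundaryClass i b ∧
          ε * Crest.CombinatoricsR.Cochain.cochainNorm d T i (f - b) ≤ Crest.CombinatoricsR.Cochain.cochainNorm d T (i + 1) (Crest.CombinatoricsR.Cochain.coboundary i f) := by
  classical
  obtain ⟨R, hR⟩ := van_of_exact
  obtain ⟨n, hn3, hRn⟩ : ∃ n : ℕ, d + 3 ≤ n ∧ ∀ m, m ≤ d → R m ≤ n := by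
    refine ⟨d + 3 + ∑ m ∈ Finset.range (d + 1), R m, Nat.le_add_right _ _, fun m hm => ?_⟩
    have : R m ≤ ∑ m ∈ Finset.range (d + 1), R m :=
      Finset.single_le_sum (f := R) (fun _ _ => Nat.zero_le _) (Finset.mem_range.2 (by omega))
    omega
  have : NeZero n := ⟨by omega⟩
  obtain ⟨β, hβ, q₁, hq₁⟩ := unip_linkExp n
  obtain ⟨lam, hlam, hlg⟩ := local_to_global n d (by omega) β hβ
  obtain ⟨ε, hε, htr⟩ := trickle n lam hlam
  have hx : ∀ n' : ℕ, ∃ q : ℕ, ∀ (F : Type) [Field F] [Fintype F], q ≤ Fintype.card F → 1 ≤ n' →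
      ∀ m, m + 2 ≤ n' → ExactAt (Lat.XCx F n') m := by
    intro n'
    by_cases h : 1 ≤ n'
    · obtain ⟨q, hq⟩ := Lat.xcx_exact n' h
      exact ⟨q, fun F _ _ hF _ => hq F hF⟩
    · exact ⟨0, fun F _ _ _ h' => absurd h' h⟩
  choose q₂ hq₂ using hx
  obtain ⟨p, hpge, hp⟩ := Nat.exists_infinite_primes
    (3 + q₁ + ∑ n' ∈ Finset.range (n + 1), q₂ n' + ⌈(1 / ε) ^ 2⌉₊)
  have hp2 : p ≠ 2 := by omega
  have : Fact p.Prime := ⟨hp⟩
  have hp0 : (0 : ℝ) < p := by exact_mod_cast hp.pos
  have hsqrt : 1 / Real.sqrt p ≤ ε := by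
    have h1 : (1 / ε) ^ 2 ≤ (p : ℝ) := (Nat.le_ceil _).trans (by exact_mod_cast (by omega : ⌈(1 / ε) ^ 2⌉₊ ≤ p))
    have h2 : 1 / ε ≤ Real.sqrt p := Real.le_sqrt_of_sq_le h1
    rw [div_le_iff₀ (Real.sqrt_pos.2 hp0)]
    rw [div_le_iff₀ hε] at h2
    linarith [mul_comm ε (Real.sqrt p)]
  have hex : ∀ n' : ℕ, n' ≤ n → ∀ [NeZero n'], ∀ m, m + 2 ≤ n' → ExactAt (cosetCx (HsubU n' p)) m := by
    intro n' hn' inst m hm
    apply coset_exact_of_xcx n' p hp m
    refine hq₂ n' (ZMod p) ?_ (by omega) m hm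
    rw [ZMod.card]
    have : q₂ n' ≤ ∑ n' ∈ Finset.range (n + 1), q₂ n' :=
      Finset.single_le_sum (f := q₂) (fun _ _ => Nat.zero_le _) (Finset.mem_range.2 (by omega))
    omega
  have hfU : Fintype (U n p) := Fintype.ofFinite _
  obtain ⟨C₁, hC₁, hlg'⟩ := hlg (Nat.card (U n p))
  obtain ⟨D, ε', hε', hass⟩ := assemble d n (by omega) (by omega) (Nat.card (U n p)) C₁ hC₁
  refine ⟨D, ε', hε', fun N => ?_⟩
  set D₀ := Nat.card (U n p) with hD₀
  obtain ⟨k, hk2, hkN⟩ : ∃ k : ℕ, 2 ≤ k ∧ D₀ * N < Nat.card (Gk n p k) := by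
    refine ⟨D₀ * N + 2, by omega, ?_⟩
    have h1 := card_Gk (n := n) hp (by omega) (D₀ * N + 2) (by omega)
    have h2 : D₀ * N + 2 - 1 < p ^ (D₀ * N + 2 - 1) := Nat.lt_pow_self hp.one_lt
    omega
  have hfin := finite_Gk (n := n) hp k
  have hfG : Fintype (Gk n p k) := Fintype.ofFinite _
  have hloc := locallyU_Pk (n := n) hp k hk2
  have hcard : ∀ i, Nat.card (Pk n p k i) ≤ D₀ := by
    intro i
    obtain ⟨φ, hφ, hr, _⟩ := hloc i
    rw [← hr, hD₀]
    exact (Nat.card_congr (MonoidHom.ofInjective hφ).toEquiv.symm).le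
  have hlink : ∀ J₀ : Finset (Fin n), J₀.Nonempty → ∀ m : ℕ, 1 ≤ m → m + J₀.card + 1 ≤ n →
      LinkExp (Pk n p k) J₀ m β := by
    intro J₀ hJ m hm1 hm2
    obtain ⟨j, hj⟩ := hJ
    apply linkExp_transport n p (Gk n p k) (Pk n p k) hloc β J₀ j hj m
    refine hq₁ p hp (by omega) _ ?_ m hm1 ?_
    · exact Finset.mem_image.2 ⟨j, hj, sub_self j⟩
    · rw [Finset.card_image_of_injective _ (sub_left_injective)]
      exact hm2
  have hvan : ∀ m : ℕ, 1 ≤ m → m ≤ d → Van (Pk n p k) m :=
    fun m h1 h2 => hR n p hp hp2 hex n k m le_rfl hk2 h1 (hRn m h2)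
  have hmix2 : ∀ J₀ : Finset (Fin n), J₀.card + 2 = n → ∀ a ∉ J₀, ∀ b ∉ J₀, a ≠ b →
      Mix (Pk n p k) J₀ a b ε := by
    intro J₀ hJ a ha b hb hab
    have hne : J₀.Nonempty := by
      rw [← Finset.card_pos]; omega
    obtain ⟨j, hj⟩ := hne
    apply mix_transport n p (Gk n p k) (Pk n p k) hloc ε J₀ j hj a b
    have hinj : Function.Injective (fun i : Fin n => i - j) := sub_left_injective
    refine Mix.mono (by positivity) hsqrt (unip_mix n p hp _ ?_ ?_ _ _ ?_ ?_ ?_)
    · exact Finset.mem_image.2 ⟨j, hj, sub_self j⟩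
    · rw [Finset.card_image_of_injective _ hinj]
      exact hJ
    · intro h
      obtain ⟨i, hi, hia⟩ := Finset.mem_image.1 h
      exact ha (hinj hia ▸ hi)
    · intro h
      obtain ⟨i, hi, hib⟩ := Finset.mem_image.1 h
      exact hb (hinj hib ▸ hi)
    · intro h
      exact hab (hinj h)
  have hconst : ∀ J₀ : Finset (Fin n), J₀.card + 2 ≤ n → ∀ φ : Gk n p k → ℝ,
      (∀ i ∉ J₀, ∀ g ∈ PJ (Pk n p k) J₀, ∀ h ∈ PJ (Pk n p k) (insert i J₀), φ (g * h) = φ g) →
      ∀ g ∈ PJ (Pk n p k) J₀, φ g = φ 1 := by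
    intro J₀ hJ φ hφ
    rcases J₀.eq_empty_or_nonempty with rfl | hne
    · intro g _
      refine const_of_van (Pk n p k) (by rw [Fintype.card_fin]; omega) (hvan 1 le_rfl (by omega)) φ ?_ g
      intro i g h hh
      refine hφ i (by simp) g (by simp [PJ]) h ?_
      simpa [PJ] using hh
    · exact const_of_linkExp (Pk n p k) J₀ (by rw [Fintype.card_fin]; exact hJ) β hβ
        (hlink J₀ hne 1 le_rfl (by omega)) φ hφ
  have hmix := htr (Fin n) (Fintype.card_fin n) (Gk n p k) (Pk n p k) hconst hmix2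
  have hexp := hlg' (Fin n) (Fintype.card_fin n) (Gk n p k) (Pk n p k) hcard
    (fun J₀ hJ m h1 h2 => hlink J₀ hJ m h1 (by omega)) hmix hvan
  obtain ⟨N', T, h1, h2, h3, h4, h5⟩ := hass (Gk n p k) (Pk n p k) hcard hexp
  refine ⟨N', T, ?_, h2, h3, h4, h5⟩
  have h6 : D₀ * N < D₀ * N' := lt_of_lt_of_le hkN h1
  exact (Nat.lt_of_mul_lt_mul_left h6).le

end Crest.Agent.R066
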